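import Mathlib

/-! Partial cumulants of a moment functional, and a crude exponential bound for their weighted
`ℓ²` norm (helper89, row 89, module C2a). -/

set_option autoImplicit false

namespace Crest.Agent.R089

section defs
variable {I : Type*}

/-- Partial cumulants: `beta m w u` is the coefficient of `u` in the vector of the noise Fock
space which represents `Y_w` against all polynomials in `Y + √v S`. -/
noncomputable def beta (m : List I → ℝ) : List I → List I → ℝ
  | w, [] => m w
  | w, i :: u => beta m (i :: w) u -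
      ∑ k ∈ Finset.range (u.length + 1), beta m [i] (u.take k) * beta m w (u.drop k)
termination_by _ u => u.length
decreasing_by
  all_goals simp only [List.length_cons, List.length_take, List.length_drop]
  all_goals omega

theorem beta_nil (m : List I → ℝ) (w : List I) : beta m w [] = m w := by
  rw [beta]

theorem beta_cons (m : List I → ℝ) (w : List I) (i : I) (u : List I) :
    beta m w (i :: u) = beta m (i :: w) u -
      ∑ k ∈ Finset.range (u.length + 1), beta m [i] (u.take k) * beta m w (u.drop k) := by
  rw [beta]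

/-- Large Schröder-type majorant. -/
noncomputable def sch : ℕ → ℝ
  | 0 => 1
  | n + 1 => sch n + ∑ k : Fin (n + 1), sch k * sch (n - k)
decreasing_by
  all_goals omega

theorem sch_zero : sch 0 = 1 := by rw [sch]

theorem sch_succ (n : ℕ) :
    sch (n + 1) = sch n + ∑ k ∈ Finset.range (n + 1), sch k * sch (n - k) := by
  rw [sch, Finset.sum_range]

theorem sch_nonneg (n : ℕ) : 0 ≤ sch n := by
  induction n using Nat.strong_induction_on with
  | _ n ih =>
    cases n with
    | zero => rw [sch_zero]; norm_num
    | succ n =>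
      rw [sch_succ]
      have h1 : 0 ≤ sch n := ih n (by omega)
      have h2 : 0 ≤ ∑ k ∈ Finset.range (n + 1), sch k * sch (n - k) := by
        apply Finset.sum_nonneg
        intro k hk
        rw [Finset.mem_range] at hk
        exact mul_nonneg (ih k hk) (ih (n - k) (by omega))
      linarith

/-- The weighted partial sums of `sch` at `1/6` stay below `2`. -/
theorem sch_sum_le (M : ℕ) : ∑ k ∈ Finset.range M, sch k * (1 / 6) ^ k ≤ 2 := by
  induction M with
  | zero => simp
  | succ M ih =>
    rw [Finset.sum_range_succ', sch_zero]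
    have hterm : ∀ k ∈ Finset.range M, sch (k + 1) * (1 / 6 : ℝ) ^ (k + 1) =
        (1 / 6) * (sch k * (1 / 6) ^ k) + (1 / 6) *
          ∑ j ∈ Finset.range (k + 1), (sch j * (1 / 6) ^ j) * (sch (k - j) * (1 / 6) ^ (k - j)) := by
      intro k hk
      rw [sch_succ, add_mul, Finset.sum_mul]
      have hs : ∑ i ∈ Finset.range (k + 1), sch i * sch (k - i) * (1 / 6 : ℝ) ^ (k + 1) =
          (1 / 6) * ∑ j ∈ Finset.range (k + 1),
            (sch j * (1 / 6) ^ j) * (sch (k - j) * (1 / 6) ^ (k - j)) := by
        rw [Finset.mul_sum]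
        apply Finset.sum_congr rfl
        intro j hj
        rw [Finset.mem_range] at hj
        have : (1 / 6 : ℝ) ^ (k + 1) = (1 / 6) * ((1 / 6) ^ j * (1 / 6) ^ (k - j)) := by
          rw [← pow_add, ← pow_succ']
          congr 1
          omega
        rw [this]
        ring
      rw [hs, pow_succ]
      ring
    rw [Finset.sum_congr rfl hterm, Finset.sum_add_distrib, ← Finset.mul_sum, ← Finset.mul_sum]
    have hprod : ∑ k ∈ Finset.range M, ∑ j ∈ Finset.range (k + 1),
        (sch j * (1 / 6 : ℝ) ^ j) * (sch (k - j) * (1 / 6) ^ (k - j)) ≤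
        (∑ k ∈ Finset.range M, sch k * (1 / 6) ^ k) * (∑ k ∈ Finset.range M, sch k * (1 / 6) ^ k) := by
      rw [Finset.sum_mul_sum, ← Finset.sum_product', Finset.sum_sigma']
      have hinj : Set.InjOn (fun x : (Σ _ : ℕ, ℕ) => (x.2, x.1 - x.2))
          ((Finset.range M).sigma fun k => Finset.range (k + 1)) := by
        intro x hx y hy hxy
        simp only [Finset.coe_sigma, Set.mem_sigma_iff, Finset.mem_coe, Finset.mem_range] at hx hy
        simp only [Prod.mk.injEq] at hxy
        obtain ⟨x1, x2⟩ := x
        obtain ⟨y1, y2⟩ := y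
        simp only at hx hy hxy
        obtain ⟨h1, h2⟩ := hxy
        subst h1
        have : x1 = y1 := by omega
        subst this
        rfl
      have := Finset.sum_image (s := (Finset.range M).sigma fun k => Finset.range (k + 1))
        (g := fun x : (Σ _ : ℕ, ℕ) => (x.2, x.1 - x.2))
        (f := fun y : ℕ × ℕ => (sch y.1 * (1 / 6 : ℝ) ^ y.1) * (sch y.2 * (1 / 6) ^ y.2)) hinj
      simp only at this
      rw [← this]
      apply Finset.sum_le_sum_of_subset_of_nonneg
      · intro y hy
        simp only [Finset.mem_image, Finset.mem_sigma, Finset.mem_range] at hy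
        obtain ⟨x, ⟨hx1, hx2⟩, rfl⟩ := hy
        simp only [Finset.mem_product, Finset.mem_range]
        omega
      · intro y _ _
        have := sch_nonneg y.1
        have := sch_nonneg y.2
        positivity
    have hS0 : 0 ≤ ∑ k ∈ Finset.range M, sch k * (1 / 6 : ℝ) ^ k := by
      apply Finset.sum_nonneg
      intro k _
      have := sch_nonneg k
      positivity
    set S := ∑ k ∈ Finset.range M, sch k * (1 / 6 : ℝ) ^ k with hS
    have hSS : S * S ≤ 4 := by nlinarith
    norm_num
    linarith

theorem sch_le (k : ℕ) : sch k ≤ 2 * 6 ^ k := by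
  have h := sch_sum_le (k + 1)
  rw [Finset.sum_range_succ] at h
  have h0 : 0 ≤ ∑ k ∈ Finset.range k, sch k * (1 / 6 : ℝ) ^ k := by
    apply Finset.sum_nonneg
    intro k _
    have := sch_nonneg k
    positivity
  have h1 : sch k * (1 / 6 : ℝ) ^ k ≤ 2 := by linarith
  have h6 : (0 : ℝ) < 6 ^ k := by positivity
  rw [one_div, inv_pow, ← div_eq_mul_inv, div_le_iff₀ h6] at h1
  exact h1

/-- Size of the partial cumulants. -/
theorem abs_beta_le (m : List I → ℝ) (L : ℝ) (hL : 0 ≤ L) (hm : ∀ w, |m w| ≤ L ^ w.length)
    (n : ℕ) : ∀ (u w : List I), u.length = n →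
      |beta m w u| ≤ L ^ (w.length + u.length) * sch u.length := by
  induction n using Nat.strong_induction_on with
  | _ n ih =>
    intro u w hu
    cases u with
    | nil => rw [beta_nil]; simpa [sch_zero] using hm w
    | cons i u =>
      rw [List.length_cons] at hu
      rw [beta_cons, List.length_cons, sch_succ]
      have h1 : |beta m (i :: w) u| ≤ L ^ ((i :: w).length + u.length) * sch u.length :=
        ih u.length (by omega) u (i :: w) rfl
      have h2 : |∑ k ∈ Finset.range (u.length + 1), beta m [i] (u.take k) * beta m w (u.drop k)| ≤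
          ∑ k ∈ Finset.range (u.length + 1), L ^ (w.length + (u.length + 1)) *
            (sch k * sch (u.length - k)) := by
        refine (Finset.abs_sum_le_sum_abs _ _).trans (Finset.sum_le_sum ?_)
        intro k hk
        rw [Finset.mem_range] at hk
        have hk1 : (u.take k).length = k := by rw [List.length_take]; omega
        have hk2 : (u.drop k).length = u.length - k := by rw [List.length_drop]
        have a1 := ih (u.take k).length (by omega) (u.take k) [i] rfl
        have a2 := ih (u.drop k).length (by omega) (u.drop k) w rfl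
        rw [hk1] at a1
        rw [hk2] at a2
        rw [abs_mul]
        have e : L ^ (w.length + (u.length + 1)) * (sch k * sch (u.length - k)) =
            (L ^ ([i].length + k) * sch k) * (L ^ (w.length + (u.length - k)) * sch (u.length - k)) := by
          have : L ^ (w.length + (u.length + 1)) =
              L ^ ([i].length + k) * L ^ (w.length + (u.length - k)) := by
            rw [← pow_add]
            congr 1
            simp only [List.length_singleton]
            omega
          rw [this]
          ring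
        rw [e]
        exact mul_le_mul a1 a2 (abs_nonneg _) (mul_nonneg (pow_nonneg hL _) (sch_nonneg _))
      rw [← Finset.mul_sum] at h2
      have e1 : (i :: w).length + u.length = w.length + (u.length + 1) := by
        simp only [List.length_cons]; omega
      rw [e1] at h1
      calc |beta m (i :: w) u - ∑ k ∈ Finset.range (u.length + 1),
              beta m [i] (u.take k) * beta m w (u.drop k)|
          ≤ |beta m (i :: w) u| + |∑ k ∈ Finset.range (u.length + 1),
              beta m [i] (u.take k) * beta m w (u.drop k)| := abs_sub _ _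
        _ ≤ _ := by rw [mul_add]; exact add_le_add h1 h2

/-- Support of the partial cumulants. -/
theorem moment_ne_zero_of_beta_ne_zero (m : List I → ℝ)
    (hins : ∀ A V B : List I, m V ≠ 0 → m (A ++ B) ≠ 0 → m (A ++ V ++ B) ≠ 0) (n : ℕ) :
    ∀ (u w : List I), u.length = n → beta m w u ≠ 0 → m (u.reverse ++ w) ≠ 0 := by
  induction n using Nat.strong_induction_on with
  | _ n ih =>
    intro u w hu hne
    cases u with
    | nil => rw [beta_nil] at hne; simpa using hne
    | cons i u =>
      rw [List.length_cons] at hu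
      rw [beta_cons] at hne
      by_cases h1 : beta m (i :: w) u = 0
      · rw [h1, zero_sub, neg_ne_zero] at hne
        obtain ⟨k, hk, hk'⟩ := Finset.exists_ne_zero_of_sum_ne_zero hne
        rw [Finset.mem_range] at hk
        have a1 : beta m [i] (u.take k) ≠ 0 := left_ne_zero_of_mul hk'
        have a2 : beta m w (u.drop k) ≠ 0 := right_ne_zero_of_mul hk'
        have b1 := ih (u.take k).length (by rw [List.length_take]; omega) _ _ rfl a1
        have b2 := ih (u.drop k).length (by rw [List.length_drop]; omega) _ _ rfl a2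
        have := hins (u.drop k).reverse ((u.take k).reverse ++ [i]) w b1 b2
        have e : (i :: u).reverse ++ w =
            (u.drop k).reverse ++ ((u.take k).reverse ++ [i]) ++ w := by
          rw [List.reverse_cons]
          conv_lhs => rw [← List.take_append_drop k u, List.reverse_append]
          simp only [List.append_assoc]
        rw [e]
        exact this
      · have := ih u.length (by omega) u (i :: w) rfl h1
        simpa using this

end defs

section bound
variable {I : Type*} [Fintype I]

/-- The squared length of the degree `k` part of the representing vector. -/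
noncomputable def xiSq (m : List I → ℝ) (v : I → ℝ) (i : I) (k : ℕ) : ℝ :=
  ∑ u : Fin k → I, beta m [i] (List.ofFn u) ^ 2 * ∏ j, (v (u j))⁻¹

theorem xiSq_nonneg (m : List I → ℝ) (v : I → ℝ) (hv : ∀ j, 0 < v j) (i : I) (k : ℕ) :
    0 ≤ xiSq m v i k := by
  apply Finset.sum_nonneg
  intro u _
  apply mul_nonneg (sq_nonneg _)
  apply Finset.prod_nonneg
  intro j _
  exact (inv_pos.mpr (hv _)).le

theorem xiSq_le (m : List I → ℝ) (v : I → ℝ) (L G κ t : ℝ) (hL : 0 ≤ L)
    (hκ : 0 < κ) (ht : 0 < t)
    (hm : ∀ w, |m w| ≤ L ^ w.length)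
    (hpos : ∀ w, m w = 0 ∨ κ ^ w.length ≤ m w)
    (hins : ∀ A V B : List I, m V ≠ 0 → m (A ++ B) ≠ 0 → m (A ++ V ++ B) ≠ 0)
    (hsum : ∀ (i : I) (k : ℕ), ∑ u : Fin k → I, m ((List.ofFn u).reverse ++ [i]) ≤ G ^ k)
    (hv : ∀ j, t ≤ v j) (i : I) (k : ℕ) :
    xiSq m v i k ≤ (4 * L ^ 2 / κ) * (36 * L ^ 2 * G / (κ * t)) ^ k := by
  have hm0 : ∀ w, 0 ≤ m w := by
    intro w
    rcases hpos w with h | h
    · rw [h]
    · exact (pow_nonneg hκ.le _).trans h
  have key : ∀ u : Fin k → I, beta m [i] (List.ofFn u) ^ 2 * ∏ j, (v (u j))⁻¹ ≤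
      ((4 * L ^ 2 / κ) * (36 * L ^ 2 / (κ * t)) ^ k) * m ((List.ofFn u).reverse ++ [i]) := by
    intro u
    by_cases hb : beta m [i] (List.ofFn u) = 0
    · rw [hb]
      have := hm0 ((List.ofFn u).reverse ++ [i])
      simp only [ne_eq, OfNat.ofNat_ne_zero, not_false_eq_true, zero_pow, zero_mul]
      positivity
    · have hne := moment_ne_zero_of_beta_ne_zero m hins k (List.ofFn u) [i]
        (List.length_ofFn) hb
      have hge : κ ^ (k + 1) ≤ m ((List.ofFn u).reverse ++ [i]) := by
        rcases hpos ((List.ofFn u).reverse ++ [i]) with h | h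
        · exact absurd h hne
        · simpa using h
      have hbeta : |beta m [i] (List.ofFn u)| ≤ L ^ (1 + k) * sch k := by
        have := abs_beta_le m L hL hm k (List.ofFn u) [i] (List.length_ofFn)
        simpa using this
      have hbeta' : |beta m [i] (List.ofFn u)| ≤ L ^ (1 + k) * (2 * 6 ^ k) :=
        hbeta.trans (mul_le_mul_of_nonneg_left (sch_le k) (pow_nonneg hL _))
      have hsq : beta m [i] (List.ofFn u) ^ 2 ≤ (L ^ (1 + k) * (2 * 6 ^ k)) ^ 2 := by
        rw [← sq_abs]
        exact pow_le_pow_left₀ (abs_nonneg _) hbeta' 2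
      have hprod : ∏ j, (v (u j))⁻¹ ≤ (t⁻¹) ^ k := by
        calc ∏ j, (v (u j))⁻¹ ≤ ∏ _j : Fin k, t⁻¹ := by
              apply Finset.prod_le_prod
              · intro j _
                exact (inv_pos.mpr (ht.trans_le (hv _))).le
              · intro j _
                exact inv_anti₀ ht (hv _)
          _ = (t⁻¹) ^ k := by simp
      have hprod0 : 0 ≤ ∏ j, (v (u j))⁻¹ := by
        apply Finset.prod_nonneg
        intro j _
        exact (inv_pos.mpr (ht.trans_le (hv _))).le
      calc beta m [i] (List.ofFn u) ^ 2 * ∏ j, (v (u j))⁻¹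
          ≤ (L ^ (1 + k) * (2 * 6 ^ k)) ^ 2 * (t⁻¹) ^ k :=
            mul_le_mul hsq hprod hprod0 (sq_nonneg _)
        _ = ((4 * L ^ 2 / κ) * (36 * L ^ 2 / (κ * t)) ^ k) * κ ^ (k + 1) := by
            have h36 : (36 : ℝ) ^ k = 6 ^ k * 6 ^ k := by rw [← mul_pow]; norm_num
            have hκk : κ ^ k ≠ 0 := (pow_pos hκ k).ne'
            have htk : t ^ k ≠ 0 := (pow_pos ht k).ne'
            rw [div_pow, mul_pow (36 : ℝ), mul_pow κ t, h36, pow_add L, pow_succ κ, pow_one,
              inv_pow, ← pow_mul]
            field_simp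
            ring
        _ ≤ _ := by
            apply mul_le_mul_of_nonneg_left hge
            positivity
  unfold xiSq
  calc ∑ u : Fin k → I, beta m [i] (List.ofFn u) ^ 2 * ∏ j, (v (u j))⁻¹
      ≤ ∑ u : Fin k → I, ((4 * L ^ 2 / κ) * (36 * L ^ 2 / (κ * t)) ^ k) *
          m ((List.ofFn u).reverse ++ [i]) := Finset.sum_le_sum fun u _ => key u
    _ = ((4 * L ^ 2 / κ) * (36 * L ^ 2 / (κ * t)) ^ k) *
          ∑ u : Fin k → I, m ((List.ofFn u).reverse ++ [i]) := by rw [Finset.mul_sum]
    _ ≤ ((4 * L ^ 2 / κ) * (36 * L ^ 2 / (κ * t)) ^ k) * G ^ k := by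
        apply mul_le_mul_of_nonneg_left (hsum i k)
        positivity
    _ = (4 * L ^ 2 / κ) * (36 * L ^ 2 * G / (κ * t)) ^ k := by
        rw [mul_assoc, ← mul_pow]
        congr 2
        ring

/-- **C2a**: the representing vector has squared norm at most `1` once the noise level `t`
exceeds a constant multiple of `G`. -/
theorem sum_xiSq_le_one (m : List I → ℝ) (v : I → ℝ) (L G κ t : ℝ) (hL : 0 ≤ L)
    (hG : 0 ≤ G) (hκ : 0 < κ) (ht : 0 < t)
    (hm : ∀ w, |m w| ≤ L ^ w.length)
    (hpos : ∀ w, m w = 0 ∨ κ ^ w.length ≤ m w)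
    (hins : ∀ A V B : List I, m V ≠ 0 → m (A ++ B) ≠ 0 → m (A ++ V ++ B) ≠ 0)
    (hsum : ∀ (i : I) (k : ℕ), ∑ u : Fin k → I, m ((List.ofFn u).reverse ++ [i]) ≤ G ^ k)
    (hcent : ∀ i, m [i] = 0)
    (hv : ∀ j, t ≤ v j)
    (htG : 36 * L ^ 2 * G / κ * (1 + 4 * L ^ 2 / κ) ≤ t) (i : I) (M : ℕ) :
    ∑ k ∈ Finset.range M, xiSq m v i k ≤ 1 := by
  set q : ℝ := 36 * L ^ 2 * G / (κ * t) with hq
  set a : ℝ := 4 * L ^ 2 / κ with ha
  have ha0 : 0 ≤ a := by positivity
  have hq0 : 0 ≤ q := by positivity
  have hqa : q * (1 + a) ≤ 1 := by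
    have : q * (1 + a) = (36 * L ^ 2 * G / κ * (1 + 4 * L ^ 2 / κ)) / t := by
      rw [hq, ha]; field_simp
    rw [this, div_le_one ht]
    exact htG
  have hq1 : q ≤ 1 := by nlinarith
  -- partial sums of the geometric series, starting from `k = 1`
  have hgeo : ∀ N : ℕ, (1 - q) * ∑ k ∈ Finset.range N, q ^ (k + 1) ≤ q := by
    intro N
    induction N with
    | zero => simpa using hq0
    | succ N ih =>
      have hform : ∀ N : ℕ, (1 - q) * ∑ k ∈ Finset.range N, q ^ (k + 1) = q - q ^ (N + 1) := by
        intro N
        induction N with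
        | zero => simp
        | succ N ih =>
          rw [Finset.sum_range_succ, mul_add, ih]
          ring
      rw [hform]
      have : 0 ≤ q ^ (N + 1 + 1) := by positivity
      linarith
  have hzero : xiSq m v i 0 = 0 := by
    unfold xiSq
    simp [beta_nil, hcent]
  cases M with
  | zero => simp
  | succ M =>
    rw [Finset.sum_range_succ', hzero, add_zero]
    have hterm : ∑ k ∈ Finset.range M, xiSq m v i (k + 1) ≤
        a * ∑ k ∈ Finset.range M, q ^ (k + 1) := by
      rw [Finset.mul_sum]
      apply Finset.sum_le_sum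
      intro k _
      exact xiSq_le m v L G κ t hL hκ ht hm hpos hins hsum hv i (k + 1)
    rcases eq_or_lt_of_le hq1 with h1 | h1
    · -- `q = 1` forces `a = 0`
      have ha' : a = 0 := by
        rw [h1, one_mul] at hqa
        linarith
      rw [ha', zero_mul] at hterm
      linarith
    · have hs := hgeo M
      have h1q : 0 < 1 - q := by linarith
      have hS0 : 0 ≤ ∑ k ∈ Finset.range M, q ^ (k + 1) := by positivity
      have : a * ∑ k ∈ Finset.range M, q ^ (k + 1) ≤ 1 := by
        have h2 : (1 - q) * (a * ∑ k ∈ Finset.range M, q ^ (k + 1)) ≤ (1 - q) * 1 := by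
          calc (1 - q) * (a * ∑ k ∈ Finset.range M, q ^ (k + 1))
              = a * ((1 - q) * ∑ k ∈ Finset.range M, q ^ (k + 1)) := by ring
            _ ≤ a * q := mul_le_mul_of_nonneg_left hs ha0
            _ ≤ (1 - q) * 1 := by linarith
        exact le_of_mul_le_mul_left h2 h1q
      linarith

end bound

end Crest.Agent.R089
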