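import Crest.Agent.R089.Cumulant

/-!
# R089: Schwinger-Dyson functionals are tracial; coefficients of words in the Fock space;
chaos coefficients of polynomials in `Z_j = Y_j + ν_j s_j`.
-/

set_option autoImplicit false

namespace Crest.Agent.R089

section trace

variable {L : Type*} [DecidableEq L]

theorem sd_last {m : List L → ℝ} (h0 : m [] = 1)
    (h : ∀ a x, m (a :: x) = ss (fun p b q => if b = a then m p * m q else 0) x)
    (x : List L) (a : L) :
    m (x ++ [a]) = ss (fun p b q => if b = a then m p * m q else 0) x := by
  induction' hn : x.length using Nat.strong_induction_on with n ih generalizing x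
  cases x with
  | nil => simp [h]
  | cons c x =>
    rw [List.cons_append, h, ss_append]
    have e1 : ss (fun p b q => if b = c then m p * m (q ++ [a]) else 0) x =
        ss (fun p b q => ss (fun p' b' q' => if b = c then (if b' = a then
          m p * (m p' * m q') else 0) else 0) q) x := by
      refine ss_congr x fun p b q hx => ?_
      split_ifs with hb
      · rw [ih q.length (by rw [← hn, ← hx]; simp; omega) q rfl, ← ss_mul_left]
        exact ss_congr _ fun p' b' q' _ => by split_ifs <;> simp
      · simp
    have e2 : ss (fun p b q => if b = c then m (x ++ p) * m q else 0) [a] =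
        if a = c then m x else 0 := by
      simp [ss_cons, h0]
    rw [e1, e2, ss_cons, add_comm, ss_ss (fun p b p' b' q' => if b = c then (if b' = a then
          m p * (m p' * m q') else 0) else 0)]
    congr 1
    · simp only [h0, one_mul]
      by_cases hac : a = c
      · subst hac; simp
      · rw [if_neg hac, if_neg (fun hh => hac hh.symm)]
    · refine ss_congr x fun U' j U'' _ => ?_
      by_cases hj : j = a
      · subst hj
        simp only [if_true]
        rw [h, ← ss_mul_right]
        exact ss_congr _ fun p' b' q' _ => by split_ifs <;> ring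
      · simp [hj]

/-- Schwinger-Dyson functionals are tracial. -/
theorem isSC_of_sd {m : List L → ℝ} (h0 : m [] = 1)
    (h : ∀ a x, m (a :: x) = ss (fun p b q => if b = a then m p * m q else 0) x) : IsSC m := by
  refine ⟨h0, h, fun x => ?_⟩
  induction x with
  | nil => intro y; simp
  | cons a x ih =>
    intro y
    have e1 : m (a :: x ++ y) = m ((x ++ y) ++ [a]) := by
      rw [sd_last h0 h, List.cons_append, h]
    rw [e1, List.append_assoc, ih (y ++ [a]), List.append_assoc, List.singleton_append]

theorem isSC_of_sd_range {m : List L → ℝ} (h0 : m [] = 1)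
    (h : ∀ (j : L) (w : List L), m (j :: w) =
      ∑ k ∈ Finset.range w.length,
        if w[k]? = some j then m (w.take k) * m (w.drop (k + 1)) else 0) : IsSC m :=
  isSC_of_sd h0 fun a x => by rw [h, ss_eq_sum_range a (fun p q => m p * m q) x]

/-- The coefficient of the word `x` applied to the vacuum at the basis vector `z`. -/
def cf : List L → List L → ℝ
  | [], z => if z = [] then 1 else 0
  | a :: x, z => cf x (a :: z) +
      (match z with
        | [] => 0
        | b :: z' => if b = a then cf x z' else 0)

theorem cf_nil (z : List L) : cf ([] : List L) z = if z = [] then 1 else 0 := by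
  rw [cf]

theorem cf_cons_nil (a : L) (x : List L) : cf (a :: x) [] = cf x [a] := by
  rw [cf, add_zero]

theorem cf_cons_cons (a b : L) (x z : List L) :
    cf (a :: x) (b :: z) = cf x (a :: b :: z) + if b = a then cf x z else 0 := by
  rw [cf]

/-- **Lemma A**: the coefficients are iterated split pairings of the vacuum moments. -/
theorem cf_eq_DD (x z : List L) : cf x z = DD (fun u => cf u []) z x := by
  induction' hn : x.length using Nat.strong_induction_on with n ih generalizing x z
  cases x with
  | nil =>
    cases z with
    | nil => simp [DD_nil]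
    | cons g z => simp [cf_nil, DD_cons]
  | cons a x =>
    cases z with
    | nil => rw [DD_nil]
    | cons g z =>
      rw [cf_cons_cons, DD_cons, ss_cons, ih x.length (by simp [← hn]) x (a :: g :: z) rfl,
        ih x.length (by simp [← hn]) x z rfl, DD_cons, add_comm]
      congr 1
      · simp only [cf_nil, if_true, one_mul]
        by_cases hga : g = a
        · subst hga; simp
        · rw [if_neg hga, if_neg (fun hh => hga hh.symm)]
      · have e1 : ss (fun U' i U'' => if i = a then
            cf U' [] * DD (fun u => cf u []) (g :: z) U'' else 0) x =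
            ss (fun U' i U'' => ss (fun A b B => if i = a then (if b = g then
              cf U' [] * (cf A [] * DD (fun u => cf u []) z B) else 0) else 0) U'') x := by
          refine ss_congr x fun U' i U'' _ => ?_
          split_ifs
          · rw [DD_cons, ← ss_mul_left]
            exact ss_congr _ fun _ _ _ _ => by split_ifs <;> simp
          · simp
        rw [e1, ss_ss (fun U' i A b B => if i = a then (if b = g then
              cf U' [] * (cf A [] * DD (fun u => cf u []) z B) else 0) else 0)]
        refine ss_congr x fun U' j U'' hx => ?_
        by_cases hj : j = g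
        · subst hj
          simp only [if_true]
          rw [cf_cons_nil, ih U'.length (by rw [← hn, ← hx]; simp) U' [a] rfl, DD_cons,
            ← ss_mul_right]
          refine ss_congr _ fun p b q _ => ?_
          rw [DD_nil]
          split_ifs <;> ring
        · simp [hj]

/-- The vacuum moments `m u = cf u []` form a semicircular system. -/
theorem isSC_cf : IsSC (fun u : List L => cf u []) := by
  refine isSC_of_sd (by simp [cf_nil]) fun a x => ?_
  rw [cf_cons_nil, cf_eq_DD x [a], DD_cons]
  rfl

end trace

section chaos

variable {H I E : Type*} [DecidableEq H] [DecidableEq I] [Fintype E]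

/-- coefficients of the blocks `Z_i = Y_i + ν_i s_i`, `Y_i = ∑ e, c i e • (word wh i e)`. -/
def cZ (c : I → E → ℝ) (ν : I → ℝ) : I → Option E → ℝ
  | i, none => ν i
  | i, some e => c i e

/-- words of the blocks `Z_i = Y_i + ν_i s_i`. -/
def wZ (wh : I → E → List H) : I → Option E → List (H ⊕ I)
  | i, none => [Sum.inr i]
  | i, some e => (wh i e).map Sum.inl

variable (c : I → E → ℝ) (ν : I → ℝ) (wh : I → E → List H) (m : List (H ⊕ I) → ℝ)

theorem tau2_DD_cons (j : I) (z : List (H ⊕ I)) (x : List (H ⊕ I)) (U : List I) :
    tau2 (DD m (Sum.inr j :: z)) (cZ c ν) (wZ wh) x U =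
      ss (fun p b q => if b = Sum.inr j then
        m p * tau2 (DD m z) (cZ c ν) (wZ wh) q U else 0) x +
      ss (fun U' i U'' => if i = j then
        ν j * (tau2 m (cZ c ν) (wZ wh) x U' * tau2 (DD m z) (cZ c ν) (wZ wh) [] U'')
          else 0) U := by
  induction U generalizing x with
  | nil =>
    simp only [tau2_nil, ss_nil, add_zero]
    rw [DD_cons]
  | cons i0 U ih =>
    rw [tau2_cons, ss_cons]
    have e1 : ∀ e, tau2 (DD m (Sum.inr j :: z)) (cZ c ν) (wZ wh) (x ++ wZ wh i0 e) U =
        ss (fun p b q => if b = Sum.inr j then
          m p * tau2 (DD m z) (cZ c ν) (wZ wh) (q ++ wZ wh i0 e) U else 0) x +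
        ss (fun p b q => if b = Sum.inr j then
          m (x ++ p) * tau2 (DD m z) (cZ c ν) (wZ wh) q U else 0) (wZ wh i0 e) +
        ss (fun U' i U'' => if i = j then
          ν j * (tau2 m (cZ c ν) (wZ wh) (x ++ wZ wh i0 e) U' *
            tau2 (DD m z) (cZ c ν) (wZ wh) [] U'') else 0) U := by
      intro e
      rw [ih (x ++ wZ wh i0 e), ss_append]
    simp only [e1, mul_add, Finset.sum_add_distrib]
    rw [add_assoc]
    congr 1
    · rw [Finset.sum_congr rfl fun e _ => (ss_mul_left (cZ c ν i0 e) _ x).symm, ← ss_finset_sum]
      refine ss_congr _ fun p b q _ => ?_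
      split_ifs
      · rw [tau2_cons, Finset.mul_sum]
        exact Finset.sum_congr rfl fun e _ => by ring
      · simp
    · congr 1
      · rw [Fintype.sum_option]
        have hz : ∀ e : E, cZ c ν i0 (some e) * ss (fun p b q => if b = Sum.inr j then
            m (x ++ p) * tau2 (DD m z) (cZ c ν) (wZ wh) q U else 0) (wZ wh i0 (some e)) = 0 := by
          intro e
          have : ∀ l : List H, ss (fun p b q => if b = Sum.inr j then
            m (x ++ p) * tau2 (DD m z) (cZ c ν) (wZ wh) q U else 0) (l.map Sum.inl) = 0 := by
            intro l
            rw [ss_congr (F' := fun _ _ _ => (0 : ℝ))]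
            · exact ss_zero _
            · intro p b q hpq
              have hb : b ∈ l.map (Sum.inl : H → H ⊕ I) := by rw [← hpq]; simp
              obtain ⟨a, -, rfl⟩ := List.mem_map.1 hb
              simp
          rw [show wZ wh i0 (some e) = (wh i0 e).map Sum.inl from rfl, this, mul_zero]
        rw [Finset.sum_congr rfl fun e _ => hz e, Finset.sum_const_zero, add_zero]
        change ν i0 * ss _ [Sum.inr i0] = _
        simp only [ss_cons, ss_nil, add_zero, List.append_nil, Sum.inr.injEq, tau2_nil]
        by_cases hij : i0 = j
        · subst hij; simp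
        · simp [hij]
      · rw [Finset.sum_congr rfl fun e _ => (ss_mul_left (cZ c ν i0 e) _ U).symm,
          ← ss_finset_sum]
        refine ss_congr _ fun U' i U'' _ => ?_
        split_ifs
        · rw [tau2_cons, Finset.sum_mul, Finset.mul_sum]
          exact Finset.sum_congr rfl fun e _ => by ring
        · simp

/-- **Lemma B**: chaos coefficients of the products of blocks. -/
theorem tau2_DD_noise (v U : List I) :
    tau2 (DD m (v.map Sum.inr)) (cZ c ν) (wZ wh) [] U =
      (v.map ν).prod * DD (tau2 m (cZ c ν) (wZ wh) []) v U := by
  induction v generalizing U with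
  | nil =>
    simp only [List.map_nil, List.prod_nil, one_mul, DD_nil]
    rfl
  | cons j v ih =>
    rw [List.map_cons, tau2_DD_cons, ss_nil, zero_add, List.map_cons, List.prod_cons, DD_cons,
      ← ss_mul_left]
    refine ss_congr _ fun U' i U'' _ => ?_
    split_ifs
    · rw [ih]; ring
    · simp

end chaos

end Crest.Agent.R089
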