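import Mathlib
import Crest.Prelude.Def_FreeEntropy
import Crest.Prelude.Def_CStarRep

set_option autoImplicit false
set_option linter.unusedSectionVars false

namespace Crest.Agent.R089

open Crest.OpAlg MeasureTheory Set
open scoped ENNReal InnerProductSpace

section algebra
variable {A : Type*} [Ring A] [Algebra ℂ A] {n : ℕ}

theorem polyEval_eq_sum (X : Fin n → A) (P : NCPoly n) :
    polyEval X P = P.coeff.sum fun w c => c • wordEval X w := by
  simp [polyEval, MonoidAlgebra.lift_apply, wordEval]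

@[simp] theorem polyEval_single (X : Fin n → A) (w : FreeMonoid (Fin n)) (c : ℂ) :
    polyEval X (MonoidAlgebra.single w c) = c • wordEval X w := by
  simp [polyEval, wordEval]

@[simp] theorem polyEval_add (X : Fin n → A) (P Q : NCPoly n) :
    polyEval X (P + Q) = polyEval X P + polyEval X Q := by
  simp [polyEval]

@[simp] theorem polyEval_mul (X : Fin n → A) (P Q : NCPoly n) :
    polyEval X (P * Q) = polyEval X P * polyEval X Q := by
  simp [polyEval]

@[simp] theorem polyEval_smul (X : Fin n → A) (c : ℂ) (P : NCPoly n) :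
    polyEval X (c • P) = c • polyEval X P := by
  simp [polyEval]

@[simp] theorem polyEval_zero (X : Fin n → A) : polyEval X (0 : NCPoly n) = 0 := by
  simp [polyEval]

@[simp] theorem polyEval_one (X : Fin n → A) : polyEval X (1 : NCPoly n) = 1 := by
  simp [polyEval]

@[simp] theorem wordEval_one (X : Fin n → A) : wordEval X (1 : FreeMonoid (Fin n)) = 1 := by
  simp [wordEval]

@[simp] theorem wordEval_mul (X : Fin n → A) (v w : FreeMonoid (Fin n)) :
    wordEval X (v * w) = wordEval X v * wordEval X w := by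
  simp [wordEval]

@[simp] theorem wordEval_of (X : Fin n → A) (i : Fin n) :
    wordEval X (FreeMonoid.of i) = X i := by
  simp [wordEval]

theorem wordEval_eq_prod (X : Fin n → A) (w : FreeMonoid (Fin n)) :
    wordEval X w = ((FreeMonoid.toList w).map X).prod := by
  simp [wordEval, FreeMonoid.lift_apply]

/-- The splitting functional on a single word. -/
noncomputable def splitWord (τ : A →ₗ[ℂ] ℂ) (X : Fin n → A) (i : Fin n)
    (w : FreeMonoid (Fin n)) : ℂ :=
  ∑ k ∈ Finset.range (FreeMonoid.toList w).length,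
    if (FreeMonoid.toList w)[k]? = some i then
      τ (wordEval X (FreeMonoid.toList.symm ((FreeMonoid.toList w).take k))) *
        τ (wordEval X (FreeMonoid.toList.symm ((FreeMonoid.toList w).drop (k + 1))))
    else 0

theorem splitPairing_eq_sum (τ : A →ₗ[ℂ] ℂ) (X : Fin n → A) (i : Fin n) (P : NCPoly n) :
    splitPairing τ X i P = P.coeff.sum fun w c => c * splitWord τ X i w := rfl

theorem splitPairing_single (τ : A →ₗ[ℂ] ℂ) (X : Fin n → A) (i : Fin n)
    (w : FreeMonoid (Fin n)) (c : ℂ) :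
    splitPairing τ X i (MonoidAlgebra.single w c) = c * splitWord τ X i w := by
  rw [splitPairing_eq_sum]
  simp

@[simp] theorem splitWord_of_self (τ : A →ₗ[ℂ] ℂ) (hτ : τ 1 = 1) (X : Fin n → A) (i : Fin n) :
    splitWord τ X i (FreeMonoid.of i) = 1 := by
  simp [splitWord, hτ]

end algebra

section star
variable {A : Type*} [Ring A] [Algebra ℂ A] [StarRing A] [StarModule ℂ A] {n : ℕ}

theorem star_wordEval (X : Fin n → A) (hX : ∀ i, IsSelfAdjoint (X i)) (w : FreeMonoid (Fin n)) :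
    star (wordEval X w) =
      wordEval X (FreeMonoid.toList.symm (FreeMonoid.toList w).reverse) := by
  rw [wordEval_eq_prod, wordEval_eq_prod]
  simp only [Equiv.apply_symm_apply]
  generalize FreeMonoid.toList w = l
  induction l with
  | nil => simp
  | cons a l ih => simp [star_mul, ih, (hX a).star_eq]

theorem polyEval_polyStar (X : Fin n → A) (hX : ∀ i, IsSelfAdjoint (X i)) (P : NCPoly n) :
    polyEval X (polyStar P) = star (polyEval X P) := by
  rw [polyStar, polyEval_eq_sum X P, Finsupp.sum, Finsupp.sum, star_sum]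
  have : polyEval X (∑ a ∈ P.coeff.support, MonoidAlgebra.single
      (FreeMonoid.toList.symm (FreeMonoid.toList a).reverse) ((starRingEnd ℂ) (P.coeff a)))
      = ∑ a ∈ P.coeff.support, polyEval X (MonoidAlgebra.single
      (FreeMonoid.toList.symm (FreeMonoid.toList a).reverse) ((starRingEnd ℂ) (P.coeff a))) := by
    simp only [polyEval, map_sum]
  rw [this]
  refine Finset.sum_congr rfl fun w _ => ?_
  rw [polyEval_single, star_smul, star_wordEval X hX]
  rfl

theorem isSelfAdjoint_polyEval (X : Fin n → A) (hX : ∀ i, IsSelfAdjoint (X i)) (P : NCPoly n)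
    (hP : polyStar P = P) : IsSelfAdjoint (polyEval X P) := by
  rw [isSelfAdjoint_iff, ← polyEval_polyStar X hX, hP]

end star

section upper
variable {A : Type*} [Ring A] [Algebra ℂ A] [StarRing A] [StarModule ℂ A] {n : ℕ}
variable {H : Type*} [NormedAddCommGroup H] [InnerProductSpace ℂ H]

/-- Variational upper bound: if `ξ` are conjugate vectors for `Z` in a pre-Hilbert space `H` carrying
a GNS-type map `ψ`, then `Φ*(Z) ≤ ∑ ‖ξ i‖²`. -/
theorem freeFisher_le_of_conj (τ : A →ₗ[ℂ] ℂ) (Z : Fin n → A) (hZ : ∀ i, IsSelfAdjoint (Z i))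
    (ψ : A →ₗ[ℂ] H) (hψ : ∀ a : A, ⟪ψ a, ψ a⟫_ℂ = τ (star a * a))
    (ξ : Fin n → H)
    (hξ : ∀ i w, splitWord τ Z i w = ⟪ξ i, ψ (wordEval Z w)⟫_ℂ) :
    freeFisher τ Z ≤ ENNReal.ofReal (∑ i, ‖ξ i‖ ^ 2) := by
  unfold freeFisher
  refine iSup_le fun P => iSup_le fun hP => ?_
  apply ENNReal.ofReal_le_ofReal
  rw [Complex.re_sum]
  refine Finset.sum_le_sum fun i _ => ?_
  have hsa := isSelfAdjoint_polyEval Z hZ (P i) (hP i)
  have h1 : τ (polyEval Z (P i) * polyEval Z (P i)) = ⟪ψ (polyEval Z (P i)), ψ (polyEval Z (P i))⟫_ℂ := by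
    rw [hψ, hsa.star_eq]
  have h2 : splitPairing τ Z i (P i) = ⟪ξ i, ψ (polyEval Z (P i))⟫_ℂ := by
    rw [splitPairing_eq_sum, polyEval_eq_sum, Finsupp.sum, Finsupp.sum, map_sum, inner_sum]
    refine Finset.sum_congr rfl fun w _ => ?_
    rw [map_smul, inner_smul_right, hξ]
  rw [h1, h2]
  set v := ψ (polyEval Z (P i)) with hv
  have h3 : (⟪v, v⟫_ℂ).re = ‖v‖ ^ 2 := by
    rw [inner_self_eq_norm_sq_to_K]
    norm_cast
  have h4 : (2 * ⟪ξ i, v⟫_ℂ - ⟪v, v⟫_ℂ).re = 2 * (⟪ξ i, v⟫_ℂ).re - ‖v‖ ^ 2 := by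
    rw [Complex.sub_re, h3]
    simp
  rw [h4]
  have h5 : (⟪ξ i, v⟫_ℂ).re ≤ ‖ξ i‖ * ‖v‖ :=
    (Complex.re_le_norm _).trans (norm_inner_le_norm _ _)
  nlinarith [sq_nonneg (‖ξ i‖ - ‖v‖)]

end upper

section lower
variable {A : Type*} [Ring A] [Algebra ℂ A] {n : ℕ}

theorem polyStar_single_of (i : Fin n) (c : ℝ) :
    polyStar (MonoidAlgebra.single (FreeMonoid.of i) (c : ℂ) : NCPoly n) =
      MonoidAlgebra.single (FreeMonoid.of i) (c : ℂ) := by
  rw [polyStar]
  simp [MonoidAlgebra.coeff_single]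

/-- Lower bound `Φ*(Z) ≥ ∑ 1/v i` whenever `τ(Z i ^ 2) = v i > 0`. -/
theorem le_freeFisher (τ : A →ₗ[ℂ] ℂ) (hτ : τ 1 = 1) (Z : Fin n → A) (v : Fin n → ℝ)
    (hv : ∀ i, 0 < v i) (hZ : ∀ i, τ (Z i * Z i) = (v i : ℂ)) :
    ENNReal.ofReal (∑ i, 1 / v i) ≤ freeFisher τ Z := by
  unfold freeFisher
  refine le_trans ?_ (le_iSup₂_of_le (fun i => MonoidAlgebra.single (FreeMonoid.of i)
    (((v i)⁻¹ : ℝ) : ℂ)) (fun i => polyStar_single_of i _) le_rfl)
  apply ENNReal.ofReal_le_ofReal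
  rw [Complex.re_sum]
  refine Finset.sum_le_sum fun i _ => ?_
  rw [splitPairing_single, splitWord_of_self τ hτ, polyEval_single, wordEval_of]
  rw [smul_mul_smul_comm, map_smul, hZ i]
  have hv' := (hv i).ne'
  have : (2 * (((v i)⁻¹ : ℝ) * (1 : ℂ)) - (((v i)⁻¹ : ℝ) : ℂ) * (((v i)⁻¹ : ℝ) : ℂ) • ((v i : ℝ) : ℂ)) =
      (((1 / v i : ℝ)) : ℂ) := by
    push_cast
    rw [smul_eq_mul]
    have : (v i : ℂ) ≠ 0 := by exact_mod_cast hv'
    field_simp
    ring
  rw [smul_eq_mul, mul_assoc]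
  rw [smul_eq_mul] at this
  rw [this]
  simp

end lower

section congr
variable {A : Type*} [Ring A] [Algebra ℂ A] {B : Type*} [Ring B] [Algebra ℂ B] {n : ℕ}

theorem splitWord_congr (τ : A →ₗ[ℂ] ℂ) (τ' : B →ₗ[ℂ] ℂ) (Z : Fin n → A) (Z' : Fin n → B)
    (h : ∀ w, τ (wordEval Z w) = τ' (wordEval Z' w)) (i : Fin n) (w : FreeMonoid (Fin n)) :
    splitWord τ Z i w = splitWord τ' Z' i w := by
  unfold splitWord
  simp only [h]

theorem trace_polyEval_congr (τ : A →ₗ[ℂ] ℂ) (τ' : B →ₗ[ℂ] ℂ) (Z : Fin n → A) (Z' : Fin n → B)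
    (h : ∀ w, τ (wordEval Z w) = τ' (wordEval Z' w)) (P : NCPoly n) :
    τ (polyEval Z P) = τ' (polyEval Z' P) := by
  rw [polyEval_eq_sum, polyEval_eq_sum, Finsupp.sum, Finsupp.sum, map_sum, map_sum]
  refine Finset.sum_congr rfl fun w _ => ?_
  rw [map_smul, map_smul, h]

theorem splitPairing_congr (τ : A →ₗ[ℂ] ℂ) (τ' : B →ₗ[ℂ] ℂ) (Z : Fin n → A) (Z' : Fin n → B)
    (h : ∀ w, τ (wordEval Z w) = τ' (wordEval Z' w)) (i : Fin n) (P : NCPoly n) :
    splitPairing τ Z i P = splitPairing τ' Z' i P := by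
  rw [splitPairing_eq_sum, splitPairing_eq_sum]
  simp only [splitWord_congr τ τ' Z Z' h]

/-- The free Fisher information depends only on the word moments. -/
theorem freeFisher_congr (τ : A →ₗ[ℂ] ℂ) (τ' : B →ₗ[ℂ] ℂ) (Z : Fin n → A) (Z' : Fin n → B)
    (h : ∀ w, τ (wordEval Z w) = τ' (wordEval Z' w)) :
    freeFisher τ Z = freeFisher τ' Z' := by
  unfold freeFisher
  simp only [← polyEval_mul, splitPairing_congr τ τ' Z Z' h, trace_polyEval_congr τ τ' Z Z' h]

end congr

section upper2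
variable {A : Type*} [Ring A] [Algebra ℂ A] {n : ℕ}

/-- Scalar form of the variational upper bound: it suffices that, for every formally self-adjoint
polynomial `P`, `2 Re (splitPairing) - Re τ(P(Z)²) ≤ C i`. -/
theorem freeFisher_le_of_forall (τ : A →ₗ[ℂ] ℂ) (Z : Fin n → A) (C : Fin n → ℝ)
    (h : ∀ i (P : NCPoly n), polyStar P = P →
      (2 * splitPairing τ Z i P - τ (polyEval Z P * polyEval Z P)).re ≤ C i) :
    freeFisher τ Z ≤ ENNReal.ofReal (∑ i, C i) := by
  unfold freeFisher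
  refine iSup_le fun P => iSup_le fun hP => ?_
  apply ENNReal.ofReal_le_ofReal
  rw [Complex.re_sum]
  exact Finset.sum_le_sum fun i _ => h i (P i) (hP i)

/-- Version with abstract representing vectors for the polynomials: `v P` is any vector whose
squared norm is `τ(P(Z)²)` for formally self-adjoint `P`, and `ξ i` represents the conjugate
functional. -/
theorem freeFisher_le_of_repr {H : Type*} [NormedAddCommGroup H] [InnerProductSpace ℝ H]
    (τ : A →ₗ[ℂ] ℂ) (Z : Fin n → A) (v : NCPoly n → H) (ξ : Fin n → H)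
    (hv : ∀ P : NCPoly n, polyStar P = P → ‖v P‖ ^ 2 ≤ (τ (polyEval Z P * polyEval Z P)).re)
    (hξ : ∀ i (P : NCPoly n), polyStar P = P → (splitPairing τ Z i P).re ≤ ⟪ξ i, v P⟫_ℝ) :
    freeFisher τ Z ≤ ENNReal.ofReal (∑ i, ‖ξ i‖ ^ 2) := by
  refine freeFisher_le_of_forall τ Z _ fun i P hP => ?_
  have h1 := hv P hP
  have h2 := hξ i P hP
  have h3 : ⟪ξ i, v P⟫_ℝ ≤ ‖ξ i‖ * ‖v P‖ := real_inner_le_norm _ _
  have h4 : (2 * splitPairing τ Z i P - τ (polyEval Z P * polyEval Z P)).re =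
      2 * (splitPairing τ Z i P).re - (τ (polyEval Z P * polyEval Z P)).re := by
    simp
  rw [h4]
  nlinarith [sq_nonneg (‖ξ i‖ - ‖v P‖)]

end upper2

end Crest.Agent.R089
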