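import Mathlib
import Crest.Prelude.Def_FreeEntropy

/-! Shared definitions for the microstates lower bound of row 89 (helper952). -/

set_option autoImplicit false

open MeasureTheory ProbabilityTheory Filter Topology
open Crest.OpAlg
open scoped ENNReal NNReal

namespace Crest.Agent.R089

/-- The Schwinger-Dyson recursion for the moments of a free standard semicircular family. -/
structure IsSD {J : Type*} [DecidableEq J] (φ : List J → ℝ) : Prop where
  nil : φ [] = 1
  cons : ∀ (j : J) (w : List J), φ (j :: w) =
    ∑ k ∈ Finset.range w.length, if w[k]? = some j then φ (w.take k) * φ (w.drop (k + 1)) else 0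

/-- The Gaussian measure on coordinates of a family of `d × d` Hermitian matrices: independent
centred Gaussians of variance `1/d` in the Hilbert-Schmidt orthonormal coordinates. -/
noncomputable def gueMeasure (J : Type*) [Fintype J] (d : ℕ) :
    Measure (J × (Fin d × Fin d) → ℝ) :=
  Measure.pi fun _ => gaussianReal 0 ((d : ℝ≥0)⁻¹)

/-- The `j`-th GUE matrix with coordinates `ω`. -/
noncomputable def gueMat {J : Type*} {d : ℕ} (ω : J × (Fin d × Fin d) → ℝ) (j : J) :
    Matrix (Fin d) (Fin d) ℂ :=
  hermitianOfCoords (WithLp.toLp 2 fun p => ω (j, p))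

/-- Normalised trace of a word in the GUE matrices. -/
noncomputable def wordTr {J : Type*} {d : ℕ} (ω : J × (Fin d × Fin d) → ℝ) (w : List J) : ℂ :=
  (d : ℂ)⁻¹ * Matrix.trace ((w.map (gueMat ω)).prod)

end Crest.Agent.R089
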