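import Mathlib
import Crest.Prelude.Def_CStarRep
import Crest.Agent.R089.HeatLaw
import Crest.Agent.R089.Model

/-! Small-noise Fisher bound (helper585): `Φ*(Q(a) + c b) ≤ ∑ 1/c i ^ 2`, hence
`MainSkel.fisher_le`. -/

set_option autoImplicit false
set_option linter.unusedSectionVars false

namespace Crest.Agent.R089

open Crest.OpAlg

section generic
variable {M : Type*} [AddCommGroup M] [Module ℂ M] {K : Type*} [DecidableEq K]

theorem ann_foldr (R : M →ₗ[ℂ] M) (Z : K → M →ₗ[ℂ] M) (Om : M) (om : M →ₗ[ℂ] ℂ) (i : K) (c : ℂ)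
    (h0 : R Om = 0)
    (h1 : ∀ j x, R (Z j x) = Z j (R x) + (if j = i then c * om x else 0) • Om) (w : List K) :
    R (w.foldr (fun j x => Z j x) Om) = ∑ k ∈ Finset.range w.length,
      if w[k]? = some i then (c * om ((w.drop (k + 1)).foldr (fun j x => Z j x) Om)) •
        ((w.take k).foldr (fun j x => Z j x) Om) else 0 := by
  induction w with
  | nil => simp [h0]
  | cons h w ih =>
    rw [List.foldr_cons, h1, ih, List.length_cons, Finset.sum_range_succ', map_sum]
    congr 1
    · refine Finset.sum_congr rfl fun k _ => ?_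
      by_cases hk : w[k]? = some i
      · simp [hk]
      · simp [hk]
    · by_cases hg : h = i
      · simp [hg]
      · simp [hg]

end generic

namespace SDStruct
variable {J : Type*} [DecidableEq J] {M : Type*} [AddCommGroup M] [Module ℂ M]

/-- Action of polynomials on the module of an `SDStruct`. -/
noncomputable def act (S : SDStruct J M) : MonoidAlgebra ℂ (FreeMonoid J) →ₐ[ℂ] Module.End ℂ M :=
  evalJ (fun j => (S.L j : Module.End ℂ M))

theorem act_single (S : SDStruct J M) (w : FreeMonoid J) (c : ℂ) (x : M) :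
    S.act (MonoidAlgebra.single w c) x =
      c • (FreeMonoid.toList w).foldr (fun j x => S.L j x) x := by
  unfold act
  rw [evalJ_single, LinearMap.smul_apply]
  congr 1
  generalize FreeMonoid.toList w = l
  induction l with
  | nil => simp
  | cons j l ih => rw [List.map_cons, List.prod_cons, Module.End.mul_apply, ih, List.foldr_cons]

end SDStruct

section noise
variable {k n : ℕ}

theorem R_inr_act_inl {M : Type*} [AddCommGroup M] [Module ℂ M]
    (S : SDStruct (Fin k ⊕ Fin n) M) (i : Fin n) (Q : NCPoly k) (x : M) :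
    S.R (Sum.inr i) (S.act (inlPoly (Fin n) Q) x) =
      S.act (inlPoly (Fin n) Q) (S.R (Sum.inr i) x) := by
  unfold inlPoly
  induction Q using MonoidAlgebra.induction_linear with
  | zero => simp
  | add P Q hP hQ => simp only [map_add, LinearMap.add_apply, hP, hQ]
  | single w c =>
    rw [evalJ_single, map_smul, LinearMap.smul_apply, LinearMap.smul_apply, map_smul]
    congr 1
    generalize FreeMonoid.toList w = l
    induction l with
    | nil => simp
    | cons j l ih =>
      rw [List.map_cons, List.prod_cons, map_mul, Module.End.mul_apply, Module.End.mul_apply,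
        SDStruct.act_single, SDStruct.act_single]
      simp only [one_smul, FreeMonoid.toList_of, List.foldr_cons, List.foldr_nil]
      rw [S.R_L, ih]
      simp

/-- Operator of the noisy coordinate. -/
noncomputable def zop {M : Type*} [AddCommGroup M] [Module ℂ M]
    (S : SDStruct (Fin k ⊕ Fin n) M) (Q : Fin n → NCPoly k) (c : Fin n → ℝ) (j : Fin n) :
    M →ₗ[ℂ] M :=
  S.act (inlPoly (Fin n) (Q j) + (c j : ℂ) • MonoidAlgebra.single (FreeMonoid.of (Sum.inr j)) (1 : ℂ))

theorem R_zop {M : Type*} [AddCommGroup M] [Module ℂ M]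
    (S : SDStruct (Fin k ⊕ Fin n) M) (Q : Fin n → NCPoly k) (c : Fin n → ℝ) (i j : Fin n) (x : M) :
    S.R (Sum.inr i) (zop S Q c j x) = zop S Q c j (S.R (Sum.inr i) x) +
      (if j = i then (c i : ℂ) * S.om x else 0) • S.Om := by
  unfold zop
  rw [map_add, map_smul, LinearMap.add_apply, LinearMap.add_apply, map_add, R_inr_act_inl,
    LinearMap.smul_apply, LinearMap.smul_apply, map_smul, SDStruct.act_single,
    SDStruct.act_single]
  simp only [one_smul, FreeMonoid.toList_of, List.foldr_cons, List.foldr_nil]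
  rw [S.R_L, smul_add, smul_smul, add_assoc]
  congr 2
  by_cases h : j = i
  · simp [h]
  · simp [h]

variable {A : Type*} [Ring A] [Algebra ℂ A]

/-- Evaluation map of the free structure. -/
noncomputable def evList {J : Type*} (u : J → A) : (List J →₀ ℂ) →ₗ[ℂ] A :=
  Finsupp.linearCombination ℂ (fun w => (w.map u).prod)

theorem evList_L {J : Type*} [DecidableEq J] (u : J → A) {φ : List J → ℝ} (hφ : IsSD φ) (j : J)
    (x : List J →₀ ℂ) : evList u ((SDStruct.free hφ).L j x) = u j * evList u x := by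
  induction x using Finsupp.induction_linear with
  | zero => simp
  | add x y hx hy => simp only [map_add, hx, hy, mul_add]
  | single w a =>
    simp only [evList, SDStruct.free, Finsupp.lmapDomain_apply, Finsupp.mapDomain_single,
      Finsupp.linearCombination_single, List.map_cons, List.prod_cons, mul_smul_comm]

theorem evList_act {J : Type*} [DecidableEq J] (u : J → A) {φ : List J → ℝ} (hφ : IsSD φ)
    (P : MonoidAlgebra ℂ (FreeMonoid J)) (x : List J →₀ ℂ) :
    evList u ((SDStruct.free hφ).act P x) = evalJ u P * evList u x := by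
  induction P using MonoidAlgebra.induction_linear with
  | zero => simp
  | add P Q hP hQ => simp only [map_add, LinearMap.add_apply, hP, hQ, add_mul]
  | single w c =>
    rw [SDStruct.act_single, evalJ_single, map_smul, smul_mul_assoc]
    congr 1
    generalize FreeMonoid.toList w = l
    induction l with
    | nil => simp
    | cons j l ih => rw [List.foldr_cons, evList_L, ih, List.map_cons, List.prod_cons, mul_assoc]

theorem trace_evList {J : Type*} [DecidableEq J] (τ : A →ₗ[ℂ] ℂ) (u : J → A) {φ : List J → ℝ}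
    (hφ : IsSD φ) (hτ : ∀ w : List J, τ ((w.map u).prod) = (φ w : ℂ)) (x : List J →₀ ℂ) :
    τ (evList u x) = (SDStruct.free hφ).om x := by
  induction x using Finsupp.induction_linear with
  | zero => simp
  | add x y hx hy => simp only [map_add, hx, hy]
  | single w a =>
    simp only [evList, SDStruct.free, Finsupp.linearCombination_single, map_smul, hτ]

/-- Schwinger-Dyson relation for noisy tuples: `τ(b i · Z_w) = c i · (τ ⊗ τ)(∂ᵢ w (Z))`. -/
theorem trace_noise_word (τ : A →ₗ[ℂ] ℂ) (a : Fin k → A) (b : Fin n → A)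
    {ψ : List (Fin k ⊕ Fin n) → ℝ} (hψ : IsSD ψ)
    (hτ : ∀ w : List (Fin k ⊕ Fin n), τ ((w.map (Sum.elim a b)).prod) = (ψ w : ℂ))
    (Q : Fin n → NCPoly k) (c : Fin n → ℝ) (i : Fin n) (w : FreeMonoid (Fin n)) :
    τ (b i * wordEval (fun i => polyEval a (Q i) + (c i : ℂ) • b i) w) =
      (c i : ℂ) * splitWord τ (fun i => polyEval a (Q i) + (c i : ℂ) • b i) i w := by
  set u := Sum.elim a b with hu
  set S := SDStruct.free hψ with hS
  set Z : Fin n → A := fun i => polyEval a (Q i) + (c i : ℂ) • b i with hZ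
  have hev : ∀ l : List (Fin n), evList u (l.foldr (fun j x => zop S Q c j x) S.Om) =
      (l.map Z).prod := by
    intro l
    induction l with
    | nil =>
      have : S.Om = Finsupp.single [] 1 := rfl
      simp [this, evList]
    | cons j l ih =>
      rw [List.foldr_cons, List.map_cons, List.prod_cons, ← ih]
      unfold zop
      rw [hS, evList_act]
      congr 1
      rw [hZ, map_add, hu, evalJ_inlPoly, map_smul, evalJ_single]
      simp
  have hom : ∀ l : List (Fin n), S.om (l.foldr (fun j x => zop S Q c j x) S.Om) =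
      τ (wordEval Z (FreeMonoid.toList.symm l)) := by
    intro l
    rw [wordEval_eq_prod, Equiv.apply_symm_apply, ← hev, trace_evList τ u hψ hτ]
  have h1 : τ (b i * wordEval Z w) = S.om (S.L (Sum.inr i)
      ((FreeMonoid.toList w).foldr (fun j x => zop S Q c j x) S.Om)) := by
    rw [← trace_evList τ u hψ hτ, evList_L, hev, wordEval_eq_prod]
    rfl
  rw [h1, S.om_L, ann_foldr (S.R (Sum.inr i)) (zop S Q c) S.Om S.om i (c i : ℂ) (S.R_Om _)
    (fun j x => R_zop S Q c i j x), map_sum, splitWord, Finset.mul_sum]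
  refine Finset.sum_congr rfl fun m _ => ?_
  split_ifs
  · rw [map_smul, smul_eq_mul, hom, hom]
    ring
  · simp

/-- Polynomial version of the Schwinger-Dyson relation. -/
theorem trace_noise_poly (τ : A →ₗ[ℂ] ℂ) (a : Fin k → A) (b : Fin n → A)
    {ψ : List (Fin k ⊕ Fin n) → ℝ} (hψ : IsSD ψ)
    (hτ : ∀ w : List (Fin k ⊕ Fin n), τ ((w.map (Sum.elim a b)).prod) = (ψ w : ℂ))
    (Q : Fin n → NCPoly k) (c : Fin n → ℝ) (i : Fin n) (P : NCPoly n) :
    τ (b i * polyEval (fun i => polyEval a (Q i) + (c i : ℂ) • b i) P) =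
      (c i : ℂ) * splitPairing τ (fun i => polyEval a (Q i) + (c i : ℂ) • b i) i P := by
  rw [polyEval_eq_sum, splitPairing_eq_sum, Finsupp.sum, Finsupp.sum, Finset.mul_sum, map_sum,
    Finset.mul_sum]
  refine Finset.sum_congr rfl fun w _ => ?_
  rw [mul_smul_comm, map_smul, trace_noise_word τ a b hψ hτ, smul_eq_mul]
  ring

end noise

section bound
variable {A : Type*} [Ring A] [Algebra ℂ A] [StarRing A] [StarModule ℂ A] {k n : ℕ}

/-- Small-noise Fisher bound. -/
theorem freeFisher_noisy_le (τ : A →ₗ[ℂ] ℂ) (htr : ∀ x y : A, τ (x * y) = τ (y * x))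
    (hpos : ∀ x : A, 0 ≤ (τ (star x * x)).re) (a : Fin k → A) (b : Fin n → A)
    (hb : ∀ i, IsSelfAdjoint (b i))
    {ψ : List (Fin k ⊕ Fin n) → ℝ} (hψ : IsSD ψ)
    (hτ : ∀ w : List (Fin k ⊕ Fin n), τ ((w.map (Sum.elim a b)).prod) = (ψ w : ℂ))
    (Q : Fin n → NCPoly k) (c : Fin n → ℝ) (hc : ∀ i, 0 < c i)
    (hZ : ∀ i, IsSelfAdjoint (polyEval a (Q i) + (c i : ℂ) • b i)) :
    freeFisher τ (fun i => polyEval a (Q i) + (c i : ℂ) • b i) ≤
      ENNReal.ofReal (∑ i, 1 / (c i) ^ 2) := by
  refine freeFisher_le_of_forall τ _ _ fun i P hP => ?_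
  set Z : Fin n → A := fun i => polyEval a (Q i) + (c i : ℂ) • b i with hZdef
  set p := polyEval Z P with hp
  have hsa : IsSelfAdjoint p := isSelfAdjoint_polyEval Z hZ P hP
  have h1 : τ (b i * p) = (c i : ℂ) * splitPairing τ Z i P := trace_noise_poly τ a b hψ hτ Q c i P
  have h2 : τ (p * b i) = (c i : ℂ) * splitPairing τ Z i P := by rw [htr, h1]
  have h3 : τ (b i * b i) = 1 := trace_noise_sq τ a b hψ hτ i
  set e : ℝ := (c i)⁻¹ with he
  have hce : (c i) * e = 1 := mul_inv_cancel₀ (hc i).ne'
  have hceC : (c i : ℂ) * (e : ℂ) = 1 := by exact_mod_cast hce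
  have h4 := hpos ((e : ℂ) • b i - p)
  have h5 : star ((e : ℂ) • b i - p) = (e : ℂ) • b i - p := by
    rw [star_sub, star_smul, (hb i).star_eq, hsa.star_eq]
    simp
  rw [h5, sub_mul, mul_sub, mul_sub, smul_mul_smul_comm, smul_mul_assoc, mul_smul_comm, map_sub,
    map_sub, map_sub, map_smul, map_smul, map_smul, h1, h2, h3] at h4
  have h6 : ((e : ℂ) • ((c i : ℂ) * splitPairing τ Z i P)) = splitPairing τ Z i P := by
    rw [smul_eq_mul, ← mul_assoc, mul_comm (e : ℂ), hceC, one_mul]
  rw [h6] at h4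
  have h7 : (((e : ℂ) * (e : ℂ)) • (1 : ℂ)).re = 1 / (c i) ^ 2 := by
    rw [smul_eq_mul, mul_one, ← Complex.ofReal_mul, Complex.ofReal_re, he, one_div, pow_two,
      mul_inv]
  simp only [Complex.sub_re] at h4 ⊢
  rw [h7] at h4
  have h8 : (2 * splitPairing τ Z i P).re = 2 * (splitPairing τ Z i P).re := by simp
  rw [h8]
  linarith

end bound

section model

open Crest.Agent.R089.Model

theorem polyStar_add {n : ℕ} (P Q : NCPoly n) : polyStar (P + Q) = polyStar P + polyStar Q := by
  unfold polyStar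
  rw [MonoidAlgebra.coeff_add]
  refine Finsupp.sum_add_index' (fun w => ?_) (fun w a b => ?_)
  · simp
  · rw [map_add]
    simp [MonoidAlgebra.single_add]

theorem polyStar_single {n : ℕ} (w : FreeMonoid (Fin n)) (c : ℂ) :
    polyStar (MonoidAlgebra.single w c : NCPoly n) =
      MonoidAlgebra.single (FreeMonoid.toList.symm (FreeMonoid.toList w).reverse)
        (starRingEnd ℂ c) := by
  unfold polyStar
  simp

theorem polyStar_cubic {k : ℕ} (x y z : Fin k) : polyStar (cubic x y z) = cubic x y z := by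
  unfold cubic
  rw [smul_add, MonoidAlgebra.smul_single, MonoidAlgebra.smul_single, polyStar_add,
    polyStar_single, polyStar_single, add_comm]
  congr 1
  · congr 1
    simp
  · congr 1
    simp

theorem polyStar_QQ (r : ℕ) (i : Fin (nn r)) : polyStar (QQ r i) = QQ r i := by
  unfold QQ
  rcases (ei r).symm i with h | ⟨a, b, c⟩
  · simp only [Qi]
    rw [polyStar_single]
    simp
  · exact polyStar_cubic _ _ _

theorem delt_pos (r : ℕ) (d : ℝ) (hd : 0 < d) (i : Fin (nn r)) : 0 < delt r d i := by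
  unfold delt
  rcases (ei r).symm i with h | h
  · exact hd
  · norm_num

/-- (T4) small-noise Fisher bound for the concrete model. -/
theorem fisher_le (r : ℕ) (d : ℝ) (hd : 0 < d) {A : Type} [CStarAlgebra A]
    (τ : A →ₗ[ℂ] ℂ) (s : Jx r → A) (φ : List (Jx r) → ℝ) (h : IsModel τ s φ)
    (t : ℝ) (ht : 0 < t) :
    freeFisher τ (heatTuple (XX r d s) (SS r s) t) ≤
      ENNReal.ofReal (∑ i, 1 / (delt r d i + t)) := by
  obtain ⟨⟨-, hpos, -, htr⟩, hsa, hsd, hmom⟩ := h
  set a : Fin (kk r) → A := fun j => s (Sum.inl (Sum.inl j)) with ha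
  set b : Fin (nn r) → A := fun j => s (Sum.inl (Sum.inr j)) with hb
  set c : Fin (nn r) → A := fun j => s (Sum.inr j) with hc
  let e : (Fin (kk r) ⊕ Fin (nn r) ⊕ Fin (nn r)) ≃ Jx r :=
    (Equiv.sumAssoc (Fin (kk r)) (Fin (nn r)) (Fin (nn r))).symm
  have hφ' : IsSD (fun w : List (Fin (kk r) ⊕ Fin (nn r) ⊕ Fin (nn r)) => φ (w.map e)) :=
    hsd.comap e e.injective
  have hτ' : ∀ w : List (Fin (kk r) ⊕ Fin (nn r) ⊕ Fin (nn r)),
      τ ((w.map (Sum.elim a (Sum.elim b c))).prod) = ((φ (w.map e) : ℝ) : ℂ) := by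
    intro w
    rw [← hmom, List.map_map]
    congr 3
    funext x
    rcases x with x | x | x <;> rfl
  have hδ := delt_pos r d hd
  have hs : ∀ i, 0 < delt r d i + t := fun i => add_pos (hδ i) ht
  have hψ := isSD_sdFun (Fin (kk r) ⊕ Fin (nn r))
  have hlaw := combNoise_law τ a b c hφ' hτ' (delt r d) hδ t ht.le hψ
  have heq : heatTuple (XX r d s) (SS r s) t =
      fun i => polyEval a (QQ r i) + (Real.sqrt (delt r d i + t) : ℂ) •
        combNoise b c (delt r d) t i :=
    heatTuple_eq a b c (QQ r) (delt r d) hδ t ht.le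
  have hbs : ∀ i, IsSelfAdjoint (combNoise b c (delt r d) t i) := by
    intro i
    unfold combNoise
    refine IsSelfAdjoint.add ?_ ?_
    · exact IsSelfAdjoint.smul (by simp [isSelfAdjoint_iff]) (hsa _)
    · exact IsSelfAdjoint.smul (by simp [isSelfAdjoint_iff]) (hsa _)
  rw [heq]
  have hbound := freeFisher_noisy_le τ htr (fun x => (hpos x).2) a (combNoise b c (delt r d) t) hbs
    hψ hlaw (QQ r) (fun i => Real.sqrt (delt r d i + t)) (fun i => Real.sqrt_pos.mpr (hs i))
    (fun i => IsSelfAdjoint.add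
      (isSelfAdjoint_polyEval a (fun j => hsa _) (QQ r i) (polyStar_QQ r i))
      (IsSelfAdjoint.smul (by simp [isSelfAdjoint_iff]) (hbs i)))
  refine hbound.trans (le_of_eq ?_)
  congr 1
  refine Finset.sum_congr rfl fun i _ => ?_
  rw [Real.sq_sqrt (hs i).le]

end model

end Crest.Agent.R089
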