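import Crest.Agent.R089.GUE5

/-! Convergence in probability of the mixed moments of GUE matrices (row 89). -/

set_option autoImplicit false

open MeasureTheory ProbabilityTheory Filter Topology
open scoped ENNReal NNReal

namespace Crest.Agent.R089.GUE

open MvPolynomial

lemma sum_splits_eq {α M : Type*} [DecidableEq α] [AddCommMonoid M] (F : List α × List α → M)
    (l : α) (v : List α) :
    ((splits l v).map F).sum =
      ∑ k ∈ Finset.range v.length, if v[k]? = some l then F (v.take k, v.drop (k + 1)) else 0 := by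
  induction v generalizing F with
  | nil => simp
  | cons a w ih =>
    rw [splits_cons, List.map_append, List.sum_append, List.map_map, ih, List.length_cons,
      Finset.sum_range_succ', add_comm]
    congr 1
    by_cases h : a = l
    · simp [h]
    · simp [h]

lemma splitRec_of_isSD {J : Type*} [DecidableEq J] {φ : List J → ℝ} (hφ : IsSD φ) :
    SplitRec (fun w => (φ w : ℂ)) := by
  refine ⟨by simp [hφ.nil], fun l v => ?_⟩
  rw [hφ.cons, sum_splits_eq]
  push_cast
  refine Finset.sum_congr rfl fun k _ => ?_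
  split_ifs <;> simp

variable {J : Type*} {d : ℕ}

lemma gueMat_isHermitian (ω : J × (Fin d × Fin d) → ℝ) (j : J) : (gueMat ω j).IsHermitian := by
  ext a b
  rw [Matrix.conjTranspose_apply]
  unfold gueMat Crest.OpAlg.hermitianOfCoords
  rcases lt_trichotomy a b with h | h | h
  · simp [h, h.ne, h.ne', not_lt.2 h.le]
    try ring
  · subst h; simp
  · simp [h, h.ne, h.ne', not_lt.2 h.le]
    try ring

lemma conj_wordTr (ω : J × (Fin d × Fin d) → ℝ) (w : List J) :
    (starRingEnd ℂ) (wordTr ω w) = wordTr ω w.reverse := by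
  unfold wordTr
  rw [map_mul, List.map_reverse]
  congr 1
  · simp
  · have h1 : (starRingEnd ℂ) (Matrix.trace ((w.map (gueMat ω)).prod)) =
        Matrix.trace (((w.map (gueMat ω)).prod).conjTranspose) := by
      rw [Matrix.trace_conjTranspose]; rfl
    rw [h1, Matrix.conjTranspose_list_prod]
    congr 3
    rw [List.map_map]
    refine List.map_congr_left fun j _ => ?_
    exact gueMat_isHermitian ω j

variable [Fintype J]

lemma integrable_prod_wordTr (ws : List (List J)) :
    Integrable (fun ω => (ws.map (fun w => wordTr ω w)).prod) (gueMeasure J d) := by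
  have h := (integrable_eval (ι := J × (Fin d × Fin d)) ((d : ℝ≥0)⁻¹)
    (tp (GM (J := J) (d := d)) ws)).const_mul (((d : ℂ)⁻¹) ^ ws.length)
  refine h.congr (Filter.Eventually.of_forall fun ω => ?_)
  simp only
  induction ws with
  | nil => simp
  | cons w ws ih =>
    rw [List.map_cons, List.prod_cons, ← ih, tp_cons, map_mul, List.length_cons, pow_succ, wordTr,
      ← eval_wm]
    · have : eval (fun i => (ω i : ℂ)) (Matrix.trace (wm (GM (J := J) (d := d)) w)) =
          Matrix.trace ((wm (GM (J := J) (d := d)) w).map (eval fun i => (ω i : ℂ))) := by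
        simp [Matrix.trace, map_sum]
      rw [this]
      ring
    · exact (integrable_eval (ι := J × (Fin d × Fin d)) ((d : ℝ≥0)⁻¹)
        (tp (GM (J := J) (d := d)) ws)).const_mul (((d : ℂ)⁻¹) ^ ws.length)

omit [Fintype J] in
lemma continuous_wordTr (w : List J) :
    Continuous (fun ω : J × (Fin d × Fin d) → ℝ => wordTr ω w) := by
  have h : (fun ω : J × (Fin d × Fin d) → ℝ => wordTr ω w) =
      fun ω => (d : ℂ)⁻¹ * eval (fun i => (ω i : ℂ)) (Matrix.trace (wm (GM (J := J) (d := d)) w)) := by
    funext ω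
    rw [wordTr, ← eval_wm]
    congr 1
    simp [Matrix.trace, map_sum]
  rw [h]
  refine continuous_const.mul ?_
  generalize Matrix.trace (wm (GM (J := J) (d := d)) w) = p
  induction p using MvPolynomial.induction_on with
  | C c => simpa using continuous_const
  | add p q hp hq =>
    simp only [map_add]
    exact hp.add hq
  | mul_X p i hp =>
    simp only [map_mul, eval_X]
    exact hp.mul (Complex.continuous_ofReal.comp (continuous_apply i))

/-- The second moment of the deviation. -/
lemma integral_normSq_wordTr (w : List J) (c : ℝ) :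
    (((∫ ω, ‖wordTr ω w - c‖ ^ 2 ∂(gueMeasure J d)) : ℝ) : ℂ) =
      TT J d [w, w.reverse] - c * TT J d [w] - c * TT J d [w.reverse] + c ^ 2 := by
  have h0 : ∀ ω : J × (Fin d × Fin d) → ℝ, ((‖wordTr ω w - c‖ ^ 2 : ℝ) : ℂ) =
      ([w, w.reverse].map (fun w => wordTr ω w)).prod - c * ([w].map (fun w => wordTr ω w)).prod
        - c * ([w.reverse].map (fun w => wordTr ω w)).prod + c ^ 2 := by
    intro ω
    rw [← Complex.normSq_eq_norm_sq, Complex.normSq_eq_conj_mul_self, map_sub, conj_wordTr]
    simp
    ring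
  rw [← integral_complex_ofReal]
  simp_rw [h0]
  have i1 := integrable_prod_wordTr (d := d) [w, w.reverse]
  have i2 := (integrable_prod_wordTr (d := d) [w]).const_mul (c : ℂ)
  have i3 := (integrable_prod_wordTr (d := d) [w.reverse]).const_mul (c : ℂ)
  have i12 : Integrable (fun ω => ([w, w.reverse].map (fun w => wordTr ω w)).prod -
    c * ([w].map (fun w => wordTr ω w)).prod) (gueMeasure J d) := i1.sub i2
  have i123 : Integrable (fun ω => ([w, w.reverse].map (fun w => wordTr ω w)).prod -
    c * ([w].map (fun w => wordTr ω w)).prod - c * ([w.reverse].map (fun w => wordTr ω w)).prod)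
    (gueMeasure J d) := i12.sub i3
  have hp : IsProbabilityMeasure (gueMeasure J d) := by unfold gueMeasure; infer_instance
  rw [integral_add i123 (integrable_const _), integral_sub i12 i3,
    integral_sub i1 i2, integral_const_mul, integral_const_mul]
  simp_rw [integral_prod_wordTr]
  simp

instance (J : Type*) [Fintype J] (d : ℕ) : IsProbabilityMeasure (gueMeasure J d) := by
  unfold gueMeasure; infer_instance

end Crest.Agent.R089.GUE

namespace Crest.Agent.R089

open GUE

/-- (G1) mixed moments converge in probability. -/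
theorem gue_moments_tendsto {J : Type*} [Fintype J] [DecidableEq J] (φ : List J → ℝ)
    (hφ : IsSD φ) (w : List J) (ε : ℝ) (hε : 0 < ε) :
    Tendsto (fun d : ℕ => gueMeasure J d {ω | ε ≤ ‖wordTr ω w - φ w‖}) atTop (𝓝 0) := by
  have hT := loopRec_TT (J := J)
  have hτ := splitRec_of_isSD hφ
  have h1 : Tendsto (fun d : ℕ => TT J d [w, w.reverse] - (φ w : ℂ) * TT J d [w]
      - (φ w : ℂ) * TT J d [w.reverse] + (φ w : ℂ) ^ 2) atTop (𝓝 0) := by
    have a1 := hT.tendsto hτ [w, w.reverse]
    have a2 := (hT.tendsto hτ [w]).const_mul (φ w : ℂ)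
    have a3 := (hT.tendsto hτ [w.reverse]).const_mul (φ w : ℂ)
    have a4 := (((a1.sub a2).sub a3).add_const ((φ w : ℂ) ^ 2))
    convert a4 using 2
    simp
    ring
  have h2 : Tendsto (fun d : ℕ => ∫ ω, ‖wordTr ω w - φ w‖ ^ 2 ∂(gueMeasure J d)) atTop (𝓝 0) := by
    have h3 : Tendsto (fun d : ℕ => ((∫ ω, ‖wordTr ω w - φ w‖ ^ 2 ∂(gueMeasure J d) : ℝ) : ℂ))
        atTop (𝓝 0) := by
      refine h1.congr fun d => ?_
      rw [integral_normSq_wordTr]
    have h4 := (Complex.continuous_re.tendsto 0).comp h3
    rw [Complex.zero_re] at h4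
    exact h4.congr fun d => by simp only [Function.comp_apply, Complex.ofReal_re]
  have h5 : Tendsto (fun d : ℕ => ENNReal.ofReal
      ((∫ ω, ‖wordTr ω w - φ w‖ ^ 2 ∂(gueMeasure J d)) / ε ^ 2)) atTop (𝓝 0) := by
    have := (ENNReal.tendsto_ofReal (h2.div_const (ε ^ 2)))
    simpa using this
  refine tendsto_of_tendsto_of_tendsto_of_le_of_le tendsto_const_nhds h5 (fun d => bot_le)
    fun d => ?_
  have hint : Integrable (fun ω => ‖wordTr ω w - φ w‖ ^ 2) (gueMeasure J d) := by
    have i1 := integrable_prod_wordTr (d := d) [w, w.reverse]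
    have i2 := (integrable_prod_wordTr (d := d) [w]).const_mul (φ w : ℂ)
    have i3 := (integrable_prod_wordTr (d := d) [w.reverse]).const_mul (φ w : ℂ)
    have i4 := ((i1.sub i2).sub i3).add (integrable_const ((φ w : ℂ) ^ 2))
    refine (i4.re).congr (Filter.Eventually.of_forall fun ω => ?_)
    have h0 : ((‖wordTr ω w - φ w‖ ^ 2 : ℝ) : ℂ) =
      ([w, w.reverse].map (fun w => wordTr ω w)).prod - φ w * ([w].map (fun w => wordTr ω w)).prod
        - φ w * ([w.reverse].map (fun w => wordTr ω w)).prod + (φ w : ℂ) ^ 2 := by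
      rw [← Complex.normSq_eq_norm_sq, Complex.normSq_eq_conj_mul_self, map_sub, conj_wordTr]
      simp
      ring
    have h1 := congrArg Complex.re h0
    rw [Complex.ofReal_re] at h1
    exact h1.symm
  have h6 := mul_meas_ge_le_integral_of_nonneg (μ := gueMeasure J d)
    (f := fun ω => ‖wordTr ω w - φ w‖ ^ 2) (Filter.Eventually.of_forall fun ω => by positivity)
    hint (ε ^ 2)
  have h7 : {ω : J × (Fin d × Fin d) → ℝ | ε ≤ ‖wordTr ω w - φ w‖} =
      {ω | ε ^ 2 ≤ ‖wordTr ω w - φ w‖ ^ 2} := by
    ext ω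
    simp only [Set.mem_ofPred_eq]
    constructor
    · intro h; gcongr
    · intro h; exact (sq_le_sq₀ hε.le (norm_nonneg _)).1 h
  rw [h7]
  have h8 : (gueMeasure J d {ω | ε ^ 2 ≤ ‖wordTr ω w - φ w‖ ^ 2}) =
      ENNReal.ofReal ((gueMeasure J d).real {ω | ε ^ 2 ≤ ‖wordTr ω w - φ w‖ ^ 2}) := by
    rw [ofReal_measureReal]
  rw [h8]
  refine ENNReal.ofReal_le_ofReal ?_
  rw [le_div_iff₀ (by positivity), mul_comm]
  exact h6

end Crest.Agent.R089
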