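import Crest.Agent.R089.GUEMoments

/-! Operator norms of GUE matrices are bounded in probability (row 89). -/

set_option autoImplicit false

open MeasureTheory ProbabilityTheory Filter Topology
open scoped ENNReal NNReal

namespace Crest.Agent.R089.GUE

/-- The operator norm is at most the Frobenius norm. -/
lemma opNorm_sq_le_sum {d : ℕ} (A : Matrix (Fin d) (Fin d) ℂ) :
    ‖Matrix.toEuclideanCLM (n := Fin d) (𝕜 := ℂ) A‖ ^ 2 ≤ ∑ i, ∑ j, ‖A i j‖ ^ 2 := by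
  set S : ℝ := ∑ i, ∑ j, ‖A i j‖ ^ 2 with hS
  have hS0 : 0 ≤ S := by positivity
  have h : ‖Matrix.toEuclideanCLM (n := Fin d) (𝕜 := ℂ) A‖ ≤ Real.sqrt S := by
    refine ContinuousLinearMap.opNorm_le_bound _ (Real.sqrt_nonneg _) fun x => ?_
    rw [EuclideanSpace.norm_eq, EuclideanSpace.norm_eq, ← Real.sqrt_mul hS0]
    refine Real.sqrt_le_sqrt ?_
    rw [hS, Finset.sum_mul]
    refine Finset.sum_le_sum fun i _ => ?_
    rw [Matrix.ofLp_toEuclideanCLM, Matrix.mulVec, dotProduct]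
    calc ‖∑ j, A i j * x.ofLp j‖ ^ 2 ≤ (∑ j, ‖A i j‖ * ‖x.ofLp j‖) ^ 2 := by
          gcongr
          refine (norm_sum_le _ _).trans (le_of_eq ?_)
          exact Finset.sum_congr rfl fun j _ => norm_mul _ _
      _ ≤ (∑ j, ‖A i j‖ ^ 2) * ∑ j, ‖x.ofLp j‖ ^ 2 := Finset.sum_mul_sq_le_sq_mul_sq _ _ _
  calc ‖Matrix.toEuclideanCLM (n := Fin d) (𝕜 := ℂ) A‖ ^ 2 ≤ (Real.sqrt S) ^ 2 := by gcongr
    _ = S := Real.sq_sqrt hS0

lemma sum_norm_sq_eq_trace {d : ℕ} {A : Matrix (Fin d) (Fin d) ℂ} (hA : A.IsHermitian) :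
    ((∑ i, ∑ j, ‖A i j‖ ^ 2 : ℝ) : ℂ) = Matrix.trace (A * A) := by
  rw [Matrix.trace]
  push_cast
  refine Finset.sum_congr rfl fun i _ => ?_
  rw [Matrix.diag_apply, Matrix.mul_apply]
  refine Finset.sum_congr rfl fun j _ => ?_
  have h := hA.apply j i
  rw [← h, Complex.star_def, Complex.mul_conj', ← Complex.ofReal_pow]

lemma opNorm_pow_le_trace {d : ℕ} {A : Matrix (Fin d) (Fin d) ℂ} (hA : A.IsHermitian) (k : ℕ) :
    ‖Matrix.toEuclideanCLM (n := Fin d) (𝕜 := ℂ) A‖ ^ (2 ^ (k + 1)) ≤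
      (Matrix.trace (A ^ (2 ^ (k + 1)))).re := by
  have hsa : IsSelfAdjoint (Matrix.toEuclideanCLM (n := Fin d) (𝕜 := ℂ) A) := by
    have : IsSelfAdjoint A := hA
    exact this.map _
  have hB : (A ^ (2 ^ k)).IsHermitian := hA.pow _
  have h1 := IsSelfAdjoint.norm_pow_two_pow
    (E := EuclideanSpace ℂ (Fin d) →L[ℂ] EuclideanSpace ℂ (Fin d)) hsa k
  rw [← map_pow] at h1
  have h2 := opNorm_sq_le_sum (A ^ (2 ^ k))
  have h3 := sum_norm_sq_eq_trace hB
  rw [← pow_add, ← two_mul, ← pow_succ'] at h3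
  have h4 := congrArg Complex.re h3
  rw [Complex.ofReal_re] at h4
  rw [← h4, pow_succ, pow_mul, ← h1]
  exact h2

variable {J : Type*} [Fintype J]

lemma exists_log_bound : ∃ K : ℝ, 0 ≤ K ∧ ∀ L : ℕ, ((4 * (L : ℝ) + 5)) ^ 6 ≤ K * 4 ^ L := by
  have h := (tendsto_pow_const_div_const_pow_of_one_lt 6 (by norm_num : (1 : ℝ) < 4)).bddAbove_range
  obtain ⟨C, hC⟩ := h
  have hC' : ∀ n : ℕ, (n : ℝ) ^ 6 / 4 ^ n ≤ C := fun n => hC ⟨n, rfl⟩
  have hC0 : 0 ≤ C := le_trans (by positivity) (hC' 0)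
  refine ⟨9 ^ 6 * (4 * C), by positivity, fun L => ?_⟩
  have h1 := hC' (L + 1)
  rw [div_le_iff₀ (by positivity)] at h1
  have h2 : (4 * (L : ℝ) + 5) ≤ 9 * ((L + 1 : ℕ) : ℝ) := by
    push_cast
    have : (0 : ℝ) ≤ L := by positivity
    nlinarith
  calc ((4 * (L : ℝ) + 5)) ^ 6 ≤ (9 * ((L + 1 : ℕ) : ℝ)) ^ 6 := by gcongr
    _ = 9 ^ 6 * ((L + 1 : ℕ) : ℝ) ^ 6 := by ring
    _ ≤ 9 ^ 6 * (C * 4 ^ (L + 1)) := by gcongr
    _ = _ := by ring

/-- The trace moments of high order are bounded. -/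
lemma norm_TT_le [DecidableEq J] (d : ℕ) (hd : 1 ≤ d) (j : J) (t : ℕ) :
    ‖TT J d [List.replicate t j]‖ ≤
      (1 + (t : ℝ) * ((t : ℝ) + 1) ^ 4 / (d : ℝ) ^ 2) ^ t * 4 ^ t := by
  have h := (loopRec_TT (J := J)).bound t d hd [List.replicate t j] (by simp)
  refine h.trans ?_
  simp only [tot_cons, tot_nil, List.length_replicate, add_zero, cp_cons, cp_nil, mul_one]
  have : (catalan t : ℝ) ≤ 4 ^ t := by exact_mod_cast catalan_le_four_pow t
  gcongr

lemma measure_norm_le [DecidableEq J] (d : ℕ) (hd : 1 ≤ d) (j : J) (k : ℕ) :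
    gueMeasure J d {ω | 8 < ‖Matrix.toEuclideanCLM (n := Fin d) (𝕜 := ℂ) (gueMat ω j)‖} ≤
      ENNReal.ofReal ((d : ℝ) * ‖TT J d [List.replicate (2 ^ (k + 1)) j]‖ / 8 ^ (2 ^ (k + 1))) := by
  set t : ℕ := 2 ^ (k + 1) with ht
  have hd' : (0 : ℝ) < d := by exact_mod_cast hd
  have hdc : (d : ℂ) ≠ 0 := by exact_mod_cast (by omega : d ≠ 0)
  have hw : ∀ ω : J × (Fin d × Fin d) → ℝ, (d : ℝ) * (wordTr ω (List.replicate t j)).re =
      (Matrix.trace ((gueMat ω j) ^ t)).re := by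
    intro ω
    have : (d : ℂ) * wordTr ω (List.replicate t j) = Matrix.trace ((gueMat ω j) ^ t) := by
      rw [wordTr, List.map_replicate, List.prod_replicate, ← mul_assoc, mul_inv_cancel₀ hdc, one_mul]
    rw [← this]
    simp
  have hle : ∀ ω : J × (Fin d × Fin d) → ℝ,
      ‖Matrix.toEuclideanCLM (n := Fin d) (𝕜 := ℂ) (gueMat ω j)‖ ^ t ≤
        (d : ℝ) * (wordTr ω (List.replicate t j)).re := by
    intro ω
    rw [hw]
    exact opNorm_pow_le_trace (gueMat_isHermitian ω j) k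
  have hi0 := integrable_prod_wordTr (J := J) (d := d) [List.replicate t j]
  have hint : Integrable (fun ω : J × (Fin d × Fin d) → ℝ =>
      (d : ℝ) * (wordTr ω (List.replicate t j)).re) (gueMeasure J d) := by
    refine Integrable.const_mul ?_ _
    refine hi0.re.congr (Filter.Eventually.of_forall fun ω => ?_)
    simp
  have hmk := mul_meas_ge_le_integral_of_nonneg (μ := gueMeasure J d)
    (f := fun ω => (d : ℝ) * (wordTr ω (List.replicate t j)).re)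
    (Filter.Eventually.of_forall fun ω => (by positivity : (0 : ℝ) ≤ _).trans (hle ω))
    hint (8 ^ t)
  have hI : ∫ ω, (d : ℝ) * (wordTr ω (List.replicate t j)).re ∂(gueMeasure J d) ≤
      (d : ℝ) * ‖TT J d [List.replicate t j]‖ := by
    rw [integral_const_mul]
    have h1 := integral_prod_wordTr (J := J) (d := d) [List.replicate t j]
    have h2 : ∫ ω, (wordTr ω (List.replicate t j)).re ∂(gueMeasure J d) =
        (TT J d [List.replicate t j]).re := by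
      rw [← h1]
      have := integral_re (𝕜 := ℂ) hi0
      simpa using this
    rw [h2]
    have := Complex.re_le_norm (TT J d [List.replicate t j])
    gcongr
  have hsub : {ω : J × (Fin d × Fin d) → ℝ |
      8 < ‖Matrix.toEuclideanCLM (n := Fin d) (𝕜 := ℂ) (gueMat ω j)‖} ⊆
      {ω | (8 : ℝ) ^ t ≤ (d : ℝ) * (wordTr ω (List.replicate t j)).re} := by
    intro ω hω
    have h1 : (8 : ℝ) < ‖Matrix.toEuclideanCLM (n := Fin d) (𝕜 := ℂ) (gueMat ω j)‖ := hω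
    have h2 : (8 : ℝ) ^ t ≤ ‖Matrix.toEuclideanCLM (n := Fin d) (𝕜 := ℂ) (gueMat ω j)‖ ^ t := by
      gcongr
    exact h2.trans (hle ω)
  refine (measure_mono hsub).trans ?_
  rw [← ofReal_measureReal]
  refine ENNReal.ofReal_le_ofReal ?_
  rw [le_div_iff₀ (by positivity), mul_comm]
  exact hmk.trans hI

end Crest.Agent.R089.GUE

namespace Crest.Agent.R089

open GUE

/-- (G2) operator norms are bounded with probability tending to one. -/
theorem gue_norm_tendsto (J : Type*) [Fintype J] :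
    ∃ C : ℝ, 0 < C ∧ ∀ j : J, Tendsto (fun d : ℕ => gueMeasure J d
      {ω | C < ‖Matrix.toEuclideanCLM (n := Fin d) (𝕜 := ℂ) (gueMat ω j)‖}) atTop (𝓝 0) := by
  classical
  obtain ⟨K, hK0, hK⟩ := exists_log_bound
  refine ⟨8, by norm_num, fun j => ?_⟩
  have hlim : Tendsto (fun d : ℕ => ENNReal.ofReal (Real.exp K / d)) atTop (𝓝 0) := by
    have h1 : Tendsto (fun d : ℕ => Real.exp K / (d : ℝ)) atTop (𝓝 0) :=
      tendsto_const_nhds.div_atTop tendsto_natCast_atTop_atTop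
    simpa using ENNReal.tendsto_ofReal h1
  refine tendsto_of_tendsto_of_tendsto_of_le_of_le' tendsto_const_nhds hlim
    (Filter.Eventually.of_forall fun d => bot_le) ?_
  filter_upwards [eventually_ge_atTop 1] with d hd
  set L : ℕ := Nat.log 2 d with hL
  set k : ℕ := Nat.log 2 (L + 1) + 1 with hk
  refine (measure_norm_le d hd j k).trans (ENNReal.ofReal_le_ofReal ?_)
  set t : ℕ := 2 ^ (k + 1) with ht
  have hd' : (0 : ℝ) < d := by exact_mod_cast hd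
  have hdL1 : 2 ^ L ≤ d := Nat.pow_log_le_self 2 (by omega)
  have hdL2 : d < 2 ^ (L + 1) := Nat.lt_pow_succ_log_self (by norm_num) d
  have ht1 : t ≤ 4 * (L + 1) := by
    have : 2 ^ (Nat.log 2 (L + 1)) ≤ L + 1 := Nat.pow_log_le_self 2 (by omega)
    rw [ht, hk, pow_succ, pow_succ]
    omega
  have ht2 : 2 * (L + 1) ≤ t := by
    have : L + 1 < 2 ^ (Nat.log 2 (L + 1) + 1) := Nat.lt_pow_succ_log_self (by norm_num) _
    rw [ht, hk, pow_succ]
    omega
  have hb := norm_TT_le d hd j t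
  set κ : ℝ := (t : ℝ) * ((t : ℝ) + 1) ^ 4 / (d : ℝ) ^ 2 with hκ
  have hκ0 : 0 ≤ κ := by positivity
  have hκt : κ * t ≤ K := by
    have h1 : (t : ℝ) ≤ 4 * (L : ℝ) + 4 := by
      have : (t : ℝ) ≤ ((4 * (L + 1) : ℕ) : ℝ) := by exact_mod_cast ht1
      push_cast at this
      linarith
    have h2 : (4 : ℝ) ^ L ≤ (d : ℝ) ^ 2 := by
      have : ((2 ^ L : ℕ) : ℝ) ≤ d := by exact_mod_cast hdL1
      push_cast at this
      calc (4 : ℝ) ^ L = ((2 : ℝ) ^ L) ^ 2 := by rw [← pow_mul, mul_comm, pow_mul]; norm_num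
        _ ≤ (d : ℝ) ^ 2 := by gcongr
    have h3 : κ * t ≤ (4 * (L : ℝ) + 5) ^ 6 / (d : ℝ) ^ 2 := by
      rw [hκ, div_mul_eq_mul_div]
      gcongr
      have ht0 : (0 : ℝ) ≤ t := by positivity
      calc (t : ℝ) * ((t : ℝ) + 1) ^ 4 * t ≤ ((t : ℝ) + 1) * ((t : ℝ) + 1) ^ 4 * ((t : ℝ) + 1) := by
            gcongr <;> linarith
        _ = ((t : ℝ) + 1) ^ 6 := by ring
        _ ≤ (4 * (L : ℝ) + 5) ^ 6 := pow_le_pow_left₀ (by positivity) (by linarith) 6
    refine h3.trans ?_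
    rw [div_le_iff₀ (by positivity)]
    exact (hK L).trans (by gcongr)
  have h1 : (1 + κ) ^ t ≤ Real.exp K := by
    calc (1 + κ) ^ t ≤ (Real.exp κ) ^ t := by
          gcongr
          linarith [Real.add_one_le_exp κ]
      _ = Real.exp (κ * t) := by rw [← Real.exp_nat_mul]; ring_nf
      _ ≤ Real.exp K := Real.exp_le_exp.2 hκt
  have h2 : (d : ℝ) ^ 2 ≤ 2 ^ t := by
    have h3 : (d : ℝ) ≤ 2 ^ (L + 1) := by exact_mod_cast hdL2.le
    calc (d : ℝ) ^ 2 ≤ (2 ^ (L + 1)) ^ 2 := by gcongr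
      _ = 2 ^ (2 * (L + 1)) := by rw [← pow_mul]; ring_nf
      _ ≤ 2 ^ t := pow_le_pow_right₀ (by norm_num) ht2
  calc (d : ℝ) * ‖TT J d [List.replicate t j]‖ / 8 ^ t ≤ (d : ℝ) * ((1 + κ) ^ t * 4 ^ t) / 8 ^ t := by
        gcongr
    _ = (d : ℝ) * (1 + κ) ^ t / 2 ^ t := by
        have : (8 : ℝ) ^ t = 4 ^ t * 2 ^ t := by rw [← mul_pow]; norm_num
        rw [this]
        field_simp
    _ ≤ (d : ℝ) * Real.exp K / (d : ℝ) ^ 2 := by gcongr
    _ = Real.exp K / d := by field_simp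

end Crest.Agent.R089
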