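import Crest.Agent.R089.GUEMain
import Crest.Agent.R089.GUEMoments
import Crest.Agent.R089.GUENorm
import Crest.Agent.R089.FisherSmall

/-! (F) final form: `⊥ < chi τ (XX r d s)` (helper952). -/

set_option autoImplicit false

open MeasureTheory ProbabilityTheory Filter Topology
open Crest.OpAlg Crest.Agent.R089.Model
open scoped ENNReal NNReal

namespace Crest.Agent.R089.ChiLower

/-- General microstates lower bound (`GUESkeleton.bot_lt_chi`). -/
theorem bot_lt_chi_general {A : Type*} [Ring A] [Algebra ℂ A] (τ : A →ₗ[ℂ] ℂ) {k n : ℕ}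
    (a : Fin k → A) (b : Fin n → A) (φ : List (Fin k ⊕ Fin n) → ℝ) (hφ : IsSD φ)
    (hτ : ∀ w : List (Fin k ⊕ Fin n), τ ((w.map (Sum.elim a b)).prod) = (φ w : ℂ))
    (Q : Fin n → NCPoly k) (hQ : ∀ i, polyStar (Q i) = Q i) (δ : Fin n → ℝ)
    (hδ : ∀ i, 0 < δ i) :
    ⊥ < chi τ (fun i => polyEval a (Q i) + (Real.sqrt (δ i) : ℂ) • b i) :=
  bot_lt_chi_of τ a b φ (fun w ε hε => gue_moments_tendsto φ hφ w ε hε)
    (gue_norm_tendsto (Fin k ⊕ Fin n)) hτ Q hQ δ hδ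

/-- (F) `MainSkel.bot_lt_chi`. -/
theorem bot_lt_chi (r : ℕ) (d : ℝ) (hd : 0 < d) {A : Type} [CStarAlgebra A]
    (τ : A →ₗ[ℂ] ℂ) (s : Jx r → A) (φ : List (Jx r) → ℝ) (h : IsModel τ s φ) :
    ⊥ < chi τ (XX r d s) := by
  have hSD : IsSD (fun w : List (Fin (kk r) ⊕ Fin (nn r)) => φ (w.map Sum.inl)) :=
    h.sd.comap Sum.inl Sum.inl_injective
  refine bot_lt_chi_general τ (fun j => s (Sum.inl (Sum.inl j)))
    (fun i => s (Sum.inl (Sum.inr i)))
    (fun w => φ (w.map Sum.inl)) hSD (fun w => ?_)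
    (QQ r) (fun i => polyStar_QQ r i) (delt r d) (fun i => delt_pos r d hd i)
  rw [← h.mom, List.map_map]
  congr 3
  funext x
  rcases x with x | x <;> rfl

end Crest.Agent.R089.ChiLower
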