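import Crest.Prelude.Def_CStarRep
import Crest.Prelude.Def_FreeEntropy

set_option autoImplicit false

/-!
R089 (S0118), module (D-i): variational upper bound of the free Fisher information.
-/

namespace Crest.Agent.R089.ChiStar

open Crest.OpAlg
open scoped ENNReal InnerProductSpace

section basic
variable {A : Type*} [Ring A] [Algebra ℂ A] {n : ℕ}

/-- word-level split functional: `Σ_k [w_k = i] τ(w_{<k}) τ(w_{>k})`. -/
noncomputable def splitWord (τ : A →ₗ[ℂ] ℂ) (X : Fin n → A) (i : Fin n)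
    (w : FreeMonoid (Fin n)) : ℂ :=
  ∑ k ∈ Finset.range (FreeMonoid.toList w).length,
    if (FreeMonoid.toList w)[k]? = some i then
      τ (wordEval X (FreeMonoid.toList.symm ((FreeMonoid.toList w).take k))) *
        τ (wordEval X (FreeMonoid.toList.symm ((FreeMonoid.toList w).drop (k + 1))))
    else 0

theorem splitPairing_eq_sum (τ : A →ₗ[ℂ] ℂ) (X : Fin n → A) (i : Fin n) (P : NCPoly n) :
    splitPairing τ X i P = P.coeff.sum fun w c => c * splitWord τ X i w := rfl

theorem polyEval_eq_sum (X : Fin n → A) (P : NCPoly n) :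
    polyEval X P = P.coeff.sum fun w c => c • wordEval X w := by
  unfold polyEval wordEval
  rw [MonoidAlgebra.lift_apply]

theorem polyEval_single (X : Fin n → A) (w : FreeMonoid (Fin n)) (c : ℂ) :
    polyEval X (MonoidAlgebra.single w c) = c • wordEval X w := by
  unfold polyEval wordEval
  rw [MonoidAlgebra.lift_single]

theorem polyEval_mul (X : Fin n → A) (P Q : NCPoly n) :
    polyEval X (P * Q) = polyEval X P * polyEval X Q := by
  unfold polyEval; exact map_mul _ _ _

theorem polyEval_add (X : Fin n → A) (P Q : NCPoly n) :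
    polyEval X (P + Q) = polyEval X P + polyEval X Q := by
  unfold polyEval; exact map_add _ _ _

theorem wordEval_cons (X : Fin n → A) (i : Fin n) (w : FreeMonoid (Fin n)) :
    wordEval X (FreeMonoid.of i * w) = X i * wordEval X w := by
  unfold wordEval
  rw [map_mul, FreeMonoid.lift_eval_of]

theorem wordEval_one (X : Fin n → A) : wordEval X 1 = 1 := by
  unfold wordEval; exact map_one _

theorem wordEval_mul (X : Fin n → A) (u w : FreeMonoid (Fin n)) :
    wordEval X (u * w) = wordEval X u * wordEval X w := by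
  unfold wordEval; exact map_mul _ _ _

theorem wordEval_of (X : Fin n → A) (i : Fin n) :
    wordEval X (FreeMonoid.of i) = X i := by
  unfold wordEval; exact FreeMonoid.lift_eval_of _ _

end basic

section star
variable {A : Type*} [Ring A] [Algebra ℂ A] [StarRing A] {n : ℕ}

theorem star_wordEval (X : Fin n → A) (hX : ∀ i, IsSelfAdjoint (X i)) (l : List (Fin n)) :
    star (wordEval X (FreeMonoid.toList.symm l)) = wordEval X (FreeMonoid.toList.symm l.reverse) := by
  unfold wordEval
  simp only [FreeMonoid.lift_apply, Equiv.apply_symm_apply]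
  induction l with
  | nil => simp
  | cons a l ih =>
    simp only [List.map_cons, List.prod_cons, star_mul, ih, List.reverse_cons, List.map_append,
      List.prod_append, List.map_nil, List.prod_nil, mul_one]
    rw [(hX a).star_eq]

theorem polyEval_polyStar [StarModule ℂ A] (X : Fin n → A) (hX : ∀ i, IsSelfAdjoint (X i))
    (P : NCPoly n) : polyEval X (polyStar P) = star (polyEval X P) := by
  unfold polyStar
  rw [polyEval_eq_sum X P]
  simp only [Finsupp.sum]
  rw [star_sum]
  have : polyEval X (∑ a ∈ P.coeff.support, MonoidAlgebra.single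
      (FreeMonoid.toList.symm (FreeMonoid.toList a).reverse) ((starRingEnd ℂ) (P.coeff a)))
      = ∑ a ∈ P.coeff.support, polyEval X (MonoidAlgebra.single
      (FreeMonoid.toList.symm (FreeMonoid.toList a).reverse) ((starRingEnd ℂ) (P.coeff a))) := by
    unfold polyEval; exact map_sum _ _ _
  rw [this]
  refine Finset.sum_congr rfl fun w _ => ?_
  rw [polyEval_single, star_smul]
  rw [← star_wordEval X hX]
  simp

theorem isSelfAdjoint_polyEval [StarModule ℂ A] (X : Fin n → A) (hX : ∀ i, IsSelfAdjoint (X i))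
    (P : NCPoly n) (hP : polyStar P = P) : IsSelfAdjoint (polyEval X P) := by
  have := polyEval_polyStar X hX P
  rw [hP] at this
  exact this.symm

end star

section upper
variable {A : Type*} [Ring A] [Algebra ℂ A] [StarRing A] [StarModule ℂ A] {n : ℕ}

theorem splitPairing_eq_inner {H : Type*} [NormedAddCommGroup H] [InnerProductSpace ℂ H]
    (τ : A →ₗ[ℂ] ℂ) (φ : A →ₗ[ℂ] H) (X : Fin n → A) (i : Fin n) (ξ : H)
    (hξ : ∀ w : FreeMonoid (Fin n), splitWord τ X i w = ⟪ξ, φ (wordEval X w)⟫_ℂ) (P : NCPoly n) :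
    splitPairing τ X i P = ⟪ξ, φ (polyEval X P)⟫_ℂ := by
  rw [splitPairing_eq_sum, polyEval_eq_sum]
  simp only [Finsupp.sum, map_sum, inner_sum, map_smul, inner_smul_right]
  exact Finset.sum_congr rfl fun w _ => by rw [hξ]

/-- Variational upper bound: if the split functional is represented by vectors `ξ i` of a
GNS-type Hilbert space, then `Φ* ≤ Σ ‖ξ i‖²`. -/
theorem freeFisher_le {H : Type*} [NormedAddCommGroup H] [InnerProductSpace ℂ H]
    (τ : A →ₗ[ℂ] ℂ) (φ : A →ₗ[ℂ] H) (hφ : ∀ a b : A, τ (star a * b) = ⟪φ a, φ b⟫_ℂ)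
    (X : Fin n → A) (hX : ∀ i, IsSelfAdjoint (X i)) (ξ : Fin n → H)
    (hξ : ∀ i (w : FreeMonoid (Fin n)), splitWord τ X i w = ⟪ξ i, φ (wordEval X w)⟫_ℂ) :
    freeFisher τ X ≤ ENNReal.ofReal (∑ i, ‖ξ i‖ ^ 2) := by
  unfold freeFisher
  refine iSup_le fun P => iSup_le fun hP => ENNReal.ofReal_le_ofReal ?_
  rw [Complex.re_sum]
  refine Finset.sum_le_sum fun i _ => ?_
  have h1 := splitPairing_eq_inner τ φ X i (ξ i) (hξ i) (P i)
  have hsa := isSelfAdjoint_polyEval X hX (P i) (hP i)
  have h2 : τ (polyEval X (P i) * polyEval X (P i)) = ⟪φ (polyEval X (P i)), φ (polyEval X (P i))⟫_ℂ := by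
    rw [← hφ, hsa.star_eq]
  rw [h1, h2, inner_self_eq_norm_sq_to_K]
  set v := φ (polyEval X (P i))
  have h3 : (2 * ⟪ξ i, v⟫_ℂ - ((‖v‖ : ℝ) : ℂ) ^ 2).re = 2 * (⟪ξ i, v⟫_ℂ).re - ‖v‖ ^ 2 := by
    rw [Complex.sub_re, ← Complex.ofReal_pow, Complex.ofReal_re]
    simp
  have h4 : 0 ≤ ‖ξ i - v‖ ^ 2 := by positivity
  rw [@norm_sub_sq ℂ] at h4
  have h5 : RCLike.re ⟪ξ i, v⟫_ℂ = (⟪ξ i, v⟫_ℂ).re := rfl
  rw [h5] at h4
  have h6 : (2 * ⟪ξ i, v⟫_ℂ - ((RCLike.ofReal (‖v‖ : ℝ) : ℂ)) ^ 2).re = 2 * (⟪ξ i, v⟫_ℂ).re - ‖v‖ ^ 2 := h3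
  rw [h6]
  linarith

end upper

end Crest.Agent.R089.ChiStar
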