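import Mathlib
import Crest.Prelude.Def_FreeEntropy
import Crest.Agent.R089.GUEDefs

/-!
Row 89 (S0118): the second moment of `X_w - P_w(X_letters)` for the cubic words.
-/

set_option autoImplicit false

namespace Crest.Agent.R089.CubicVar
open Crest.Agent.R089 Crest.OpAlg

variable {J : Type*} [DecidableEq J]

section phi
variable {φ : List J → ℝ} (hφ : IsSD φ)
include hφ

theorem phi_single (x : J) : φ [x] = 0 := by
  rw [hφ.cons]; simp

theorem phi_two (x y : J) : φ [x, y] = if x = y then 1 else 0 := by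
  rw [hφ.cons]
  simp [hφ.nil, eq_comm]

theorem phi_four {x y z u : J} (hy : x ≠ y) (hyz : y ≠ z) :
    φ [x, y, z, u] = 0 := by
  rw [hφ.cons]
  simp [Finset.sum_range_succ, hφ.nil, Ne.symm hy, phi_two hφ, hyz, phi_single hφ]

theorem phi_four' {x y z u : J} (hy : x ≠ y) (hz : x ≠ z) (hu : x ≠ u) :
    φ [x, y, z, u] = 0 := by
  rw [hφ.cons]
  simp [Finset.sum_range_succ, Ne.symm hy, Ne.symm hz, Ne.symm hu]

theorem phi_pal4 {y z z' y' : J} (hyz : y ≠ z) (hyz' : y ≠ z') :
    φ [y, z, z', y'] = if z = z' ∧ y = y' then 1 else 0 := by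
  rw [hφ.cons]
  simp [Finset.sum_range_succ, hφ.nil, Ne.symm hyz, Ne.symm hyz', phi_two hφ]
  by_cases h1 : y = y'
  · simp [h1]
  · simp [h1, Ne.symm h1]

theorem phi_six_pal {x y z x' y' z' : J} (hxy : x ≠ y) (hxz : x ≠ z) (hxz' : x ≠ z')
    (hxy' : x ≠ y') (hyz : y ≠ z) (hyz' : y ≠ z') :
    φ [x, y, z, z', y', x'] = if x = x' ∧ y = y' ∧ z = z' then 1 else 0 := by
  rw [hφ.cons]
  simp [Finset.sum_range_succ, hφ.nil, Ne.symm hxy, Ne.symm hxz, Ne.symm hxz', Ne.symm hxy',
    phi_pal4 hφ hyz hyz']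
  by_cases h1 : x = x'
  · subst h1
    by_cases h2 : y = y' <;> by_cases h3 : z = z' <;> simp [h2, h3]
  · simp [h1, Ne.symm h1]

theorem phi_six_zero {x y z x' y' z' : J} (hxy : x ≠ y) (hxz : x ≠ z) (hxz' : x ≠ z')
    (hxy' : x ≠ y') (hyz : y ≠ z) :
    φ [x, y, z, x', y', z'] = 0 := by
  rw [hφ.cons]
  simp [Finset.sum_range_succ, hφ.nil, Ne.symm hxy, Ne.symm hxz, Ne.symm hxz', Ne.symm hxy',
    phi_two hφ, hyz]

end phi

section var
variable {A : Type*} [Ring A] [Algebra ℂ A]

omit [DecidableEq J] in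
/-- Trace of the square of a finite combination of words. -/
theorem trace_sq_sum {K : Type*} [Fintype K] {φ : List J → ℝ} (τ : A →ₗ[ℂ] ℂ) (s : J → A)
    (hτ : ∀ w : List J, τ ((w.map s).prod) = φ w) (c : K → ℂ) (w : K → List J) :
    τ ((∑ k, c k • ((w k).map s).prod) * (∑ k, c k • ((w k).map s).prod)) =
      ∑ k, ∑ l, c k * c l * φ (w k ++ w l) := by
  rw [Finset.sum_mul_sum, map_sum]
  refine Finset.sum_congr rfl fun k _ => ?_
  rw [map_sum]
  refine Finset.sum_congr rfl fun l _ => ?_
  rw [smul_mul_smul_comm, map_smul, smul_eq_mul, ← List.prod_append, ← List.map_append, hτ]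

/-- Three-letter words. -/
def w3 (x y z : Bool → J) : Bool × (Bool × Bool × Bool) → List J := fun t =>
  if t.1 then [z t.2.2.2, y t.2.2.1, x t.2.1] else [x t.2.1, y t.2.2.1, z t.2.2.2]

/-- The coefficient of a three-letter word. -/
noncomputable def cf (e : ℝ) : Bool → ℂ := fun b => if b then (e : ℂ) else 1

theorem cubic_var {φ : List J → ℝ} (hφ : IsSD φ) (τ : A →ₗ[ℂ] ℂ) (s : J → A)
    (hτ : ∀ w : List J, τ ((w.map s).prod) = φ w)
    (x y z : Bool → J) (m : J) (hx : x false ≠ x true) (hy : y false ≠ y true)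
    (hz : z false ≠ z true)
    (hxy : ∀ p q, x p ≠ y q) (hxz : ∀ p q, x p ≠ z q) (hyz : ∀ p q, y p ≠ z q)
    (hmx : ∀ p, m ≠ x p) (hmy : ∀ p, m ≠ y p) (hmz : ∀ p, m ≠ z p)
    (δ δ' : ℝ) (hδ : 0 ≤ δ) (hδ' : 0 ≤ δ') :
    τ ((((Real.sqrt 2 : ℝ) : ℂ)⁻¹ • (s (x false) * s (y false) * s (z false) +
          s (z false) * s (y false) * s (x false)) + ((Real.sqrt δ : ℝ) : ℂ) • s m -
        ((Real.sqrt 2 : ℝ) : ℂ)⁻¹ •
          ((s (x false) + ((Real.sqrt δ' : ℝ) : ℂ) • s (x true)) *
            (s (y false) + ((Real.sqrt δ' : ℝ) : ℂ) • s (y true)) *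
            (s (z false) + ((Real.sqrt δ' : ℝ) : ℂ) • s (z true)) +
          (s (z false) + ((Real.sqrt δ' : ℝ) : ℂ) • s (z true)) *
            (s (y false) + ((Real.sqrt δ' : ℝ) : ℂ) • s (y true)) *
            (s (x false) + ((Real.sqrt δ' : ℝ) : ℂ) • s (x true)))) *
      (((Real.sqrt 2 : ℝ) : ℂ)⁻¹ • (s (x false) * s (y false) * s (z false) +
          s (z false) * s (y false) * s (x false)) + ((Real.sqrt δ : ℝ) : ℂ) • s m -
        ((Real.sqrt 2 : ℝ) : ℂ)⁻¹ •
          ((s (x false) + ((Real.sqrt δ' : ℝ) : ℂ) • s (x true)) *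
            (s (y false) + ((Real.sqrt δ' : ℝ) : ℂ) • s (y true)) *
            (s (z false) + ((Real.sqrt δ' : ℝ) : ℂ) • s (z true)) +
          (s (z false) + ((Real.sqrt δ' : ℝ) : ℂ) • s (z true)) *
            (s (y false) + ((Real.sqrt δ' : ℝ) : ℂ) • s (y true)) *
            (s (x false) + ((Real.sqrt δ' : ℝ) : ℂ) • s (x true))))) =
      ((δ + (1 + δ') ^ 3 - 1 : ℝ) : ℂ) := by
  set e : ℝ := Real.sqrt δ' with he
  set f : ℝ := Real.sqrt δ with hf
  set g : ℂ := ((Real.sqrt 2 : ℝ) : ℂ)⁻¹ with hg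
  have hg2 : g * g = 1 / 2 := by
    rw [hg, ← mul_inv, ← Complex.ofReal_mul, Real.mul_self_sqrt (by norm_num)]
    norm_num
  -- words and coefficients
  set W : Option (Bool × (Bool × Bool × Bool)) → List J := fun o =>
    match o with
    | none => [m]
    | some t => w3 x y z t with hW
  set c3 : Bool × Bool × Bool → ℂ := fun t =>
    if t = (false, false, false) then 0 else cf e t.1 * cf e t.2.1 * cf e t.2.2 with hc3
  set C : Option (Bool × (Bool × Bool × Bool)) → ℂ := fun o =>
    match o with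
    | none => (f : ℂ)
    | some t => -g * c3 t.2 with hC
  have hD : g • (s (x false) * s (y false) * s (z false) +
          s (z false) * s (y false) * s (x false)) + (f : ℂ) • s m -
        g • ((s (x false) + (e : ℂ) • s (x true)) *
            (s (y false) + (e : ℂ) • s (y true)) *
            (s (z false) + (e : ℂ) • s (z true)) +
          (s (z false) + (e : ℂ) • s (z true)) *
            (s (y false) + (e : ℂ) • s (y true)) *
            (s (x false) + (e : ℂ) • s (x true))) =
      ∑ k, C k • ((W k).map s).prod := by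
    rw [Fintype.sum_option]
    simp only [hC, hW, hc3, w3, cf, Fintype.sum_prod_type, Fintype.sum_bool, List.map_cons,
      List.map_nil, List.prod_cons, List.prod_nil, mul_one, if_true, Bool.false_eq_true, if_false,
      Prod.mk.injEq, and_true, and_false, Bool.true_eq_false, and_self, one_mul, mul_zero, zero_smul]
    simp only [smul_add, mul_add, add_mul, smul_mul_assoc, mul_smul_comm, neg_mul, neg_smul,
      smul_smul, mul_assoc]
    module
  rw [hD, trace_sq_sum τ s hτ C W]
  have hmm : φ (W none ++ W none) = 1 := by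
    simp only [hW]
    rw [List.singleton_append, phi_two hφ]
    simp
  have hm3 : ∀ t, φ (W none ++ W (some t)) = 0 := by
    rintro ⟨r, p, q, u⟩
    simp only [hW, w3]
    cases r
    · simp only [Bool.false_eq_true, if_false, List.singleton_append]
      exact phi_four' hφ (hmx _) (hmy _) (hmz _)
    · simp only [if_true, List.singleton_append]
      exact phi_four' hφ (hmz _) (hmy _) (hmx _)
  have h3m : ∀ t, φ (W (some t) ++ W none) = 0 := by
    rintro ⟨r, p, q, u⟩
    simp only [hW, w3]
    cases r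
    · simp only [Bool.false_eq_true, if_false, List.cons_append, List.nil_append]
      exact phi_four hφ (hxy _ _) (hyz _ _)
    · simp only [if_true, List.cons_append, List.nil_append]
      exact phi_four hφ (hyz _ _).symm (hxy _ _).symm
  have hxi : ∀ p q : Bool, x p = x q ↔ p = q := by
    intro p q
    cases p <;> cases q <;> simp [hx, hx.symm]
  have hyi : ∀ p q : Bool, y p = y q ↔ p = q := by
    intro p q
    cases p <;> cases q <;> simp [hy, hy.symm]
  have hzi : ∀ p q : Bool, z p = z q ↔ p = q := by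
    intro p q
    cases p <;> cases q <;> simp [hz, hz.symm]
  have h33 : ∀ (r r' : Bool) (t t' : Bool × Bool × Bool),
      φ (W (some (r, t)) ++ W (some (r', t'))) = if r' = !r ∧ t = t' then 1 else 0 := by
    rintro r r' ⟨p, q, u⟩ ⟨p', q', u'⟩
    simp only [hW, w3]
    cases r <;> cases r'
    · simp only [Bool.false_eq_true, if_false, List.cons_append, List.nil_append, Bool.not_false,
        false_and]
      exact phi_six_zero hφ (hxy _ _) (hxz _ _) (hxz _ _) (hxy _ _) (hyz _ _)
    · simp only [Bool.false_eq_true, if_false, if_true, List.cons_append, List.nil_append,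
        Bool.not_false, true_and]
      rw [phi_six_pal hφ (hxy _ _) (hxz _ _) (hxz _ _) (hxy _ _) (hyz _ _) (hyz _ _)]
      simp only [hxi, hyi, hzi, Prod.mk.injEq]
    · simp only [Bool.false_eq_true, if_false, if_true, List.cons_append, List.nil_append,
        Bool.not_true, true_and]
      rw [phi_six_pal hφ (hyz _ _).symm (hxz _ _).symm (hxz _ _).symm (hyz _ _).symm
        (hxy _ _).symm (hxy _ _).symm]
      simp only [hxi, hyi, hzi, Prod.mk.injEq]
      congr 1
      apply propext
      tauto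
    · simp only [if_true, List.cons_append, List.nil_append, Bool.not_true,
        Bool.true_eq_false, false_and, if_false]
      exact phi_six_zero hφ (hyz _ _).symm (hxz _ _).symm (hxz _ _).symm (hyz _ _).symm
        (hxy _ _).symm
  rw [Fintype.sum_option]
  simp_rw [Fintype.sum_option]
  rw [hmm]
  simp_rw [hm3, h3m]
  simp only [Complex.ofReal_zero, mul_zero, Finset.sum_const_zero, add_zero, zero_add,
    Complex.ofReal_one, mul_one]
  have hrest : ∑ t : Bool × (Bool × Bool × Bool), ∑ t' : Bool × (Bool × Bool × Bool),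
      C (some t) * C (some t') * (φ (W (some t) ++ W (some t')) : ℂ) =
      (((1 + δ') ^ 3 - 1 : ℝ) : ℂ) := by
    have h1 : ∀ t t' : Bool × (Bool × Bool × Bool),
        C (some t) * C (some t') * (φ (W (some t) ++ W (some t')) : ℂ) =
        if t' = (!t.1, t.2) then (1 / 2 : ℂ) * (c3 t.2) ^ 2 else 0 := by
      rintro ⟨r, t⟩ ⟨r', t'⟩
      rw [h33]
      by_cases h : r' = !r ∧ t = t'
      · obtain ⟨h1, h2⟩ := h
        subst h1; subst h2
        simp only [hC, and_self, if_true, Complex.ofReal_one, mul_one]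
        rw [← hg2]
        ring
      · rw [if_neg h, if_neg]
        · simp
        · intro h'
          simp only [Prod.mk.injEq] at h'
          exact h ⟨h'.1, h'.2.symm⟩
    simp_rw [h1]
    simp only [Finset.sum_ite_eq', Finset.sum_ite_eq, Finset.mem_univ, if_true]
    have he2 : (e : ℂ) ^ 2 = (δ' : ℂ) := by
      rw [← Complex.ofReal_pow, he, Real.sq_sqrt hδ']
    simp only [hc3, cf, Fintype.sum_prod_type, Fintype.sum_bool, if_true, Bool.false_eq_true,
      if_false, Prod.mk.injEq, and_true, and_false, Bool.true_eq_false, and_self, mul_one,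
      one_mul]
    push_cast
    have he4 : (e : ℂ) ^ 4 = (δ' : ℂ) ^ 2 := by rw [← he2]; ring
    have he6 : (e : ℂ) ^ 6 = (δ' : ℂ) ^ 3 := by rw [← he2]; ring
    ring_nf
    rw [he2, he4, he6]
  rw [hrest]
  have hf2 : (f : ℂ) * f = (δ : ℂ) := by
    rw [← Complex.ofReal_mul, hf, Real.mul_self_sqrt hδ]
  simp only [hC]
  rw [hf2]
  push_cast
  ring

/-- Second moment of a noisy letter. -/
theorem letter_var {φ : List J → ℝ} (hφ : IsSD φ) (τ : A →ₗ[ℂ] ℂ) (s : J → A)
    (hτ : ∀ w : List J, τ ((w.map s).prod) = φ w) (x n : J) (hxn : x ≠ n) (δ' : ℝ) (hδ' : 0 ≤ δ') :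
    τ ((s x + ((Real.sqrt δ' : ℝ) : ℂ) • s n) * (s x + ((Real.sqrt δ' : ℝ) : ℂ) • s n)) =
      ((1 + δ' : ℝ) : ℂ) := by
  have h2 : ∀ p q : J, τ (s p * s q) = if p = q then 1 else 0 := by
    intro p q
    have := hτ [p, q]
    rw [phi_two hφ] at this
    simp only [List.map_cons, List.map_nil, List.prod_cons, List.prod_nil, mul_one] at this
    rw [this]
    split_ifs <;> simp
  rw [add_mul, mul_add, mul_add, smul_mul_assoc, smul_mul_assoc, mul_smul_comm, mul_smul_comm,
    smul_smul]
  simp only [map_add, map_smul, h2, smul_eq_mul, if_true, hxn, hxn.symm, if_false, mul_zero,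
    mul_one, add_zero, zero_add]
  rw [← Complex.ofReal_mul, Real.mul_self_sqrt hδ']
  push_cast
  ring

end var

end Crest.Agent.R089.CubicVar
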