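import Mathlib
import Crest.Prelude.Def_FreeEntropy

/-!
Row 89 (S0118), module E: the upper bound for the microstates free entropy.

Main result: `Crest.Agent.R089.VolUpper.chi_le`.
-/

set_option autoImplicit false
open MeasureTheory Real

namespace Crest.Agent.R089.VolUpper
open Crest.OpAlg

/-- Product Gaussian lintegral. -/
theorem lintegral_pi_gauss {ι : Type*} [Fintype ι] (lam : ι → ℝ) (hlam : ∀ i, 0 < lam i) :
    ∫⁻ a : ι → ℝ, ENNReal.ofReal (Real.exp (-(∑ i, lam i * (a i) ^ 2))) =
      ENNReal.ofReal (∏ i, Real.sqrt (π / lam i)) := by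
  have h1 : ∀ a : ι → ℝ, Real.exp (-(∑ i, lam i * (a i) ^ 2)) =
      ∏ i, Real.exp (-(lam i) * (a i) ^ 2) := by
    intro a
    rw [← Real.exp_sum]
    congr 1
    rw [← Finset.sum_neg_distrib]
    exact Finset.sum_congr rfl fun i _ => by ring
  have hint : Integrable (fun a : ι → ℝ => ∏ i, Real.exp (-(lam i) * (a i) ^ 2)) :=
    Integrable.fintype_prod (fun i => integrable_exp_neg_mul_sq (hlam i))
  simp_rw [h1]
  rw [← ofReal_integral_eq_lintegral_ofReal hint
    (Filter.Eventually.of_forall fun a => Finset.prod_nonneg fun i _ => (Real.exp_pos _).le)]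
  rw [integral_fintype_prod_volume_eq_prod (f := fun i (x : ℝ) => Real.exp (-(lam i) * x ^ 2))]
  simp_rw [integral_gaussian]

/-- Sheared product Gaussian lintegral. -/
theorem lintegral_shear_gauss {ι : Type*} [Fintype ι] (p : ι → Prop) [DecidablePred p]
    (lam : ι → ℝ) (hlam : ∀ i, 0 < lam i)
    (g : ({i // p i} → ℝ) → ({i // ¬ p i} → ℝ)) (hg : Measurable g) :
    ∫⁻ a : ι → ℝ, ENNReal.ofReal (Real.exp (-(∑ i : {i // p i}, lam i * (a i) ^ 2 +
        ∑ i : {i // ¬ p i}, lam i * (a i - g (fun j => a j) i) ^ 2))) =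
      ENNReal.ofReal (∏ i, Real.sqrt (π / lam i)) := by
  classical
  set F : ({i // p i} → ℝ) × ({i // ¬ p i} → ℝ) → ENNReal := fun z =>
    ENNReal.ofReal (Real.exp (-(∑ i : {i // p i}, lam i * (z.1 i) ^ 2 +
        ∑ i : {i // ¬ p i}, lam i * (z.2 i - g z.1 i) ^ 2))) with hF
  have hFm : Measurable F := by
    refine ENNReal.measurable_ofReal.comp (Real.measurable_exp.comp (Measurable.neg ?_))
    refine Measurable.add ?_ ?_
    · fun_prop
    · refine Finset.measurable_sum _ fun i _ => ?_
      have : Measurable fun z : ({i // p i} → ℝ) × ({i // ¬ p i} → ℝ) => g z.1 i :=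
        (measurable_pi_apply i).comp (hg.comp measurable_fst)
      fun_prop
  have hmp := volume_preserving_piEquivPiSubtypeProd (fun _ : ι => ℝ) p
  have h1 : ∫⁻ a : ι → ℝ, ENNReal.ofReal (Real.exp (-(∑ i : {i // p i}, lam i * (a i) ^ 2 +
        ∑ i : {i // ¬ p i}, lam i * (a i - g (fun j => a j) i) ^ 2))) =
      ∫⁻ a : ι → ℝ, F (MeasurableEquiv.piEquivPiSubtypeProd (fun _ : ι => ℝ) p a) := rfl
  rw [h1, hmp.lintegral_comp hFm, Measure.volume_eq_prod, lintegral_prod _ hFm.aemeasurable]
  have h2 : ∀ x : {i // p i} → ℝ, ∫⁻ y : {i // ¬ p i} → ℝ, F (x, y) =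
      ENNReal.ofReal (Real.exp (-(∑ i : {i // p i}, lam i * (x i) ^ 2))) *
        ENNReal.ofReal (∏ i : {i // ¬ p i}, Real.sqrt (π / lam i)) := by
    intro x
    have h3 : ∀ y : {i // ¬ p i} → ℝ, F (x, y) =
        ENNReal.ofReal (Real.exp (-(∑ i : {i // p i}, lam i * (x i) ^ 2))) *
        ENNReal.ofReal (Real.exp (-(∑ i : {i // ¬ p i}, lam i * ((y - g x) i) ^ 2))) := by
      intro y
      rw [← ENNReal.ofReal_mul (Real.exp_pos _).le, ← Real.exp_add]
      simp only [hF, Pi.sub_apply]
      congr 2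
      ring
    simp_rw [h3]
    rw [lintegral_const_mul]
    · rw [lintegral_sub_right_eq_self (fun y : {i // ¬ p i} → ℝ =>
        ENNReal.ofReal (Real.exp (-(∑ i : {i // ¬ p i}, lam i * (y i) ^ 2)))) (g x)]
      rw [lintegral_pi_gauss (fun i : {i // ¬ p i} => lam i) (fun i => hlam i)]
    · fun_prop
  simp_rw [h2]
  rw [lintegral_mul_const _ (by fun_prop),
    lintegral_pi_gauss (fun i : {i // p i} => lam i) (fun i => hlam i),
    ← ENNReal.ofReal_mul (Finset.prod_nonneg fun i _ => Real.sqrt_nonneg _)]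
  congr 1
  exact Fintype.prod_subtype_mul_prod_subtype p fun i => Real.sqrt (π / lam i)

/-- Volume of a set on which a sheared quadratic form is bounded. -/
theorem volume_le_of_shear {ι : Type*} [Fintype ι] (p : ι → Prop) [DecidablePred p]
    (lam : ι → ℝ) (hlam : ∀ i, 0 < lam i)
    (g : ({i // p i} → ℝ) → ({i // ¬ p i} → ℝ)) (hg : Measurable g)
    (K : Set (ι → ℝ)) (q : ℝ)
    (hK : ∀ a ∈ K, ∑ i : {i // p i}, lam i * (a i) ^ 2 +
        ∑ i : {i // ¬ p i}, lam i * (a i - g (fun j => a j) i) ^ 2 ≤ q) :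
    volume K ≤ ENNReal.ofReal (Real.exp q * ∏ i, Real.sqrt (π / lam i)) := by
  classical
  set G : (ι → ℝ) → ENNReal := fun a => ENNReal.ofReal (Real.exp q) *
    ENNReal.ofReal (Real.exp (-(∑ i : {i // p i}, lam i * (a i) ^ 2 +
        ∑ i : {i // ¬ p i}, lam i * (a i - g (fun j => a j) i) ^ 2))) with hG
  have hgm : ∀ i : {i // ¬ p i}, Measurable fun a : ι → ℝ => g (fun j => a j) i := by
    intro i
    refine (measurable_pi_apply i).comp (hg.comp ?_)
    exact measurable_pi_lambda _ fun j => measurable_pi_apply _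
  have hGm : Measurable G := by
    refine Measurable.const_mul ?_ _
    refine ENNReal.measurable_ofReal.comp (Real.measurable_exp.comp (Measurable.neg ?_))
    refine Measurable.add ?_ ?_
    · fun_prop
    · refine Finset.measurable_sum _ fun i _ => ?_
      have := hgm i
      fun_prop
  have h1 : ∀ a ∈ K, (1 : ENNReal) ≤ G a := by
    intro a ha
    simp only [hG]
    rw [← ENNReal.ofReal_mul (Real.exp_pos _).le, ← Real.exp_add]
    rw [← ENNReal.ofReal_one]
    apply ENNReal.ofReal_le_ofReal
    rw [Real.one_le_exp_iff]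
    have := hK a ha
    linarith
  have hK' : K ⊆ {a | 1 ≤ G a} := h1
  calc volume K ≤ volume {a | 1 ≤ G a} := measure_mono hK'
    _ = 1 * volume {a | 1 ≤ G a} := (one_mul _).symm
    _ ≤ ∫⁻ a, G a := mul_meas_ge_le_lintegral hGm 1
    _ = ENNReal.ofReal (Real.exp q * ∏ i, Real.sqrt (π / lam i)) := by
        rw [hG, lintegral_const_mul']
        · rw [lintegral_shear_gauss p lam hlam g hg, ENNReal.ofReal_mul (Real.exp_pos _).le]
        · exact ENNReal.ofReal_ne_top

/-- Coordinates of (the upper half of) a matrix; inverse of `hermitianOfCoords` on Hermitian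
matrices. -/
noncomputable def coords {d : ℕ} (H : Matrix (Fin d) (Fin d) ℂ) : Fin d × Fin d → ℝ := fun p =>
  if p.1 = p.2 then (H p.1 p.1).re
  else if p.1 < p.2 then Real.sqrt 2 * (H p.1 p.2).re
  else Real.sqrt 2 * (H p.2 p.1).im

theorem coords_sub {d : ℕ} (H₁ H₂ : Matrix (Fin d) (Fin d) ℂ) (p : Fin d × Fin d) :
    coords (H₁ - H₂) p = coords H₁ p - coords H₂ p := by
  unfold coords
  split_ifs <;> simp [mul_sub]

theorem sqrt2_ne : (Real.sqrt 2 : ℂ) ≠ 0 := by
  have : Real.sqrt 2 ≠ 0 := by positivity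
  exact_mod_cast this

theorem coords_hermitianOfCoords {d : ℕ} (a : EuclideanSpace ℝ (Fin d × Fin d))
    (p : Fin d × Fin d) : coords (hermitianOfCoords a) p = a p := by
  obtain ⟨i, j⟩ := p
  have h2 : Real.sqrt 2 ≠ 0 := by positivity
  unfold coords hermitianOfCoords
  dsimp only
  by_cases hij : i = j
  · subst hij
    simp
  · rw [if_neg hij]
    by_cases hlt : i < j
    · rw [if_pos hlt, if_neg hij, if_pos hlt]
      rw [Complex.div_ofReal_re]
      simp
      field_simp
    · have hgt : j < i := lt_of_le_of_ne (not_lt.mp hlt) (Ne.symm hij)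
      rw [if_neg hlt, if_neg (Ne.symm hij), if_pos hgt]
      rw [Complex.div_ofReal_im]
      simp
      field_simp

theorem isHermitian_hermitianOfCoords {d : ℕ} (a : EuclideanSpace ℝ (Fin d × Fin d)) :
    (hermitianOfCoords a).IsHermitian := by
  ext i j
  simp only [Matrix.conjTranspose_apply]
  unfold hermitianOfCoords
  by_cases hij : i = j
  · subst hij
    simp
  · rw [if_neg hij, if_neg (Ne.symm hij)]
    by_cases hlt : i < j
    · rw [if_pos hlt, if_neg (not_lt.mpr hlt.le)]
      simp [Complex.ext_iff]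
    · have hgt : j < i := lt_of_le_of_ne (not_lt.mp hlt) (Ne.symm hij)
      rw [if_neg hlt, if_pos hgt]
      simp [Complex.ext_iff]

theorem sum_coords_sq {d : ℕ} (H : Matrix (Fin d) (Fin d) ℂ) (hH : H.IsHermitian) :
    ∑ p : Fin d × Fin d, (coords H p) ^ 2 = (Matrix.trace (H * H)).re := by
  have hs : Real.sqrt 2 ^ 2 = 2 := Real.sq_sqrt (by norm_num)
  have hherm : ∀ i j, H j i = starRingEnd ℂ (H i j) := fun i j => by
    have := congrFun (congrFun hH j) i
    rw [Matrix.conjTranspose_apply] at this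
    exact this.symm
  have h1 : (Matrix.trace (H * H)).re = ∑ p : Fin d × Fin d, Complex.normSq (H p.1 p.2) := by
    rw [Matrix.trace, Complex.re_sum, Fintype.sum_prod_type]
    refine Finset.sum_congr rfl fun i _ => ?_
    rw [Matrix.diag_apply, Matrix.mul_apply, Complex.re_sum]
    refine Finset.sum_congr rfl fun j _ => ?_
    rw [hherm i j, Complex.mul_conj]
    simp
  have h2 : ∑ p : Fin d × Fin d, (coords H p) ^ 2 =
      ∑ p : Fin d × Fin d, (coords H (p.2, p.1)) ^ 2 :=
    (Equiv.sum_comp (Equiv.prodComm (Fin d) (Fin d)) fun p => (coords H p) ^ 2).symm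
  have h3 : ∀ p : Fin d × Fin d, (coords H p) ^ 2 + (coords H (p.2, p.1)) ^ 2 =
      2 * Complex.normSq (H p.1 p.2) := by
    rintro ⟨i, j⟩
    unfold coords
    dsimp only
    by_cases hij : i = j
    · subst hij
      simp only [if_true]
      have him : (H i i).im = 0 := by
        have := congrArg Complex.im (hherm i i)
        rw [Complex.conj_im] at this
        linarith
      rw [Complex.normSq_apply, him]
      ring
    · rw [if_neg hij, if_neg (Ne.symm hij)]
      by_cases hlt : i < j
      · rw [if_pos hlt, if_neg (not_lt.mpr hlt.le), Complex.normSq_apply, mul_pow, mul_pow, hs]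
        ring
      · have hgt : j < i := lt_of_le_of_ne (not_lt.mp hlt) (Ne.symm hij)
        rw [if_neg hlt, if_pos hgt, Complex.normSq_apply, mul_pow, mul_pow, hs, hherm i j,
          Complex.conj_re, Complex.conj_im]
        ring
  have h4 : 2 * ∑ p : Fin d × Fin d, (coords H p) ^ 2 =
      2 * ∑ p : Fin d × Fin d, Complex.normSq (H p.1 p.2) := by
    calc 2 * ∑ p : Fin d × Fin d, (coords H p) ^ 2
        = ∑ p : Fin d × Fin d, (coords H p) ^ 2 + ∑ p : Fin d × Fin d, (coords H (p.2, p.1)) ^ 2 := by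
          rw [← h2]; ring
      _ = ∑ p : Fin d × Fin d, ((coords H p) ^ 2 + (coords H (p.2, p.1)) ^ 2) := by
          rw [Finset.sum_add_distrib]
      _ = ∑ p : Fin d × Fin d, 2 * Complex.normSq (H p.1 p.2) :=
          Finset.sum_congr rfl fun p _ => h3 p
      _ = _ := by rw [Finset.mul_sum]
  rw [h1]
  linarith

/-- `polyEval` as an explicit sum. -/
theorem polyEval_eq_sum {A : Type*} [Ring A] [Algebra ℂ A] {n : ℕ} (X : Fin n → A) (P : NCPoly n) :
    polyEval X P = P.coeff.sum fun w c => c • wordEval X w := by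
  unfold polyEval wordEval
  rw [MonoidAlgebra.lift_apply]

theorem wordEval_star {n d : ℕ} (M : Fin n → Matrix (Fin d) (Fin d) ℂ)
    (hM : ∀ i, (M i).IsHermitian) (w : FreeMonoid (Fin n)) :
    (wordEval M w).conjTranspose =
      wordEval M (FreeMonoid.toList.symm (FreeMonoid.toList w).reverse) := by
  have key : ∀ l : List (Fin n), ((l.map M).prod).conjTranspose = (l.reverse.map M).prod := by
    intro l
    induction l with
    | nil => simp
    | cons a l ih =>
      rw [List.map_cons, List.prod_cons, Matrix.conjTranspose_mul, ih, hM a]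
      simp
  unfold wordEval
  rw [FreeMonoid.lift_apply, FreeMonoid.lift_apply]
  exact key _

theorem polyEval_isHermitian {n d : ℕ} (M : Fin n → Matrix (Fin d) (Fin d) ℂ)
    (hM : ∀ i, (M i).IsHermitian) (P : NCPoly n) (hP : polyStar P = P) :
    (polyEval M P).IsHermitian := by
  have h : (polyEval M P).conjTranspose = polyEval M (polyStar P) := by
    rw [polyEval_eq_sum]
    unfold polyStar
    rw [Finsupp.sum, Matrix.conjTranspose_sum, Finsupp.sum]
    unfold polyEval
    rw [map_sum]
    refine Finset.sum_congr rfl fun w _ => ?_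
    rw [Matrix.conjTranspose_smul, MonoidAlgebra.lift_single, wordEval_star M hM]
    rfl
  unfold Matrix.IsHermitian
  rw [h, hP]

section moments
variable {A : Type*} [Ring A] [Algebra ℂ A] {n d : ℕ}

theorem trace_polyEval_close (τ : A →ₗ[ℂ] ℂ) (X : Fin n → A)
    (M : Fin n → Matrix (Fin d) (Fin d) ℂ) (R : NCPoly n) (m : ℕ) (ε : ℝ)
    (hm : ∀ w ∈ R.coeff.support, (FreeMonoid.toList w).length ≤ m)
    (hclose : ∀ w : FreeMonoid (Fin n), (FreeMonoid.toList w).length ≤ m →
      ‖matrixMoment M w - τ (wordEval X w)‖ < ε) :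
    ‖(d : ℂ)⁻¹ * Matrix.trace (polyEval M R) - τ (polyEval X R)‖ ≤
      (R.coeff.sum fun _ c => ‖c‖) * ε := by
  have h1 : (d : ℂ)⁻¹ * Matrix.trace (polyEval M R) - τ (polyEval X R) =
      ∑ w ∈ R.coeff.support, R.coeff w * (matrixMoment M w - τ (wordEval X w)) := by
    rw [polyEval_eq_sum, polyEval_eq_sum, Finsupp.sum, Finsupp.sum, Matrix.trace_sum, map_sum,
      Finset.mul_sum, ← Finset.sum_sub_distrib]
    refine Finset.sum_congr rfl fun w _ => ?_
    rw [Matrix.trace_smul, map_smul, matrixMoment, smul_eq_mul, smul_eq_mul]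
    ring
  rw [h1, Finsupp.sum, Finset.sum_mul]
  refine (norm_sum_le _ _).trans (Finset.sum_le_sum fun w hw => ?_)
  rw [norm_mul]
  exact mul_le_mul_of_nonneg_left (hclose w (hm w hw)).le (norm_nonneg _)

end moments

section shear
variable {n d : ℕ} (isL : Fin n → Prop) [DecidablePred isL]

/-- Extension of letter coordinates by zero. -/
noncomputable def extZ (z : {q : Fin n × (Fin d × Fin d) // isL q.1} → ℝ) :
    EuclideanSpace ℝ (Fin n × (Fin d × Fin d)) :=
  WithLp.toLp 2 fun q => if h : isL q.1 then z ⟨q, h⟩ else 0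

theorem matrixTuple_ext (a : EuclideanSpace ℝ (Fin n × (Fin d × Fin d))) (l : Fin n)
    (hl : isL l) :
    matrixTuple (extZ isL fun j => a j) l = matrixTuple a l := by
  unfold matrixTuple extZ
  congr 2
  funext p
  simp [hl]

theorem wordEval_congr {A : Type*} [Ring A] [Algebra ℂ A] (X Y : Fin n → A)
    (w : FreeMonoid (Fin n)) (h : ∀ l ∈ FreeMonoid.toList w, X l = Y l) :
    wordEval X w = wordEval Y w := by
  unfold wordEval
  rw [FreeMonoid.lift_apply, FreeMonoid.lift_apply]
  congr 1
  exact List.map_congr_left h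

theorem polyEval_congr {A : Type*} [Ring A] [Algebra ℂ A] (X Y : Fin n → A)
    (P : NCPoly n) (h : ∀ w ∈ P.coeff.support, ∀ l ∈ FreeMonoid.toList w, X l = Y l) :
    polyEval X P = polyEval Y P := by
  rw [polyEval_eq_sum, polyEval_eq_sum, Finsupp.sum, Finsupp.sum]
  refine Finset.sum_congr rfl fun w hw => ?_
  rw [wordEval_congr X Y w (h w hw)]

theorem continuous_matrixTuple_ext (l : Fin n) :
    Continuous fun z : {q : Fin n × (Fin d × Fin d) // isL q.1} → ℝ =>
      matrixTuple (extZ isL z) l := by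
  refine continuous_pi fun i => continuous_pi fun j => ?_
  have hc : ∀ p : Fin d × Fin d, Continuous fun z : {q : Fin n × (Fin d × Fin d) // isL q.1} → ℝ =>
      (((extZ isL z) (l, p) : ℝ) : ℂ) := by
    intro p
    unfold extZ
    dsimp only
    by_cases h : isL l
    · simp only [h, dif_pos]
      exact Complex.continuous_ofReal.comp (continuous_apply _)
    · simp only [h, dif_neg, not_false_eq_true]
      exact continuous_const
  have key : ∀ z : {q : Fin n × (Fin d × Fin d) // isL q.1} → ℝ,
      matrixTuple (extZ isL z) l i j = if i = j then (((extZ isL z) (l, (i, i)) : ℝ) : ℂ)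
    else if i < j then ((((extZ isL z) (l, (i, j)) : ℝ) : ℂ) +
      (((extZ isL z) (l, (j, i)) : ℝ) : ℂ) * Complex.I) / (Real.sqrt 2 : ℂ)
    else ((((extZ isL z) (l, (j, i)) : ℝ) : ℂ) -
      (((extZ isL z) (l, (i, j)) : ℝ) : ℂ) * Complex.I) / (Real.sqrt 2 : ℂ) := fun z => rfl
  simp_rw [key]
  by_cases h1 : i = j
  · simp only [h1, if_true]
    exact hc _
  · simp only [h1, if_false]
    by_cases h2 : i < j
    · simp only [h2, if_true]
      exact (((hc (i, j)).add ((hc (j, i)).mul continuous_const)).div_const _)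
    · simp only [h2, if_false]
      exact (((hc (j, i)).sub ((hc (i, j)).mul continuous_const)).div_const _)

theorem continuous_polyEval_ext (P : NCPoly n) :
    Continuous fun z : {q : Fin n × (Fin d × Fin d) // isL q.1} → ℝ =>
      polyEval (matrixTuple (extZ isL z)) P := by
  simp_rw [polyEval_eq_sum, Finsupp.sum]
  refine continuous_finsetSum _ fun w _ => ?_
  have h : Continuous fun z : {q : Fin n × (Fin d × Fin d) // isL q.1} → ℝ =>
      wordEval (matrixTuple (extZ isL z)) w := by
    unfold wordEval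
    simp_rw [FreeMonoid.lift_apply]
    exact continuous_list_prod _ fun l _ => continuous_matrixTuple_ext isL l
  exact h.const_smul (P.coeff w)

theorem continuous_coords (p : Fin d × Fin d) :
    Continuous fun H : Matrix (Fin d) (Fin d) ℂ => coords H p := by
  unfold coords
  split_ifs
  · exact Complex.continuous_re.comp ((continuous_apply p.1).comp (continuous_apply p.1))
  · exact (Complex.continuous_re.comp ((continuous_apply p.2).comp (continuous_apply p.1))).const_mul _
  · exact (Complex.continuous_im.comp ((continuous_apply p.1).comp (continuous_apply p.2))).const_mul _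

/-- The shear function. -/
noncomputable def shearFun (P : Fin n → NCPoly n)
    (z : {q : Fin n × (Fin d × Fin d) // isL q.1} → ℝ) :
    {q : Fin n × (Fin d × Fin d) // ¬ isL q.1} → ℝ :=
  fun q => coords (polyEval (matrixTuple (extZ isL z)) (P q.1.1)) q.1.2

theorem measurable_shearFun (P : Fin n → NCPoly n) :
    Measurable (shearFun (d := d) isL P) := by
  refine measurable_pi_lambda _ fun q => ?_
  exact ((continuous_coords q.1.2).comp (continuous_polyEval_ext isL (P q.1.1))).measurable

end shear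

section vol
variable {n d : ℕ} (isL : Fin n → Prop) [DecidablePred isL]

/-- Residual matrix. -/
noncomputable def resid (P : Fin n → NCPoly n) (a : EuclideanSpace ℝ (Fin n × (Fin d × Fin d)))
    (i : Fin n) : Matrix (Fin d) (Fin d) ℂ :=
  matrixTuple a i - polyEval (matrixTuple a) (P i)

theorem isHermitian_matrixTuple (a : EuclideanSpace ℝ (Fin n × (Fin d × Fin d))) (l : Fin n) :
    (matrixTuple a l).IsHermitian := isHermitian_hermitianOfCoords _

theorem resid_isHermitian (P : Fin n → NCPoly n) (hP : ∀ i, polyStar (P i) = P i)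
    (a : EuclideanSpace ℝ (Fin n × (Fin d × Fin d))) (i : Fin n) :
    (resid P a i).IsHermitian :=
  (isHermitian_matrixTuple a i).sub
    (polyEval_isHermitian _ (fun l => isHermitian_matrixTuple a l) _ (hP i))

theorem volume_le_of_resid (P : Fin n → NCPoly n) (hP : ∀ i, polyStar (P i) = P i)
    (hPL : ∀ i, isL i → P i = 0)
    (hPs : ∀ i, ∀ w ∈ (P i).coeff.support, ∀ l ∈ FreeMonoid.toList w, isL l)
    (hd : 0 < d) (b : Fin n → ℝ) (hb : ∀ i, 0 < b i)
    (S : Set (EuclideanSpace ℝ (Fin n × (Fin d × Fin d))))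
    (hS : ∀ a ∈ S, ∀ i, (Matrix.trace (resid P a i * resid P a i)).re ≤ d * b i) :
    volume S ≤ ENNReal.ofReal (Real.exp ((n : ℝ) * d ^ 2 / 2) *
      ∏ q : Fin n × (Fin d × Fin d), Real.sqrt (π / (d / (2 * b q.1)))) := by
  have hd' : (0 : ℝ) < d := by exact_mod_cast hd
  set lam : Fin n × (Fin d × Fin d) → ℝ := fun q => d / (2 * b q.1) with hlam
  have hlam0 : ∀ q, 0 < lam q := fun q => div_pos hd' (mul_pos two_pos (hb _))
  have hvol : volume S = volume ((WithLp.toLp 2 : (Fin n × (Fin d × Fin d) → ℝ) → _) ⁻¹' S) :=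
    ((PiLp.volume_preserving_toLp _).measure_preimage_emb
      (MeasurableEquiv.toLp 2 (Fin n × (Fin d × Fin d) → ℝ)).measurableEmbedding S).symm
  rw [hvol]
  refine volume_le_of_shear (fun q : Fin n × (Fin d × Fin d) => isL q.1) lam hlam0
    (shearFun isL P) (measurable_shearFun isL P) _ _ ?_
  intro x hx
  set a : EuclideanSpace ℝ (Fin n × (Fin d × Fin d)) := WithLp.toLp 2 x with ha
  have haS : a ∈ S := hx
  -- the quadratic form
  have key : ∀ q : Fin n × (Fin d × Fin d), coords (resid P a q.1) q.2 =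
      x q - coords (polyEval (matrixTuple a) (P q.1)) q.2 := by
    intro q
    unfold resid
    rw [coords_sub]
    congr 1
    unfold matrixTuple
    rw [coords_hermitianOfCoords]
  have hsum : ∑ i : {q : Fin n × (Fin d × Fin d) // isL q.1}, lam i * (x i) ^ 2 +
      ∑ i : {q : Fin n × (Fin d × Fin d) // ¬ isL q.1},
        lam i * (x i - shearFun isL P (fun j => x j) i) ^ 2 =
      ∑ q : Fin n × (Fin d × Fin d), lam q * (coords (resid P a q.1) q.2) ^ 2 := by
    rw [← Fintype.sum_subtype_add_sum_subtype (fun q : Fin n × (Fin d × Fin d) => isL q.1)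
      (fun q => lam q * (coords (resid P a q.1) q.2) ^ 2)]
    congr 1
    · refine Finset.sum_congr rfl fun q _ => ?_
      rw [key]
      have h0 : coords (polyEval (matrixTuple a) (P (q : Fin n × (Fin d × Fin d)).1))
          (q : Fin n × (Fin d × Fin d)).2 = 0 := by
        rw [hPL _ q.2]
        unfold polyEval coords
        rw [map_zero]
        split_ifs <;> simp
      rw [h0, sub_zero]
    · refine Finset.sum_congr rfl fun q _ => ?_
      rw [key]
      unfold shearFun
      have h1 : polyEval (matrixTuple (extZ isL fun j => x j))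
          (P (q : Fin n × (Fin d × Fin d)).1) =
          polyEval (matrixTuple a) (P (q : Fin n × (Fin d × Fin d)).1) := by
        refine polyEval_congr _ _ _ fun w hw l hl => ?_
        exact matrixTuple_ext isL a l (hPs _ w hw l hl)
      rw [h1]
  rw [hsum, Fintype.sum_prod_type]
  have h2 : ∀ i : Fin n, ∑ p : Fin d × Fin d, lam (i, p) * (coords (resid P a i) p) ^ 2 ≤
      d ^ 2 / 2 := by
    intro i
    have h3 : ∑ p : Fin d × Fin d, lam (i, p) * (coords (resid P a i) p) ^ 2 =
        d / (2 * b i) * (Matrix.trace (resid P a i * resid P a i)).re := by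
      rw [← sum_coords_sq _ (resid_isHermitian P hP a i), Finset.mul_sum]
    rw [h3]
    have h4 := hS a haS i
    have hbi := hb i
    calc d / (2 * b i) * (Matrix.trace (resid P a i * resid P a i)).re
        ≤ d / (2 * b i) * (d * b i) :=
          mul_le_mul_of_nonneg_left h4 (div_nonneg hd'.le (by positivity))
      _ = d ^ 2 / 2 := by field_simp
  calc ∑ i : Fin n, ∑ p : Fin d × Fin d, lam (i, p) * (coords (resid P a i) p) ^ 2
      ≤ ∑ _i : Fin n, ((d : ℝ) ^ 2 / 2) := Finset.sum_le_sum fun i _ => h2 i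
    _ = (n : ℝ) * d ^ 2 / 2 := by
        rw [Finset.sum_const, Finset.card_univ, Fintype.card_fin, nsmul_eq_mul]; ring

end vol

section chi
variable {A : Type*} [Ring A] [Algebra ℂ A] {n : ℕ}

/-- The polynomial (xᵢ - Pᵢ)². -/
noncomputable def sqPoly (P : Fin n → NCPoly n) (i : Fin n) : NCPoly n :=
  (MonoidAlgebra.single (FreeMonoid.of i) 1 - P i) * (MonoidAlgebra.single (FreeMonoid.of i) 1 - P i)

theorem polyEval_sqPoly {B : Type*} [Ring B] [Algebra ℂ B] (X : Fin n → B) (P : Fin n → NCPoly n)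
    (i : Fin n) :
    polyEval X (sqPoly P i) = (X i - polyEval X (P i)) * (X i - polyEval X (P i)) := by
  unfold sqPoly polyEval
  rw [map_mul, map_sub, MonoidAlgebra.lift_single, FreeMonoid.lift_eval_of, one_smul]

theorem chiCutoff_le_aux (τ : A →ₗ[ℂ] ℂ) (X : Fin n → A) (isL : Fin n → Prop)
    (P : Fin n → NCPoly n) (hP : ∀ i, polyStar (P i) = P i)
    (hPL : ∀ i, isL i → P i = 0)
    (hPs : ∀ i, ∀ w ∈ (P i).coeff.support, ∀ l ∈ FreeMonoid.toList w, isL l)
    (c : Fin n → ℝ) (hc : ∀ i, 0 < c i)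
    (h : ∀ i, (τ ((X i - polyEval X (P i)) * (X i - polyEval X (P i)))).re ≤ c i)
    (R η : ℝ) (hη : 0 < η) :
    chiCutoff τ X R ≤
      ((∑ i, 1 / 2 * Real.log (2 * π * Real.exp 1 * (c i + η)) : ℝ) : EReal) := by
  classical
  set m : ℕ := Finset.univ.sup fun i => (sqPoly P i).coeff.support.sup fun w =>
    (FreeMonoid.toList w).length with hm
  set C : ℝ := 1 + ∑ i, ((sqPoly P i).coeff.sum fun _ z => ‖z‖) with hC
  have hCnn : ∀ i, 0 ≤ ((sqPoly P i).coeff.sum fun _ z => ‖z‖) := fun i =>
    Finset.sum_nonneg fun w _ => norm_nonneg _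
  have hC0 : 0 < C := by
    have := Finset.sum_nonneg fun i (_ : i ∈ Finset.univ) => hCnn i
    linarith
  have hCi : ∀ i, ((sqPoly P i).coeff.sum fun _ z => ‖z‖) ≤ C := fun i => by
    have := Finset.single_le_sum (fun j _ => hCnn j) (Finset.mem_univ i)
    linarith
  set ε : ℝ := η / C with hε
  have hε0 : 0 < ε := div_pos hη hC0
  have hmi : ∀ i, ∀ w ∈ (sqPoly P i).coeff.support, (FreeMonoid.toList w).length ≤ m := by
    intro i w hw
    refine le_trans ?_ (Finset.le_sup (f := fun i => (sqPoly P i).coeff.support.sup fun w =>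
      (FreeMonoid.toList w).length) (Finset.mem_univ i))
    exact Finset.le_sup (f := fun w : FreeMonoid (Fin n) => (FreeMonoid.toList w).length) hw
  unfold chiCutoff
  refine (iInf_le _ m).trans ((iInf_le _ ε).trans ((iInf_le _ hε0).trans ?_))
  refine Filter.limsup_le_of_le (by isBoundedDefault) ?_
  filter_upwards [Filter.eventually_gt_atTop 0] with d hd
  have hd' : (0 : ℝ) < d := by exact_mod_cast hd
  set b : Fin n → ℝ := fun i => c i + η with hb
  have hb0 : ∀ i, 0 < b i := fun i => add_pos (hc i) hη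
  have hS : ∀ a ∈ microstates τ X R m d ε, ∀ i,
      (Matrix.trace (resid P a i * resid P a i)).re ≤ d * b i := by
    intro a ha i
    have h1 := trace_polyEval_close τ X (matrixTuple a) (sqPoly P i) m ε (hmi i) ha.2
    rw [polyEval_sqPoly, polyEval_sqPoly] at h1
    have h2 : ((d : ℂ)⁻¹ * Matrix.trace (resid P a i * resid P a i) -
        τ ((X i - polyEval X (P i)) * (X i - polyEval X (P i)))).re ≤ η := by
      refine (Complex.re_le_norm _).trans (h1.trans ?_)
      calc ((sqPoly P i).coeff.sum fun _ z => ‖z‖) * ε ≤ C * ε :=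
            mul_le_mul_of_nonneg_right (hCi i) hε0.le
        _ = η := by rw [hε]; field_simp
    rw [Complex.sub_re] at h2
    have h3 : ((d : ℂ)⁻¹ * Matrix.trace (resid P a i * resid P a i)).re =
        (d : ℝ)⁻¹ * (Matrix.trace (resid P a i * resid P a i)).re := by
      rw [show ((d : ℂ)⁻¹) = (((d : ℝ)⁻¹ : ℝ) : ℂ) by push_cast; rfl, Complex.re_ofReal_mul]
    rw [h3] at h2
    have h4 : (d : ℝ)⁻¹ * (Matrix.trace (resid P a i * resid P a i)).re ≤ b i := by
      have := h i
      simp only [hb]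
      linarith
    calc (Matrix.trace (resid P a i * resid P a i)).re
        = d * ((d : ℝ)⁻¹ * (Matrix.trace (resid P a i * resid P a i)).re) := by field_simp
      _ ≤ d * b i := mul_le_mul_of_nonneg_left h4 hd'.le
  have hvol := volume_le_of_resid isL P hP hPL hPs hd b hb0 (microstates τ X R m d ε) hS
  have hpos : 0 < Real.exp ((n : ℝ) * d ^ 2 / 2) *
      ∏ q : Fin n × (Fin d × Fin d), Real.sqrt (π / (d / (2 * b q.1))) := by
    refine mul_pos (Real.exp_pos _) (Finset.prod_pos fun q _ => Real.sqrt_pos.mpr ?_)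
    have := hb0 q.1
    positivity
  have hlog : (volume (microstates τ X R m d ε)).log ≤
      ((Real.log (Real.exp ((n : ℝ) * d ^ 2 / 2) *
      ∏ q : Fin n × (Fin d × Fin d), Real.sqrt (π / (d / (2 * b q.1)))) : ℝ) : EReal) := by
    rw [← ENNReal.log_ofReal_of_pos hpos]
    exact ENNReal.log_monotone hvol
  have hval : Real.log (Real.exp ((n : ℝ) * d ^ 2 / 2) *
      ∏ q : Fin n × (Fin d × Fin d), Real.sqrt (π / (d / (2 * b q.1)))) =
      (d : ℝ) ^ 2 * (∑ i, 1 / 2 * Real.log (2 * π * Real.exp 1 * b i) -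
        (n : ℝ) / 2 * Real.log d) := by
    have hpp : ∀ q : Fin n × (Fin d × Fin d), 0 < π / (d / (2 * b q.1)) := fun q => by
      have := hb0 q.1
      positivity
    rw [Real.log_mul (Real.exp_pos _).ne' (Finset.prod_ne_zero_iff.mpr fun q _ =>
      (Real.sqrt_pos.mpr (hpp q)).ne'), Real.log_exp,
      Real.log_prod (fun q _ => (Real.sqrt_pos.mpr (hpp q)).ne'), Fintype.sum_prod_type]
    have h5 : ∀ i : Fin n, ∑ _p : Fin d × Fin d, Real.log (Real.sqrt (π / (d / (2 * b i)))) =
        (d : ℝ) ^ 2 * (1 / 2 * Real.log (2 * π * Real.exp 1 * b i) - 1 / 2 * Real.log d - 1 / 2) := by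
      intro i
      rw [Finset.sum_const, Finset.card_univ, Fintype.card_prod, Fintype.card_fin, nsmul_eq_mul]
      have hbi := hb0 i
      have h6 : Real.log (Real.sqrt (π / (d / (2 * b i)))) =
          1 / 2 * Real.log (2 * π * Real.exp 1 * b i) - 1 / 2 * Real.log d - 1 / 2 := by
        rw [Real.log_sqrt (by positivity), Real.log_div (by positivity) (by positivity),
          Real.log_div (by positivity) (by positivity), Real.log_mul (by positivity) (by positivity),
          Real.log_mul (by positivity) (by positivity), Real.log_mul (by positivity) (by positivity),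
          Real.log_mul (by positivity) (by positivity), Real.log_exp]
        ring
      rw [h6]
      push_cast
      ring
    simp_rw [h5]
    rw [← Finset.mul_sum, Finset.sum_sub_distrib, Finset.sum_sub_distrib, Finset.sum_const,
      Finset.sum_const, Finset.card_univ, Fintype.card_fin, nsmul_eq_mul, nsmul_eq_mul]
    ring
  have hnn : (0 : EReal) ≤ ((((d : ℝ) ^ 2)⁻¹ : ℝ) : EReal) := by
    exact_mod_cast (by positivity : (0 : ℝ) ≤ ((d : ℝ) ^ 2)⁻¹)
  calc ((((d : ℝ) ^ 2)⁻¹ : ℝ) : EReal) * (volume (microstates τ X R m d ε)).log +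
      (((n : ℝ) / 2 * Real.log d : ℝ) : EReal)
      ≤ ((((d : ℝ) ^ 2)⁻¹ : ℝ) : EReal) * (((d : ℝ) ^ 2 *
        (∑ i, 1 / 2 * Real.log (2 * π * Real.exp 1 * b i) -
        (n : ℝ) / 2 * Real.log d) : ℝ) : EReal) + (((n : ℝ) / 2 * Real.log d : ℝ) : EReal) := by
        gcongr
        rw [← hval]
        exact hlog
    _ = ((∑ i, 1 / 2 * Real.log (2 * π * Real.exp 1 * (c i + η)) : ℝ) : EReal) := by
        rw [← EReal.coe_mul, ← EReal.coe_add]
        congr 1
        have : (d : ℝ) ^ 2 ≠ 0 := by positivity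
        simp only [hb]
        field_simp
        ring

/-- **Upper bound for the microstates free entropy.** If the letters `isL` satisfy
`τ(Xᵢ²) ≤ cᵢ` and the other variables are within `cᵢ` (in squared 2-norm) of self-adjoint
polynomials in the letters, then `χ(X) ≤ ∑ᵢ ½ log(2πe cᵢ)`. -/
theorem chi_le (τ : A →ₗ[ℂ] ℂ) (X : Fin n → A) (isL : Fin n → Prop)
    (P : Fin n → NCPoly n) (hP : ∀ i, polyStar (P i) = P i)
    (hPL : ∀ i, isL i → P i = 0)
    (hPs : ∀ i, ∀ w ∈ (P i).coeff.support, ∀ l ∈ FreeMonoid.toList w, isL l)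
    (c : Fin n → ℝ) (hc : ∀ i, 0 < c i)
    (h : ∀ i, (τ ((X i - polyEval X (P i)) * (X i - polyEval X (P i)))).re ≤ c i) :
    chi τ X ≤ ((∑ i, 1 / 2 * Real.log (2 * π * Real.exp 1 * c i) : ℝ) : EReal) := by
  unfold chi
  refine iSup_le fun R => iSup_le fun _ => ?_
  have hcont : ContinuousAt (fun η : ℝ =>
      (∑ i, 1 / 2 * Real.log (2 * π * Real.exp 1 * (c i + η)) : ℝ)) 0 := by
    refine tendsto_finsetSum _ fun i _ => ?_
    have hne : 2 * π * Real.exp 1 * (c i + 0) ≠ 0 := by
      have := hc i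
      positivity
    have : ContinuousAt (fun η : ℝ => 1 / 2 * Real.log (2 * π * Real.exp 1 * (c i + η))) 0 := by
      refine ContinuousAt.mul continuousAt_const (ContinuousAt.log ?_ hne)
      fun_prop
    exact this
  have hlim : Filter.Tendsto (fun η : ℝ =>
      ((∑ i, 1 / 2 * Real.log (2 * π * Real.exp 1 * (c i + η)) : ℝ) : EReal))
      (nhdsWithin 0 (Set.Ioi 0))
      (nhds ((∑ i, 1 / 2 * Real.log (2 * π * Real.exp 1 * (c i + 0)) : ℝ) : EReal)) :=
    (continuous_coe_real_ereal.tendsto _).comp (hcont.tendsto.mono_left nhdsWithin_le_nhds)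
  simp only [add_zero] at hlim
  refine ge_of_tendsto hlim ?_
  filter_upwards [self_mem_nhdsWithin] with η hη
  exact chiCutoff_le_aux τ X isL P hP hPL hPs c hc h R η hη

end chi

end Crest.Agent.R089.VolUpper
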