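import Mathlib
import Crest.Prelude.Def_FreeEntropy
import Crest.Agent.R089.VolUpper
import Crest.Agent.R089.CubicVar

/-!
Row 89 (S0118): upper bound of the microstates entropy for the cubic model.
-/

set_option autoImplicit false

namespace Crest.Agent.R089.ChiUpper
open Crest.Agent.R089 Crest.OpAlg
open Crest.Agent.R089.VolUpper Crest.Agent.R089.CubicVar

theorem polyStar_add {n : ℕ} (P Q : NCPoly n) : polyStar (P + Q) = polyStar P + polyStar Q := by
  classical
  unfold polyStar
  rw [MonoidAlgebra.coeff_add]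
  refine Finsupp.sum_add_index' (fun w => ?_) (fun w a b => ?_)
  · simp
  · rw [map_add, MonoidAlgebra.single_add]

theorem polyStar_single {n : ℕ} (w : FreeMonoid (Fin n)) (c : ℂ) :
    polyStar (MonoidAlgebra.single w c : NCPoly n) =
      MonoidAlgebra.single (FreeMonoid.toList.symm (FreeMonoid.toList w).reverse)
        (starRingEnd ℂ c) := by
  unfold polyStar
  rw [MonoidAlgebra.coeff_single]
  refine Finsupp.sum_single_index ?_
  simp

theorem polyStar_zero {n : ℕ} : polyStar (0 : NCPoly n) = 0 := by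
  unfold polyStar
  simp

/-- The cubic polynomial `(x_i x_j x_k + x_k x_j x_i)/√2`. -/
noncomputable def cubic {n : ℕ} (i j k : Fin n) : NCPoly n :=
  MonoidAlgebra.single (FreeMonoid.ofList [i, j, k]) (((Real.sqrt 2 : ℝ) : ℂ)⁻¹) +
    MonoidAlgebra.single (FreeMonoid.ofList [k, j, i]) (((Real.sqrt 2 : ℝ) : ℂ)⁻¹)

theorem polyStar_cubic {n : ℕ} (i j k : Fin n) : polyStar (cubic i j k) = cubic i j k := by
  unfold cubic
  rw [polyStar_add, polyStar_single, polyStar_single]
  have h : (starRingEnd ℂ) (((Real.sqrt 2 : ℝ) : ℂ)⁻¹) = ((Real.sqrt 2 : ℝ) : ℂ)⁻¹ := by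
    rw [map_inv₀, Complex.conj_ofReal]
  rw [h, add_comm]
  rfl

theorem polyEval_cubic {A : Type*} [Ring A] [Algebra ℂ A] {n : ℕ} (X : Fin n → A) (i j k : Fin n) :
    polyEval X (cubic i j k) =
      ((Real.sqrt 2 : ℝ) : ℂ)⁻¹ • (X i * X j * X k + X k * X j * X i) := by
  unfold cubic polyEval
  rw [map_add, MonoidAlgebra.lift_single, MonoidAlgebra.lift_single, smul_add]
  simp only [FreeMonoid.lift_apply, FreeMonoid.toList_ofList, List.map_cons, List.map_nil,
    List.prod_cons, List.prod_nil, mul_one, mul_assoc]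

theorem mem_support_cubic {n : ℕ} (i j k : Fin n) (w : FreeMonoid (Fin n))
    (hw : w ∈ (cubic i j k).coeff.support) (l : Fin n) (hl : l ∈ FreeMonoid.toList w) :
    l = i ∨ l = j ∨ l = k := by
  classical
  unfold cubic at hw
  rw [MonoidAlgebra.coeff_add] at hw
  have h1 := Finsupp.support_add hw
  rw [Finset.mem_union] at h1
  rcases h1 with h1 | h1
  · rw [MonoidAlgebra.coeff_single] at h1
    have h2 := Finsupp.support_single_subset h1
    rw [Finset.mem_singleton] at h2
    subst h2
    simpa using hl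
  · rw [MonoidAlgebra.coeff_single] at h1
    have h2 := Finsupp.support_single_subset h1
    rw [Finset.mem_singleton] at h2
    subst h2
    have : l = k ∨ l = j ∨ l = i := by simpa using hl
    tauto

theorem chi_model_upper {A : Type*} [Ring A] [Algebra ℂ A] {n r : ℕ}
    (e : Fin n ≃ (Fin 3 × Fin r) ⊕ (Fin r × Fin r × Fin r))
    {J : Type*} [DecidableEq J] {φ : List J → ℝ} (hφ : IsSD φ)
    (τ : A →ₗ[ℂ] ℂ) (s : J → A) (hτ : ∀ w : List J, τ ((w.map s).prod) = φ w)
    (hid : Fin 3 × Fin r → J) (hhid : Function.Injective hid)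
    (noise : Fin n → J) (hnoise : Function.Injective noise) (hdis : ∀ a i, hid a ≠ noise i)
    (δ δ' : ℝ) (hδ : 0 < δ) (hδ' : 0 < δ') (X : Fin n → A)
    (hXl : ∀ a, X (e.symm (Sum.inl a)) =
      s (hid a) + ((Real.sqrt δ' : ℝ) : ℂ) • s (noise (e.symm (Sum.inl a))))
    (hXw : ∀ a b c, X (e.symm (Sum.inr (a, b, c))) =
      ((Real.sqrt 2 : ℝ) : ℂ)⁻¹ • (s (hid (0, a)) * s (hid (1, b)) * s (hid (2, c)) +
        s (hid (2, c)) * s (hid (1, b)) * s (hid (0, a))) +
      ((Real.sqrt δ : ℝ) : ℂ) • s (noise (e.symm (Sum.inr (a, b, c))))) :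
    chi τ X ≤ ((3 * (r : ℝ) * (1 / 2 * Real.log (2 * Real.pi * Real.exp 1 * (1 + δ'))) +
      (r : ℝ) ^ 3 * (1 / 2 * Real.log (2 * Real.pi * Real.exp 1 *
        (δ + ((1 + δ') ^ 3 - 1)))) : ℝ) : EReal) := by
  classical
  set P : Fin n → NCPoly n := fun i =>
    match e i with
    | Sum.inl _ => 0
    | Sum.inr t => cubic (e.symm (Sum.inl (0, t.1))) (e.symm (Sum.inl (1, t.2.1)))
        (e.symm (Sum.inl (2, t.2.2))) with hP
  set c : Fin n → ℝ := fun i =>
    match e i with
    | Sum.inl _ => 1 + δ'
    | Sum.inr _ => δ + ((1 + δ') ^ 3 - 1) with hc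
  have hPl : ∀ a, P (e.symm (Sum.inl a)) = 0 := fun a => by simp [hP]
  have hPr : ∀ t : Fin r × Fin r × Fin r, P (e.symm (Sum.inr t)) =
      cubic (e.symm (Sum.inl (0, t.1))) (e.symm (Sum.inl (1, t.2.1)))
        (e.symm (Sum.inl (2, t.2.2))) := fun t => by simp [hP]
  have hcl : ∀ a, c (e.symm (Sum.inl a)) = 1 + δ' := fun a => by simp [hc]
  have hcr : ∀ t, c (e.symm (Sum.inr t)) = δ + ((1 + δ') ^ 3 - 1) := fun t => by simp [hc]
  have hcase : ∀ i : Fin n, (∃ a, i = e.symm (Sum.inl a)) ∨ ∃ t, i = e.symm (Sum.inr t) := by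
    intro i
    rcases h : e i with a | t
    · exact Or.inl ⟨a, by rw [← h, Equiv.symm_apply_apply]⟩
    · exact Or.inr ⟨t, by rw [← h, Equiv.symm_apply_apply]⟩
  have hcube : 0 < (1 + δ') ^ 3 - 1 := by
    have : (1 + δ') ^ 3 - 1 = 3 * δ' + 3 * δ' ^ 2 + δ' ^ 3 := by ring
    rw [this]; positivity
  have main := chi_le τ X (fun i => ∃ a, e i = Sum.inl a) P ?_ ?_ ?_ c ?_ ?_
  · refine main.trans (le_of_eq ?_)
    congr 1
    rw [← Equiv.sum_comp e.symm, Fintype.sum_sum_type]
    simp_rw [hcl, hcr]
    rw [Finset.sum_const, Finset.sum_const, Finset.card_univ, Finset.card_univ]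
    simp only [Fintype.card_prod, Fintype.card_fin, nsmul_eq_mul]
    push_cast
    ring
  · intro i
    rcases hcase i with ⟨a, rfl⟩ | ⟨t, rfl⟩
    · rw [hPl, polyStar_zero]
    · rw [hPr, polyStar_cubic]
  · rintro i ⟨a, ha⟩
    have : i = e.symm (Sum.inl a) := by rw [← ha, Equiv.symm_apply_apply]
    rw [this, hPl]
  · intro i w hw l hl
    rcases hcase i with ⟨a, rfl⟩ | ⟨t, rfl⟩
    · rw [hPl] at hw
      simp at hw
    · rw [hPr] at hw
      rcases mem_support_cubic _ _ _ w hw l hl with h | h | h
      · exact ⟨_, by rw [h, Equiv.apply_symm_apply]⟩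
      · exact ⟨_, by rw [h, Equiv.apply_symm_apply]⟩
      · exact ⟨_, by rw [h, Equiv.apply_symm_apply]⟩
  · intro i
    rcases hcase i with ⟨a, rfl⟩ | ⟨t, rfl⟩
    · rw [hcl]; positivity
    · rw [hcr]; positivity
  · intro i
    rcases hcase i with ⟨a, rfl⟩ | ⟨t, rfl⟩
    · rw [hcl, hPl]
      have h0 : polyEval X (0 : NCPoly n) = 0 := by unfold polyEval; rw [map_zero]
      rw [h0, sub_zero, hXl, letter_var hφ τ s hτ _ _ (hdis _ _) δ' hδ'.le, Complex.ofReal_re]
    · obtain ⟨a, b, d⟩ := t
      rw [hcr, hPr, polyEval_cubic, hXw, hXl, hXl, hXl]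
      have hinj : ∀ {p q : (Fin 3 × Fin r) ⊕ (Fin r × Fin r × Fin r)}, p ≠ q →
          noise (e.symm p) ≠ noise (e.symm q) := fun h h' =>
        h (e.symm.injective (hnoise h'))
      have hh : ∀ {p q : Fin 3 × Fin r}, p ≠ q → hid p ≠ hid q := fun h h' => h (hhid h')
      have h01 : ∀ a b : Fin r, ((0 : Fin 3), a) ≠ (1, b) := fun a b h => by simp at h
      have h02 : ∀ a b : Fin r, ((0 : Fin 3), a) ≠ (2, b) := fun a b h => by simp at h
      have h12 : ∀ a b : Fin r, ((1 : Fin 3), a) ≠ (2, b) := fun a b h => by simp at h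
      have key := cubic_var hφ τ s hτ
        (fun p => if p then noise (e.symm (Sum.inl (0, a))) else hid (0, a))
        (fun p => if p then noise (e.symm (Sum.inl (1, b))) else hid (1, b))
        (fun p => if p then noise (e.symm (Sum.inl (2, d))) else hid (2, d))
        (noise (e.symm (Sum.inr (a, b, d))))
        (by simpa using hdis _ _) (by simpa using hdis _ _) (by simpa using hdis _ _)
        (by
          intro p q
          cases p <;> cases q <;> simp only [if_true, Bool.false_eq_true, if_false]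
          · exact hh (h01 _ _)
          · exact hdis _ _
          · exact (hdis _ _).symm
          · exact hinj (fun h => h01 _ _ (Sum.inl.inj h)))
        (by
          intro p q
          cases p <;> cases q <;> simp only [if_true, Bool.false_eq_true, if_false]
          · exact hh (h02 _ _)
          · exact hdis _ _
          · exact (hdis _ _).symm
          · exact hinj (fun h => h02 _ _ (Sum.inl.inj h)))
        (by
          intro p q
          cases p <;> cases q <;> simp only [if_true, Bool.false_eq_true, if_false]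
          · exact hh (h12 _ _)
          · exact hdis _ _
          · exact (hdis _ _).symm
          · exact hinj (fun h => h12 _ _ (Sum.inl.inj h)))
        (by
          intro p
          cases p <;> simp only [if_true, Bool.false_eq_true, if_false]
          · exact (hdis _ _).symm
          · exact hinj (by simp))
        (by
          intro p
          cases p <;> simp only [if_true, Bool.false_eq_true, if_false]
          · exact (hdis _ _).symm
          · exact hinj (by simp))
        (by
          intro p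
          cases p <;> simp only [if_true, Bool.false_eq_true, if_false]
          · exact (hdis _ _).symm
          · exact hinj (by simp))
        δ δ' hδ.le hδ'.le
      simp only [if_true, Bool.false_eq_true, if_false] at key
      rw [key, Complex.ofReal_re]
      linarith

end Crest.Agent.R089.ChiUpper
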