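import Mathlib
import Crest.Agent.R089.Model
import Crest.Agent.R089.ChiUpper

/-!
Row 89 (S0118): second moments and the microstates upper bound for the concrete tuple `XX` of
`Model.lean` (helper69).
-/

set_option autoImplicit false

namespace Crest.Agent.R089.ChiXX
open Crest.Agent.R089 Crest.OpAlg
open Crest.Agent.R089.Model Crest.Agent.R089.CubicVar

theorem polyEval_cubic {A : Type*} [Ring A] [Algebra ℂ A] {k : ℕ} (X : Fin k → A)
    (x y z : Fin k) :
    polyEval X (Model.cubic x y z) =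
      ((Real.sqrt 2 : ℝ) : ℂ)⁻¹ • (X x * X y * X z + X z * X y * X x) := by
  unfold Model.cubic polyEval
  rw [map_smul, map_add, MonoidAlgebra.lift_single, MonoidAlgebra.lift_single]
  simp only [map_mul, FreeMonoid.lift_eval_of, one_smul, Complex.ofReal_inv]

variable {A : Type*} [Ring A] [Algebra ℂ A]

theorem XX_letter (r : ℕ) (d : ℝ) (s : Jx r → A) (a : Hid r) :
    XX r d s (ei r (Sum.inl a)) = s (Sum.inl (Sum.inl (eh r a))) +
      ((Real.sqrt d : ℝ) : ℂ) • s (Sum.inl (Sum.inr (ei r (Sum.inl a)))) := by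
  unfold XX QQ delt
  simp only [Equiv.symm_apply_apply, Qi]
  congr 1
  unfold polyEval
  rw [MonoidAlgebra.lift_single, one_smul, FreeMonoid.lift_eval_of]

theorem XX_word (r : ℕ) (d : ℝ) (s : Jx r → A) (a b c : Fin r) :
    XX r d s (ei r (Sum.inr (a, b, c))) =
      ((Real.sqrt 2 : ℝ) : ℂ)⁻¹ •
        (s (Sum.inl (Sum.inl (eh r (0, a)))) * s (Sum.inl (Sum.inl (eh r (1, b)))) *
            s (Sum.inl (Sum.inl (eh r (2, c)))) +
          s (Sum.inl (Sum.inl (eh r (2, c)))) * s (Sum.inl (Sum.inl (eh r (1, b)))) *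
            s (Sum.inl (Sum.inl (eh r (0, a))))) +
      ((Real.sqrt (1 / 2) : ℝ) : ℂ) • s (Sum.inl (Sum.inr (ei r (Sum.inr (a, b, c))))) := by
  unfold XX QQ delt
  simp only [Equiv.symm_apply_apply, Qi]
  rw [polyEval_cubic]

/-- second moment of a noisy cubic word. -/
theorem word_var {J : Type*} [DecidableEq J] {φ : List J → ℝ} (hφ : IsSD φ) (τ : A →ₗ[ℂ] ℂ)
    (s : J → A) (hτ : ∀ w : List J, τ ((w.map s).prod) = φ w) (x y z m : J)
    (hxy : x ≠ y) (hxz : x ≠ z) (hyz : y ≠ z) (hmx : m ≠ x) (hmy : m ≠ y) (hmz : m ≠ z)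
    (δ : ℝ) (hδ : 0 ≤ δ) :
    τ ((((Real.sqrt 2 : ℝ) : ℂ)⁻¹ • (s x * s y * s z + s z * s y * s x) +
        ((Real.sqrt δ : ℝ) : ℂ) • s m) *
      (((Real.sqrt 2 : ℝ) : ℂ)⁻¹ • (s x * s y * s z + s z * s y * s x) +
        ((Real.sqrt δ : ℝ) : ℂ) • s m)) = ((1 + δ : ℝ) : ℂ) := by
  set g : ℂ := ((Real.sqrt 2 : ℝ) : ℂ)⁻¹ with hg
  have hg2 : g * g = 1 / 2 := by
    rw [hg, ← mul_inv, ← Complex.ofReal_mul, Real.mul_self_sqrt (by norm_num)]
    norm_num
  set f : ℝ := Real.sqrt δ with hf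
  have hf2 : (f : ℂ) * f = (δ : ℂ) := by
    rw [← Complex.ofReal_mul, hf, Real.mul_self_sqrt hδ]
  set W : Option Bool → List J := fun o =>
    match o with
    | none => [m]
    | some false => [x, y, z]
    | some true => [z, y, x] with hW
  set C : Option Bool → ℂ := fun o =>
    match o with
    | none => (f : ℂ)
    | some _ => g with hC
  have hD : g • (s x * s y * s z + s z * s y * s x) + (f : ℂ) • s m =
      ∑ k, C k • ((W k).map s).prod := by
    rw [Fintype.sum_option]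
    simp only [hC, hW, Fintype.sum_bool, List.map_cons,
      List.map_nil, List.prod_cons, List.prod_nil, mul_one]
    simp only [smul_add, mul_assoc]
    abel
  rw [hD, trace_sq_sum τ s hτ C W]
  simp only [Fintype.sum_option, Fintype.sum_bool, hC, hW, List.cons_append, List.nil_append]
  rw [phi_two hφ, phi_four' hφ hmz hmy hmx, phi_four' hφ hmx hmy hmz,
    phi_four hφ hyz.symm hxy.symm, phi_four hφ hxy hyz,
    phi_six_zero hφ hyz.symm hxz.symm hxz.symm hyz.symm hxy.symm,
    phi_six_pal hφ hyz.symm hxz.symm hxz.symm hyz.symm hxy.symm hxy.symm,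
    phi_six_pal hφ hxy hxz hxz hxy hyz hyz,
    phi_six_zero hφ hxy hxz hxz hxy hyz]
  simp only [and_self, if_true, Complex.ofReal_zero, Complex.ofReal_one, mul_zero, mul_one,
    add_zero, zero_add, hf2, hg2]
  push_cast
  ring

theorem hid_ne {r : ℕ} {p q : Hid r} (h : p ≠ q) :
    (Sum.inl (Sum.inl (eh r p)) : Jx r) ≠ Sum.inl (Sum.inl (eh r q)) := by
  intro h'
  exact h ((eh r).injective (Sum.inl_injective (Sum.inl_injective h')))

theorem hid_ne_noise {r : ℕ} (p : Fin (kk r)) (q : Fin (nn r)) :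
    (Sum.inl (Sum.inl p) : Jx r) ≠ Sum.inl (Sum.inr q) := by
  intro h'
  have := Sum.inl_injective h'
  simp at this

/-- (T2) second moments of `X`. -/
theorem second_moment (r : ℕ) (d : ℝ) (hd : 0 ≤ d) {A : Type} [CStarAlgebra A]
    (τ : A →ₗ[ℂ] ℂ) (s : Jx r → A) (φ : List (Jx r) → ℝ) (h : IsModel τ s φ)
    (i : Fin (nn r)) :
    τ (XX r d s i * XX r d s i) = ((1 + delt r d i : ℝ) : ℂ) := by
  obtain ⟨j, rfl⟩ := (ei r).surjective i
  rcases j with a | ⟨a, b, c⟩
  · rw [XX_letter]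
    have h1 : delt r d (ei r (Sum.inl a)) = d := by
      unfold delt; simp
    rw [h1]
    exact letter_var h.sd τ s h.mom _ _ (hid_ne_noise _ _) d hd
  · rw [XX_word]
    have h1 : delt r d (ei r (Sum.inr (a, b, c))) = 1 / 2 := by
      unfold delt; simp
    rw [h1]
    exact word_var h.sd τ s h.mom _ _ _ _
      (hid_ne (fun h => by simp at h)) (hid_ne (fun h => by simp at h))
      (hid_ne (fun h => by simp at h)) (hid_ne_noise _ _).symm (hid_ne_noise _ _).symm
      (hid_ne_noise _ _).symm (1 / 2) (by norm_num)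

/-- (E) final form of the microstates upper bound. -/
theorem chi_XX_le (r : ℕ) (d : ℝ) (hd : 0 < d) {A : Type} [CStarAlgebra A]
    (τ : A →ₗ[ℂ] ℂ) (s : Jx r → A) (φ : List (Jx r) → ℝ) (h : IsModel τ s φ) :
    chi τ (XX r d s) ≤
      ((3 * r * (1 / 2 * Real.log (2 * Real.pi * Real.exp 1 * (1 + d))) +
        (r : ℝ) ^ 3 * (1 / 2 * Real.log (2 * Real.pi * Real.exp 1 *
          (1 / 2 + ((1 + d) ^ 3 - 1)))) : ℝ) : EReal) := by
  refine ChiUpper.chi_model_upper (ei r).symm h.sd τ s h.mom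
    (fun a => Sum.inl (Sum.inl (eh r a))) ?_ (fun i => Sum.inl (Sum.inr i)) ?_ ?_
    (1 / 2) d (by norm_num) hd (XX r d s) ?_ ?_
  · intro a b hab
    exact (eh r).injective (Sum.inl_injective (Sum.inl_injective hab))
  · intro a b hab
    exact Sum.inr_injective (Sum.inl_injective hab)
  · intro a i
    exact hid_ne_noise _ _
  · intro a
    rw [Equiv.symm_symm]
    exact XX_letter r d s a
  · intro a b c
    rw [Equiv.symm_symm]
    exact XX_word r d s a b c

end Crest.Agent.R089.ChiXX
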