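import Crest.Agent.R089.Chaos

/-!
# R089: the cumulants of the hidden polynomials `Y_i` and the `ℓ²` bound.
-/

set_option autoImplicit false

namespace Crest.Agent.R089

open Finset

theorem ss_map {α β R : Type*} [AddCommMonoid R] (f : α → β) (F : List β → β → List β → R)
    (l : List α) :
    ss F (l.map f) = ss (fun p b q => F (p.map f) (f b) (q.map f)) l := by
  induction l generalizing F with
  | nil => rfl
  | cons a l ih =>
    rw [List.map_cons, ss_cons, ss_cons, ih]
    rfl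

section xi

variable {H I E : Type*} [DecidableEq H] [DecidableEq I] [Fintype E]

/-- restriction of the moments to hidden letters -/
def mH (m : List (H ⊕ I) → ℝ) : List H → ℝ := fun u => m (u.map Sum.inl)

theorem isSC_mH {m : List (H ⊕ I) → ℝ} (h : IsSC m) : IsSC (mH m) := by
  refine isSC_of_sd (by simp [mH, h.nil]) fun a x => ?_
  simp only [mH]
  rw [List.map_cons, h.cons, ss_map]
  simp only [Sum.inl.injEq]

variable (c : I → E → ℝ) (ν : I → ℝ) (wh : I → E → List H) (m : List (H ⊕ I) → ℝ)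

/-- The noise does not contribute to the cumulants of hidden words. -/
theorem kap_noise (x : List H) (v : List I) :
    kap m (cZ c ν) (wZ wh) (x.map Sum.inl) v = kap (mH m) c wh x v := by
  induction' hn : v.length using Nat.strong_induction_on with n ih generalizing x v
  induction' hk : x.length using Nat.strong_induction_on with k ihx generalizing x
  cases x with
  | nil => rw [List.map_nil, kap_nil, kap_nil]
  | cons a x =>
    rw [List.map_cons, kap_cons, kap_cons, ss_map]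
    congr 1
    · refine ss_congr _ fun p b q hx => ?_
      simp only [Sum.inl.injEq]
      split_ifs
      · rw [ihx q.length (by rw [← hk, ← hx]; simp; omega) q rfl]
        rfl
      · rfl
    · refine ss_congr _ fun v' j v'' hv => ?_
      rw [Fintype.sum_option]
      have h0 : cZ c ν j none * ss (fun p b q => if b = Sum.inl a then
          kap m (cZ c ν) (wZ wh) (p ++ List.map Sum.inl x) v' *
            kap m (cZ c ν) (wZ wh) q v'' else 0) (wZ wh j none) = 0 := by
        simp [wZ, ss_cons]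
      rw [h0, zero_add]
      refine Finset.sum_congr rfl fun e _ => ?_
      change c j e * ss _ ((wh j e).map Sum.inl) = _
      rw [ss_map]
      congr 1
      refine ss_congr _ fun p b q _ => ?_
      simp only [Sum.inl.injEq]
      split_ifs
      · rw [← List.map_append, ih v'.length (by rw [← hn, ← hv]; simp) (p ++ x) v' rfl,
          ih v''.length (by rw [← hn, ← hv]; simp; omega) q v'' rfl]
      · rfl

/-- Moments of words in the `Y_i`. -/
noncomputable def mY : List I → ℝ := tau2 (mH m) c wh []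

/-- The cumulants of the `Y_i`. -/
noncomputable def kapY (i : I) (v : List I) : ℝ := ∑ e, c i e * kap (mH m) c wh (wh i e) v

theorem kapY_nonneg (h : IsSC m) (hc : ∀ j e, 0 ≤ c j e) (i : I) (v : List I) :
    0 ≤ kapY c wh m i v :=
  Finset.sum_nonneg fun e _ => mul_nonneg (hc _ _) (kap_nonneg _ _ _ (isSC_mH h) hc _ _)

theorem kapY_le (h : IsSC m) (hc : ∀ j e, 0 ≤ c j e) (i : I) (v : List I) :
    kapY c wh m i v ≤ mY c wh m (i :: v) := by
  rw [mY, tau2_cons]
  refine Finset.sum_le_sum fun e _ => ?_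
  rw [List.nil_append]
  exact mul_le_mul_of_nonneg_left (kap_le_tau2 _ _ _ (isSC_mH h) hc _ _) (hc _ _)

/-- The moment-cumulant formula for `Y_i` against words in the `Z_j = Y_j + ν_j s_j`. -/
theorem hasSum_kapY (h : IsSC m) (i : I) (U : List I) :
    HasSum (fun v => kapY c wh m i v * DD (tau2 m (cZ c ν) (wZ wh) []) v U)
      (∑ e, c i e * tau2 m (cZ c ν) (wZ wh) ((wh i e).map Sum.inl) U) := by
  simp only [kapY, Finset.sum_mul]
  refine hasSum_sum fun e _ => ?_
  simp only [mul_assoc]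
  refine HasSum.mul_left _ ?_
  rw [tau2_eq_GG m _ _ h]
  have := GG_hasSum (tau2 m (cZ c ν) (wZ wh) [])
    (kap m (cZ c ν) (wZ wh) ((wh i e).map Sum.inl)) U
  simpa only [kap_noise] using this

theorem tau2_nil_eq (x : List H) : tau2 (mH m) c wh x [] = mH m x := by rw [tau2_nil]

/-- `κ(i; ∅) = τ(Y_i)`. -/
theorem kapY_nil (h : IsSC m) (i : I) : kapY c wh m i [] = mY c wh m [i] := by
  rw [mY, tau2_cons, kapY]
  refine Finset.sum_congr rfl fun e _ => ?_
  have := tau2_eq_GG (mH m) c wh (isSC_mH h) (wh i e) []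
  rw [GG_nil, tau2_nil, tau2_nil, (isSC_mH h).nil, mul_one] at this
  rw [List.nil_append, tau2_nil, this]

/-- `κ(i; j) = τ(Y_i Y_j)` for centred `Y`. -/
theorem kapY_single (h : IsSC m) (h0 : ∀ j, mY c wh m [j] = 0) (i j : I) :
    kapY c wh m i [j] = mY c wh m [i, j] := by
  have e : mY c wh m [i, j] = kapY c wh m i [j] + kapY c wh m i [] * mY c wh m [j] := by
    simp only [mY, kapY]
    rw [tau2_cons, Finset.sum_mul, ← Finset.sum_add_distrib]
    refine Finset.sum_congr rfl fun e _ => ?_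
    have := tau2_eq_GG (mH m) c wh (isSC_mH h) (wh i e) [j]
    rw [GG_cons, GG_nil, GG_nil, tau2_nil, (isSC_mH h).nil] at this
    rw [List.nil_append, this, List.nil_append]
    ring
  rw [e, h0 j, mul_zero, add_zero]

variable [Fintype I]

/-- Every finite set of lists is dominated by the lists of bounded length. -/
theorem sum_list_le (f : List I → ℝ) (hf : ∀ u, 0 ≤ f u) (s : Finset (List I)) :
    ∃ M : ℕ, ∑ u ∈ s, f u ≤ ∑ k ∈ range M, ∑ u : Fin k → I, f (List.ofFn u) := by
  classical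
  refine ⟨s.sup List.length + 1, ?_⟩
  rw [Finset.sum_sigma']
  rw [← Finset.sum_image (f := f)
    (g := fun p : (Σ k : ℕ, (Fin k → I)) => List.ofFn p.2)
    (s := (range (s.sup List.length + 1)).sigma fun k => (univ : Finset (Fin k → I)))]
  · refine Finset.sum_le_sum_of_subset_of_nonneg (fun u hu => ?_) fun u _ _ => hf u
    rw [Finset.mem_image]
    refine ⟨⟨u.length, u.get⟩, ?_, by simp⟩
    simp only [Finset.mem_sigma, Finset.mem_range, Finset.mem_univ, and_true]
    exact Nat.lt_succ_of_le (Finset.le_sup hu)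
  · rintro ⟨k, u⟩ _ ⟨k', u'⟩ _ huu
    have hk : k = k' := by simpa using congrArg List.length huu
    subst hk
    simpa using huu

/-- The weights. -/
noncomputable def wt (vv : I → ℝ) (u : List I) : ℝ := (u.map fun j => (vv j)⁻¹).prod

theorem wt_nonneg {vv : I → ℝ} (hv : ∀ j, 0 < vv j) (u : List I) : 0 ≤ wt vv u := by
  unfold wt
  refine List.prod_nonneg fun x hx => ?_
  obtain ⟨j, -, rfl⟩ := List.mem_map.1 hx
  exact (inv_pos.2 (hv j)).le

theorem wt_le {vv : I → ℝ} {t : ℝ} (ht : 0 < t) (hv : ∀ j, t ≤ vv j) (u : List I) :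
    wt vv u ≤ (t⁻¹) ^ u.length := by
  induction u with
  | nil => simp [wt]
  | cons j u ih =>
    have h1 : wt vv (j :: u) = (vv j)⁻¹ * wt vv u := by simp [wt]
    rw [h1, List.length_cons, pow_succ', ]
    have h2 : (vv j)⁻¹ ≤ t⁻¹ := inv_anti₀ ht (hv j)
    exact mul_le_mul h2 ih (wt_nonneg (fun j => ht.trans_le (hv j)) u) (inv_nonneg.2 ht.le)

/-- The summand of the squared norm of the chaos part. -/
noncomputable def xiT (vv : I → ℝ) (i : I) (u : List I) : ℝ := kapY c wh m i u ^ 2 * wt vv u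

theorem xiT_nonneg {vv : I → ℝ} (hv : ∀ j, 0 < vv j) (i : I) (u : List I) :
    0 ≤ xiT c wh m vv i u := mul_nonneg (sq_nonneg _) (wt_nonneg hv u)

theorem xi_level (h : IsSC m) (hc : ∀ j e, 0 ≤ c j e) {vv : I → ℝ} {t Lc C G : ℝ} (ht : 0 < t)
    (hv : ∀ j, t ≤ vv j) (hL0 : 0 ≤ Lc) (hL : ∀ u, mY c wh m u ≤ Lc ^ u.length)
    (hG : ∀ i k, ∑ u : Fin k → I, mY c wh m (i :: List.ofFn u) ≤ C * G ^ k) (i : I) (k : ℕ) :
    ∑ u : Fin k → I, xiT c wh m vv i (List.ofFn u) ≤ C * Lc * (Lc * G / t) ^ k := by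
  have h1 : ∀ u : Fin k → I, xiT c wh m vv i (List.ofFn u) ≤
      (Lc ^ (k + 1) * (t⁻¹) ^ k) * mY c wh m (i :: List.ofFn u) := by
    intro u
    have a1 := kapY_nonneg c wh m h hc i (List.ofFn u)
    have a2 := kapY_le c wh m h hc i (List.ofFn u)
    have a3 := hL (i :: List.ofFn u)
    have a4 := wt_le ht hv (List.ofFn u)
    have a5 := wt_nonneg (fun j => ht.trans_le (hv j)) (List.ofFn u) (vv := vv)
    simp only [List.length_cons, List.length_ofFn] at a3 a4
    have a6 : 0 ≤ mY c wh m (i :: List.ofFn u) := a1.trans a2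
    have a7 : kapY c wh m i (List.ofFn u) ^ 2 ≤ Lc ^ (k + 1) * mY c wh m (i :: List.ofFn u) := by
      rw [sq]
      exact mul_le_mul (a2.trans a3) a2 a1 (pow_nonneg hL0 _)
    calc xiT c wh m vv i (List.ofFn u)
        = kapY c wh m i (List.ofFn u) ^ 2 * wt vv (List.ofFn u) := rfl
      _ ≤ (Lc ^ (k + 1) * mY c wh m (i :: List.ofFn u)) * (t⁻¹) ^ k :=
          mul_le_mul a7 a4 a5 (mul_nonneg (pow_nonneg hL0 _) a6)
      _ = _ := by ring
  calc ∑ u : Fin k → I, xiT c wh m vv i (List.ofFn u)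
      ≤ ∑ u : Fin k → I, (Lc ^ (k + 1) * (t⁻¹) ^ k) * mY c wh m (i :: List.ofFn u) :=
        Finset.sum_le_sum fun u _ => h1 u
    _ = (Lc ^ (k + 1) * (t⁻¹) ^ k) * ∑ u : Fin k → I, mY c wh m (i :: List.ofFn u) := by
        rw [Finset.mul_sum]
    _ ≤ (Lc ^ (k + 1) * (t⁻¹) ^ k) * (C * G ^ k) :=
        mul_le_mul_of_nonneg_left (hG i k)
          (mul_nonneg (pow_nonneg hL0 _) (pow_nonneg (inv_nonneg.2 ht.le) _))
    _ = C * Lc * (Lc * G / t) ^ k := by
        rw [div_eq_mul_inv, mul_pow, mul_pow, pow_succ]; ring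

/-- the `ℓ²` bound -/
theorem xi_sum_le (h : IsSC m) (hc : ∀ j e, 0 ≤ c j e) (h0 : ∀ j, mY c wh m [j] = 0)
    {vv : I → ℝ} {t Lc C G : ℝ} (ht : 0 < t)
    (hv : ∀ j, t ≤ vv j) (hL0 : 0 ≤ Lc) (hC : 0 ≤ C) (hG0 : 0 ≤ G)
    (hL : ∀ u, mY c wh m u ≤ Lc ^ u.length)
    (hG : ∀ i k, ∑ u : Fin k → I, mY c wh m (i :: List.ofFn u) ≤ C * G ^ k)
    (hb : Lc * G * (C * Lc + 1) ≤ t) (i : I) (s : Finset (List I)) :
    ∑ u ∈ s, xiT c wh m vv i u ≤ 1 := by
  obtain ⟨M, hM⟩ := sum_list_le (xiT c wh m vv i)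
    (xiT_nonneg c wh m (fun j => ht.trans_le (hv j)) i) s
  refine hM.trans ?_
  set ρ := Lc * G / t with hρ
  have hρ0 : 0 ≤ ρ := by positivity
  have hCL : 0 ≤ C * Lc := by positivity
  have hρ1 : ρ * (C * Lc + 1) ≤ 1 := by
    rw [hρ, div_mul_eq_mul_div, div_le_one ht]; exact hb
  have key : ∀ M, ∑ k ∈ range M, ∑ u : Fin k → I, xiT c wh m vv i (List.ofFn u) ≤ 1 := by
    intro M
    have h2 : ∀ M, ∑ k ∈ range (M + 1), ∑ u : Fin k → I, xiT c wh m vv i (List.ofFn u) ≤
        1 - ρ ^ M := by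
      intro M
      induction M with
      | zero =>
        rw [Finset.sum_range_one]
        have h5 : xiT c wh m vv i [] = 0 := by
          rw [xiT, kapY_nil c wh m h, h0]
          simp
        simp [h5]
      | succ M ih =>
        rw [Finset.sum_range_succ]
        have h3 := xi_level c wh m h hc ht hv hL0 hL hG i (M + 1)
        rw [← hρ] at h3
        have h4 : C * Lc * ρ ^ (M + 1) ≤ ρ ^ M - ρ ^ (M + 1) := by
          have : ρ ^ M * (ρ * (C * Lc + 1)) ≤ ρ ^ M * 1 :=
            mul_le_mul_of_nonneg_left hρ1 (pow_nonneg hρ0 _)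
          rw [pow_succ]
          nlinarith
        linarith
    cases M with
    | zero => simp
    | succ M =>
      refine (h2 M).trans ?_
      have := pow_nonneg hρ0 M
      linarith
  exact key M

theorem xi_summable (h : IsSC m) (hc : ∀ j e, 0 ≤ c j e) (h0 : ∀ j, mY c wh m [j] = 0)
    {vv : I → ℝ} {t Lc C G : ℝ} (ht : 0 < t)
    (hv : ∀ j, t ≤ vv j) (hL0 : 0 ≤ Lc) (hC : 0 ≤ C) (hG0 : 0 ≤ G)
    (hL : ∀ u, mY c wh m u ≤ Lc ^ u.length)
    (hG : ∀ i k, ∑ u : Fin k → I, mY c wh m (i :: List.ofFn u) ≤ C * G ^ k)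
    (hb : Lc * G * (C * Lc + 1) ≤ t) (i : I) :
    Summable (xiT c wh m vv i) ∧ ∑' u, xiT c wh m vv i u ≤ 1 := by
  have h1 := xi_sum_le c wh m h hc h0 ht hv hL0 hC hG0 hL hG hb i
  have h2 := xiT_nonneg c wh m (fun j => ht.trans_le (hv j)) i (vv := vv)
  exact ⟨summable_of_sum_le h2 h1, Real.tsum_le_of_sum_le h2 h1⟩

end xi

end Crest.Agent.R089
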