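import Crest.Agent.R089.CubicH
import Crest.Agent.R089.XiBound

set_option autoImplicit false
set_option linter.unusedSectionVars false

/-!
R089 (S0118): bridge between the function-level model and helper251's block moments `tau2`
(helper459).
-/

namespace Crest.Agent.R089.Fn

open Crest.Agent.R089

section gen
variable {J : Type*} [DecidableEq J] {I E : Type*} [Fintype E]

theorem isSD_of_isSC {m : List J → ℝ} (h : IsSC m) : IsSD m where
  nil := h.nil
  cons a x := by
    rw [h.cons, ss_eq_sum_range a (fun p q => m p * m q) x]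

theorem isSC_phiFn : IsSC (phiFn : List J → ℝ) :=
  isSC_of_sd_range (isSD_phiFn (J := J)).nil (isSD_phiFn (J := J)).cons

theorem isSC_eq_phiFn {m : List J → ℝ} (h : IsSC m) : m = phiFn := isSD_eq_phiFn (isSD_of_isSC h)

/-- block operators. -/
noncomputable def blk (c : I → E → ℝ) (w : I → E → List J) (i : I) :
    Module.End ℝ (List J → ℝ) := ∑ e, c i e • sWord (w i e)

theorem tau2_phiFn (c : I → E → ℝ) (w : I → E → List J) (x : List J) (U : List I) :
    tau2 phiFn c w x U = (sWord x * (U.map (blk c w)).prod) del [] := by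
  induction U generalizing x with
  | nil => rw [tau2_nil]; simp [phiFn]
  | cons j U ih =>
    rw [tau2_cons, List.map_cons, List.prod_cons]
    have e1 : sWord x * (blk c w j * (U.map (blk c w)).prod) =
        ∑ e, c j e • (sWord (x ++ w j e) * (U.map (blk c w)).prod) := by
      unfold blk
      rw [Finset.sum_mul, Finset.mul_sum]
      refine Finset.sum_congr rfl fun e _ => ?_
      rw [smul_mul_assoc, mul_smul_comm, sWord_append, mul_assoc]
    rw [e1, LinearMap.sum_apply, Finset.sum_apply]
    refine Finset.sum_congr rfl fun e _ => ?_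
    rw [ih]
    rfl

theorem tau2_reindex {I' : Type*} (m : List J → ℝ) (c : I → E → ℝ) (w : I → E → List J)
    (e : I' → I) (x : List J) (U : List I') :
    tau2 m (fun i => c (e i)) (fun i => w (e i)) x U = tau2 m c w x (U.map e) := by
  induction U generalizing x with
  | nil => rw [List.map_nil, tau2_nil, tau2_nil]
  | cons j U ih =>
    rw [tau2_cons, List.map_cons, tau2_cons]
    exact Finset.sum_congr rfl fun ee _ => by rw [ih]

end gen

section cubic
variable {H : Type*} [DecidableEq H] {r : ℕ}

/-- coefficients of the blocks of the cubic model. -/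
noncomputable def cc (r : ℕ) : CI r → Bool → ℝ
  | .inl _, false => 1
  | .inl _, true => 0
  | .inr _, _ => (Real.sqrt 2)⁻¹

/-- words of the blocks of the cubic model. -/
def wc (h : Fin 3 × Fin r → H) : CI r → Bool → List H
  | .inl a, _ => [h a]
  | .inr (a, b, c), false => [h (0, a), h (1, b), h (2, c)]
  | .inr (a, b, c), true => [h (2, c), h (1, b), h (0, a)]

theorem cc_nonneg (j : CI r) (e : Bool) : 0 ≤ cc r j e := by
  rcases j with a | ⟨a, b, c⟩ <;> cases e <;> simp only [cc] <;> positivity

theorem blk_cubic (h : Fin 3 × Fin r → H) (i : CI r) : blk (cc r) (wc h) i = Yfn h i := by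
  unfold blk
  rw [Fintype.sum_bool]
  rcases i with a | ⟨a, b, c⟩
  · simp only [cc, wc, zero_smul, one_smul, zero_add, sWord_cons, sWord_nil, mul_one]
    rfl
  · simp only [cc, wc, sWord_cons, sWord_nil, mul_one]
    rw [← smul_add, add_comm, ← mul_assoc, ← mul_assoc]
    rfl

/-- the block moments of helper251's `XiBound` are the moments `Fn.mY`. -/
theorem mY_bridge {I : Type*} [DecidableEq I] {I' : Type*} (h : Fin 3 × Fin r → H) (e : I' → CI r)
    (m : List (H ⊕ I) → ℝ) (hm : IsSC m) (U : List I') :
    tau2 (mH m) (fun i => cc r (e i)) (fun i => wc h (e i)) [] U = Fn.mY h (U.map e) := by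
  rw [tau2_reindex, isSC_eq_phiFn (isSC_mH hm), tau2_phiFn, sWord_nil, one_mul]
  unfold Fn.mY
  rw [show blk (cc r) (wc h) = Yfn h from funext (blk_cubic h)]

variable {I : Type*} [DecidableEq I] (h : Fin 3 × Fin r → H) (e : I ≃ CI r)
    (m : List (H ⊕ I) → ℝ) (hm : IsSC m)

/-- coefficients of the reindexed cubic model. -/
noncomputable def cI (e : I ≃ CI r) : I → Bool → ℝ := fun i => cc r (e i)

/-- words of the reindexed cubic model. -/
def wI (h : Fin 3 × Fin r → H) (e : I ≃ CI r) : I → Bool → List H := fun i => wc h (e i)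

theorem cI_nonneg (j : I) (b : Bool) : 0 ≤ cI e j b := cc_nonneg _ _

include hm in
theorem mY_eq (U : List I) : R089.mY (cI e) (wI h e) m U = Fn.mY h (U.map e) :=
  mY_bridge h e m hm U

include hm in
theorem hcentI (i : I) : R089.mY (cI e) (wI h e) m [i] = 0 := by
  rw [mY_eq h e m hm]; exact hcent h _

include hm in
theorem pairI (hinj : Function.Injective h) (i : I) : R089.mY (cI e) (wI h e) m [i, i] = 1 := by
  rw [mY_eq h e m hm]; exact mY_pair h hinj _

include hm in
theorem H1I (U : List I) : R089.mY (cI e) (wI h e) m U ≤ 12 ^ U.length := by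
  rw [mY_eq h e m hm]
  have := H1 h (U.map e)
  rw [List.length_map] at this
  exact (le_abs_self _).trans this

include hm in
theorem H4I [Fintype I] (hinj : Function.Injective h) (hr : 0 < r) (i : I) (k : ℕ) :
    ∑ u : Fin k → I, R089.mY (cI e) (wI h e) m (i :: List.ofFn u) ≤ GG r ^ k := by
  refine le_trans (le_of_eq ?_) (H4' h hinj hr (e i) k)
  rw [← (Equiv.arrowCongr (Equiv.refl (Fin k)) e).sum_comp]
  refine Finset.sum_congr rfl fun u _ => ?_
  rw [mY_eq h e m hm]
  congr 1
  rw [List.map_cons]
  congr 1
  rw [List.map_ofFn]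
  rfl

end cubic

end Crest.Agent.R089.Fn
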