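import Crest.Agent.R089.FnModel

set_option autoImplicit false
set_option linter.unusedSectionVars false
set_option linter.unusedSimpArgs false

/-!
R089 (S0118), module (C2b): the cubic model, hypotheses H1-H4 (helper459).
-/

namespace Crest.Agent.R089.Fn

open Crest.Agent.R089

/-- index type of the observed tuple: `3 r` letters and `r^3` cubic words. -/
abbrev CI (r : ℕ) : Type := (Fin 3 × Fin r) ⊕ (Fin r × Fin r × Fin r)

section trace
variable {J : Type*} [DecidableEq J]

/-- right annihilation + creation. -/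
def tOp (j : J) (f : List J → ℝ) (z : List J) : ℝ :=
  f (z ++ [j]) + if z.getLast? = some j then f z.dropLast else 0

theorem tOp_sOp (i j : J) (f : List J → ℝ) : tOp j (sOp i f) = sOp i (tOp j f) := by
  funext z
  unfold tOp
  cases z with
  | nil =>
    simp only [List.nil_append, List.getLast?_nil, reduceCtorEq, if_false, add_zero]
    rw [sOp_nil, sOp_cons]
    simp only [List.singleton_append, List.getLast?_singleton, Option.some.injEq]
    by_cases h : i = j
    · subst h; simp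
    · have h' : ¬ j = i := fun e => h e.symm
      simp [h, h']
  | cons a z =>
    rw [List.cons_append, sOp_cons, sOp_cons]
    cases z with
    | nil =>
      simp only [List.nil_append, List.getLast?_singleton, Option.some.injEq, List.dropLast_singleton]
      by_cases h : a = i <;> by_cases h' : a = j <;> simp [h, h', List.getLast?_cons_cons] <;>
        abel
    | cons b z =>
      simp only [List.getLast?_cons_cons]
      have e1 : (a :: b :: z).dropLast = a :: (b :: z).dropLast := rfl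
      have e2 : (i :: a :: b :: z).dropLast = i :: a :: (b :: z).dropLast := rfl
      rw [e1, e2, sOp_cons]
      by_cases h : a = i <;> by_cases h' : (b :: z).getLast? = some j <;>
        simp [h, h'] <;> ring

theorem tOp_del (j : J) : tOp j del = sOp j del := by
  funext z
  unfold tOp
  cases z with
  | nil => simp
  | cons a z =>
    rw [sOp_cons]
    cases z with
    | nil => simp
    | cons b z =>
      have e1 : (a :: b :: z).dropLast = a :: (b :: z).dropLast := rfl
      rw [e1]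
      simp

theorem sWord_tOp (w : List J) (j : J) (f : List J → ℝ) :
    tOp j (sWord w f) = sWord w (tOp j f) := by
  induction w with
  | nil => rfl
  | cons i w ih =>
    rw [sWord_cons]
    show tOp j (sOp i (sWord w f)) = sOp i (sWord w (tOp j f))
    rw [tOp_sOp, ih]

theorem phiFn_rotate (w : List J) (j : J) : phiFn (w ++ [j]) = phiFn (j :: w) := by
  unfold phiFn
  rw [sWord_append, sWord_cons, sWord_cons]
  show sWord w (sOp j del) [] = sOp j (sWord w del) []
  rw [← tOp_del, ← sWord_tOp, sOp_nil]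
  unfold tOp
  simp

theorem phiFn_trace (u w : List J) : phiFn (u ++ w) = phiFn (w ++ u) := by
  induction u generalizing w with
  | nil => simp
  | cons a u ih =>
    rw [List.cons_append, ← phiFn_rotate, List.append_assoc, ih, List.append_assoc,
      List.singleton_append]

theorem phiFn_reverse (w : List J) : phiFn w.reverse = phiFn w := by
  have := (SymPair.listProd (sOp : J → _) symPair_sOp w).vac
  exact this.symm

theorem phiFn_nonneg (w : List J) : 0 ≤ phiFn w :=
  (PosOp.listProd (w.map sOp) (by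
    intro T hT
    obtain ⟨j, _, rfl⟩ := List.mem_map.mp hT
    exact posOp_sOp j)) del del_nonneg []

end trace

section bd
variable {J : Type*} [DecidableEq J]

/-- `T` is positive and `T g ≤ c g`. -/
def Bd (g : List J → ℝ) (T : Module.End ℝ (List J → ℝ)) (c : ℝ) : Prop :=
  PosOp T ∧ T g ≤ c • g

theorem Bd.mul {g : List J → ℝ} {S T : Module.End ℝ (List J → ℝ)} {a b : ℝ} (hS : Bd g S a)
    (hT : Bd g T b) (hb : 0 ≤ b) : Bd g (S * T) (a * b) := by
  refine ⟨hS.1.mul hT.1, ?_⟩
  have h1 := hS.1.mono hT.2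
  have h2 : b • (S g) ≤ b • (a • g) := smul_le_smul_of_nonneg_left hS.2 hb
  calc (S * T) g = S (T g) := rfl
    _ ≤ S (b • g) := h1
    _ = b • S g := map_smul _ _ _
    _ ≤ b • (a • g) := h2
    _ = (a * b) • g := by rw [smul_smul, mul_comm]

theorem Bd.add {g : List J → ℝ} {S T : Module.End ℝ (List J → ℝ)} {a b : ℝ} (hS : Bd g S a)
    (hT : Bd g T b) : Bd g (S + T) (a + b) := by
  refine ⟨hS.1.add hT.1, ?_⟩
  rw [add_smul]
  exact add_le_add hS.2 hT.2

theorem Bd.smul {g : List J → ℝ} {T : Module.End ℝ (List J → ℝ)} {a c : ℝ} (hc : 0 ≤ c)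
    (hT : Bd g T a) : Bd g (c • T) (c * a) := by
  refine ⟨hT.1.smul hc, ?_⟩
  rw [← smul_smul]
  exact smul_le_smul_of_nonneg_left hT.2 hc

theorem Bd.one (g : List J → ℝ) : Bd g 1 1 := ⟨PosOp.one, by rw [one_smul]; exact le_refl g⟩

theorem Bd.zero (g : List J → ℝ) : Bd g 0 0 := ⟨PosOp.zero, by rw [zero_smul]; exact le_refl _⟩

theorem Bd.sum {g : List J → ℝ} {ι : Type*} (s : Finset ι) (T : ι → Module.End ℝ (List J → ℝ))
    (c : ι → ℝ) (h : ∀ i ∈ s, Bd g (T i) (c i)) : Bd g (∑ i ∈ s, T i) (∑ i ∈ s, c i) := by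
  classical
  induction s using Finset.induction_on with
  | empty => simpa using Bd.zero g
  | insert a s ha ih =>
    rw [Finset.sum_insert ha, Finset.sum_insert ha]
    exact (h a (Finset.mem_insert_self _ _)).add (ih fun i hi => h i (Finset.mem_insert_of_mem hi))

theorem Bd.pow {g : List J → ℝ} {T : Module.End ℝ (List J → ℝ)} {c : ℝ} (hc : 0 ≤ c)
    (hT : Bd g T c) (k : ℕ) : Bd g (T ^ k) (c ^ k) := by
  induction k with
  | zero => simpa using Bd.one g
  | succ k ih => rw [pow_succ, pow_succ]; exact ih.mul hT hc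

theorem Bd.weaken {g : List J → ℝ} (hg : 0 ≤ g) {T : Module.End ℝ (List J → ℝ)} {c c' : ℝ}
    (hT : Bd g T c) (h : c ≤ c') : Bd g T c' :=
  ⟨hT.1, hT.2.trans (smul_le_smul_of_nonneg_right h hg)⟩

theorem Bd.listProd {g : List J → ℝ} {I : Type*} (Y : I → Module.End ℝ (List J → ℝ)) {c : ℝ}
    (hc : 0 ≤ c) (hY : ∀ i, Bd g (Y i) c) (w : List I) : Bd g (w.map Y).prod (c ^ w.length) := by
  induction w with
  | nil => simpa using Bd.one g
  | cons i w ih =>
    rw [List.map_cons, List.prod_cons, List.length_cons, pow_succ']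
    exact (hY i).mul ih (pow_nonneg hc _)

theorem bd_one_sOp (j : J) : Bd (1 : List J → ℝ) (sOp j) 2 := by
  refine ⟨posOp_sOp j, fun z => ?_⟩
  cases z with
  | nil => rw [sOp_nil]; simp
  | cons a z =>
    rw [sOp_cons]
    simp only [Pi.one_apply, Pi.smul_apply, smul_eq_mul, mul_one]
    split_ifs <;> norm_num

/-- the weight function `q^{|z|}`. -/
def wt (q : ℝ) : List J → ℝ := fun z => q ^ z.length

theorem bd_group {K : Type*} [Fintype K] (e : K → J) (he : Function.Injective e) (q c : ℝ)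
    (hq : 0 < q) (hK : (Fintype.card K : ℝ) * q + q⁻¹ ≤ c) :
    Bd (wt q) (∑ a, sOp (e a)) c := by
  classical
  refine ⟨PosOp.sum _ _ fun a _ => posOp_sOp _, fun z => ?_⟩
  have e1 : (∑ a, sOp (e a)) (wt q) z = ∑ a, (sOp (e a) (wt q) z) := by
    rw [LinearMap.sum_apply, Finset.sum_apply]
  rw [e1]
  have hz : 0 < q ^ z.length := pow_pos hq _
  cases z with
  | nil =>
    simp only [sOp_nil, wt, List.length_singleton, pow_one, Finset.sum_const, Finset.card_univ,
      nsmul_eq_mul, Pi.smul_apply, List.length_nil, pow_zero, smul_eq_mul, mul_one]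
    have : 0 < q⁻¹ := inv_pos.mpr hq
    linarith
  | cons b z =>
    simp only [sOp_cons, Finset.sum_add_distrib]
    have h1 : ∑ a : K, wt q (e a :: b :: z) = (Fintype.card K : ℝ) * q * q ^ (b :: z).length := by
      simp only [wt, List.length_cons, Finset.sum_const, Finset.card_univ, nsmul_eq_mul]
      ring
    have h2 : ∑ a : K, (if b = e a then wt q z else 0) ≤ q⁻¹ * q ^ (b :: z).length := by
      have h3 : q⁻¹ * q ^ (b :: z).length = wt q z := by
        simp only [wt, List.length_cons, pow_succ]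
        field_simp
      rw [h3]
      by_cases hb : ∃ a, b = e a
      · obtain ⟨a, rfl⟩ := hb
        have : ∀ a' : K, (if e a = e a' then wt q z else 0) = if a = a' then wt q z else 0 := by
          intro a'
          simp only [he.eq_iff]
        rw [Finset.sum_congr rfl fun a' _ => this a', Finset.sum_ite_eq]
        simp
      · push Not at hb
        rw [Finset.sum_eq_zero]
        · exact (pow_pos hq _).le
        · intro a _
          rw [if_neg (hb a)]
    rw [h1]
    calc (Fintype.card K : ℝ) * q * q ^ (b :: z).length +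
          ∑ a : K, (if b = e a then wt q z else 0)
        ≤ (Fintype.card K : ℝ) * q * q ^ (b :: z).length + q⁻¹ * q ^ (b :: z).length := by
          linarith
      _ = ((Fintype.card K : ℝ) * q + q⁻¹) * q ^ (b :: z).length := by ring
      _ ≤ c * q ^ (b :: z).length := mul_le_mul_of_nonneg_right hK hz.le

end bd

section cubic
variable {J : Type*} [DecidableEq J] {r : ℕ}

/-- the observed tuple of the cubic model, as operators on functions. -/
noncomputable def Yfn (h : Fin 3 × Fin r → J) : CI r → Module.End ℝ (List J → ℝ)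
  | .inl a => sOp (h a)
  | .inr (a, b, c) => (Real.sqrt 2)⁻¹ •
      (sOp (h (0, a)) * sOp (h (1, b)) * sOp (h (2, c)) +
        sOp (h (2, c)) * sOp (h (1, b)) * sOp (h (0, a)))

/-- moments of the observed tuple. -/
noncomputable def mY (h : Fin 3 × Fin r → J) (w : List (CI r)) : ℝ := (w.map (Yfn h)).prod del []

variable (h : Fin 3 × Fin r → J)

theorem sqrt2_inv_pos : 0 < (Real.sqrt 2)⁻¹ := by positivity

theorem domOp_Yfn (i : CI r) : DomOp (Yfn h i) := by
  rcases i with a | ⟨a, b, c⟩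
  · exact domOp_sOp _
  · exact (((domOp_sOp _).mul (domOp_sOp _)).mul (domOp_sOp _) |>.add
      (((domOp_sOp _).mul (domOp_sOp _)).mul (domOp_sOp _))).smul sqrt2_inv_pos.le

theorem symPair_Yfn (i : CI r) : SymPair (Yfn h i) (Yfn h i) := by
  rcases i with a | ⟨a, b, c⟩
  · exact symPair_sOp _
  · have h1 := ((symPair_sOp (h (0, a))).mul (symPair_sOp (h (1, b)))).mul (symPair_sOp (h (2, c)))
    have h2 := ((symPair_sOp (h (2, c))).mul (symPair_sOp (h (1, b)))).mul (symPair_sOp (h (0, a)))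
    have h3 := (h1.add h2).smul (Real.sqrt 2)⁻¹
    have e : (Real.sqrt 2)⁻¹ • (sOp (h (2, c)) * (sOp (h (1, b)) * sOp (h (0, a))) +
        sOp (h (0, a)) * (sOp (h (1, b)) * sOp (h (2, c)))) = Yfn h (.inr (a, b, c)) := by
      show _ = (Real.sqrt 2)⁻¹ • _
      rw [add_comm, mul_assoc, mul_assoc]
    rw [e] at h3
    exact h3

theorem mY_reverse (w : List (CI r)) : mY h w.reverse = mY h w :=
  ((SymPair.listProd (Yfn h) (symPair_Yfn h) w).vac).symm

theorem posOp_YW (w : List (CI r)) : PosOp (w.map (Yfn h)).prod :=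
  PosOp.listProd _ (by
    intro T hT
    obtain ⟨j, _, rfl⟩ := List.mem_map.mp hT
    exact (domOp_Yfn h j).1)

theorem domOp_YW (w : List (CI r)) : DomOp (w.map (Yfn h)).prod :=
  DomOp.listProd _ (by
    intro T hT
    obtain ⟨j, _, rfl⟩ := List.mem_map.mp hT
    exact domOp_Yfn h j)

theorem mY_nonneg (w : List (CI r)) : 0 ≤ mY h w := posOp_YW h w del del_nonneg []

/-- H3 (quantitative): insertion inequality. -/
theorem mY_insert (A V B : List (CI r)) : mY h V * mY h (A ++ B) ≤ mY h (A ++ V ++ B) := by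
  unfold mY
  rw [List.map_append, List.map_append, List.map_append, List.prod_append, List.prod_append,
    List.prod_append]
  have hB : 0 ≤ (B.map (Yfn h)).prod del := posOp_YW h B del del_nonneg
  have h1 := (domOp_YW h V).insertion _ hB
  have h2 := (posOp_YW h A).mono h1
  rw [map_smul] at h2
  exact h2 []

theorem H3 (A V B : List (CI r)) (hV : mY h V ≠ 0) (hAB : mY h (A ++ B) ≠ 0) :
    mY h (A ++ V ++ B) ≠ 0 := by
  have h1 := mY_insert h A V B
  have h2 : 0 < mY h V := lt_of_le_of_ne (mY_nonneg h V) hV.symm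
  have h3 : 0 < mY h (A ++ B) := lt_of_le_of_ne (mY_nonneg h _) hAB.symm
  exact (lt_of_lt_of_le (mul_pos h2 h3) h1).ne'

theorem bd_one_Yfn (i : CI r) : Bd (1 : List J → ℝ) (Yfn h i) 12 := by
  have h1 : (0 : List J → ℝ) ≤ 1 := fun z => by simp
  rcases i with a | ⟨a, b, c⟩
  · exact (bd_one_sOp _).weaken h1 (by norm_num)
  · have h2 := (((bd_one_sOp (h (0, a))).mul (bd_one_sOp (h (1, b))) (by norm_num)).mul
      (bd_one_sOp (h (2, c))) (by norm_num)).add
      (((bd_one_sOp (h (2, c))).mul (bd_one_sOp (h (1, b))) (by norm_num)).mul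
      (bd_one_sOp (h (0, a))) (by norm_num))
    have h3 := h2.smul sqrt2_inv_pos.le
    refine Bd.weaken h1 h3 ?_
    have h4 : (4 : ℝ) / 3 ≤ Real.sqrt 2 := by
      rw [show (4 : ℝ) / 3 = Real.sqrt ((4 / 3) ^ 2) by rw [Real.sqrt_sq (by norm_num)]]
      exact Real.sqrt_le_sqrt (by norm_num)
    have h5 : (Real.sqrt 2)⁻¹ ≤ ((4 : ℝ) / 3)⁻¹ := inv_anti₀ (by norm_num) h4
    calc (Real.sqrt 2)⁻¹ * (2 * 2 * 2 + 2 * 2 * 2) ≤ ((4 : ℝ) / 3)⁻¹ * (2 * 2 * 2 + 2 * 2 * 2) := by
          gcongr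
      _ = 12 := by norm_num

theorem del_le_one : (del : List J → ℝ) ≤ 1 := by
  intro z; cases z <;> simp

/-- H1. -/
theorem H1 (w : List (CI r)) : |mY h w| ≤ 12 ^ w.length := by
  rw [abs_of_nonneg (mY_nonneg h w)]
  have h1 := Bd.listProd (Yfn h) (by norm_num : (0 : ℝ) ≤ 12) (bd_one_Yfn h) w
  have h2 := (h1.1.mono (del_le_one (J := J))).trans h1.2
  have h3 := h2 []
  have h4 : ((12 : ℝ) ^ w.length • (1 : List J → ℝ)) [] = 12 ^ w.length := by simp
  rw [h4] at h3
  exact h3

/-- functions with values in `ℕ · κ^p`. -/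
def IntFn (p : ℕ) (f : List J → ℝ) : Prop := ∀ z, ∃ n : ℕ, f z = n * (Real.sqrt 2)⁻¹ ^ p

theorem IntFn.sOp {p : ℕ} {f : List J → ℝ} (hf : IntFn p f) (j : J) : IntFn p (sOp j f) := by
  intro z
  cases z with
  | nil => rw [sOp_nil]; exact hf _
  | cons a z =>
    rw [sOp_cons]
    obtain ⟨n1, h1⟩ := hf (j :: a :: z)
    obtain ⟨n2, h2⟩ := hf z
    split_ifs
    · exact ⟨n1 + n2, by rw [h1, h2]; push_cast; ring⟩
    · exact ⟨n1, by rw [h1, add_zero]⟩

theorem IntFn.add {p : ℕ} {f g : List J → ℝ} (hf : IntFn p f) (hg : IntFn p g) :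
    IntFn p (f + g) := by
  intro z
  obtain ⟨n1, h1⟩ := hf z
  obtain ⟨n2, h2⟩ := hg z
  exact ⟨n1 + n2, by rw [Pi.add_apply, h1, h2]; push_cast; ring⟩

theorem IntFn.Yfn {p : ℕ} {f : List J → ℝ} (hf : IntFn p f) (i : CI r) :
    ∃ q, q ≤ p + 1 ∧ IntFn q (Yfn h i f) := by
  rcases i with a | ⟨a, b, c⟩
  · exact ⟨p, by omega, hf.sOp _⟩
  · refine ⟨p + 1, le_refl _, ?_⟩
    have h1 := (((hf.sOp (h (2, c))).sOp (h (1, b))).sOp (h (0, a))).add
      (((hf.sOp (h (0, a))).sOp (h (1, b))).sOp (h (2, c)))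
    intro z
    obtain ⟨n, hn⟩ := h1 z
    refine ⟨n, ?_⟩
    show (Real.sqrt 2)⁻¹ * _ = _
    have : (Real.sqrt 2)⁻¹ * (n * (Real.sqrt 2)⁻¹ ^ p) = n * (Real.sqrt 2)⁻¹ ^ (p + 1) := by ring
    rw [← this, ← hn]
    rfl

theorem intFn_YW (w : List (CI r)) : ∃ q, q ≤ w.length ∧ IntFn q ((w.map (Yfn h)).prod del) := by
  induction w with
  | nil =>
    refine ⟨0, le_refl _, fun z => ?_⟩
    cases z with
    | nil => exact ⟨1, by simp⟩
    | cons a z => exact ⟨0, by simp⟩
  | cons i w ih =>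
    obtain ⟨q, hq, hf⟩ := ih
    obtain ⟨q', hq', hf'⟩ := hf.Yfn h i
    refine ⟨q', ?_, ?_⟩
    · rw [List.length_cons]; omega
    · rw [List.map_cons, List.prod_cons]; exact hf'

/-- H2. -/
theorem H2 (w : List (CI r)) : mY h w = 0 ∨ (Real.sqrt 2)⁻¹ ^ w.length ≤ mY h w := by
  obtain ⟨q, hq, hf⟩ := intFn_YW h w
  obtain ⟨n, hn⟩ := hf []
  have hk1 : (Real.sqrt 2)⁻¹ ≤ 1 := by
    apply inv_le_one_of_one_le₀
    rw [← Real.sqrt_one]
    exact Real.sqrt_le_sqrt (by norm_num)
  rcases Nat.eq_zero_or_pos n with h0 | h0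
  · left
    show (w.map (Yfn h)).prod del [] = 0
    rw [hn, h0]; simp
  · right
    show _ ≤ (w.map (Yfn h)).prod del []
    rw [hn]
    have h1 : (1 : ℝ) ≤ n := by exact_mod_cast h0
    have h2 : (Real.sqrt 2)⁻¹ ^ w.length ≤ (Real.sqrt 2)⁻¹ ^ q :=
      pow_le_pow_of_le_one sqrt2_inv_pos.le hk1 hq
    have h3 : 0 < (Real.sqrt 2)⁻¹ ^ q := pow_pos sqrt2_inv_pos _
    nlinarith

theorem hcent (i : CI r) : mY h [i] = 0 := by
  unfold mY
  rcases i with a | ⟨a, b, c⟩
  · simp [Yfn]
  · simp [Yfn]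

end cubic

section H4
variable {J : Type*} [DecidableEq J] {r : ℕ}

theorem sum_ofFn_prod {R : Type*} [Semiring R] {I : Type*} [Fintype I] (Y : I → R) (k : ℕ) :
    ∑ u : Fin k → I, ((List.ofFn u).map Y).prod = (∑ i, Y i) ^ k := by
  induction k with
  | zero => simp
  | succ k ih =>
    rw [pow_succ', ← ih, Finset.sum_mul_sum]
    rw [← (Fin.consEquiv (fun _ : Fin (k + 1) => I)).sum_comp, Fintype.sum_prod_type]
    refine Finset.sum_congr rfl fun i _ => Finset.sum_congr rfl fun u _ => ?_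
    rw [List.ofFn_succ]
    simp [Fin.consEquiv]

theorem sum_Yfn (h : Fin 3 × Fin r → J) :
    ∑ i, Yfn h i = (∑ a : Fin r, sOp (h (0, a)) + ∑ a : Fin r, sOp (h (1, a)) +
      ∑ a : Fin r, sOp (h (2, a))) + (Real.sqrt 2)⁻¹ •
      ((∑ a : Fin r, sOp (h (0, a))) * (∑ a : Fin r, sOp (h (1, a))) *
        (∑ a : Fin r, sOp (h (2, a))) +
       (∑ a : Fin r, sOp (h (2, a))) * (∑ a : Fin r, sOp (h (1, a))) *
        (∑ a : Fin r, sOp (h (0, a)))) := by
  rw [Fintype.sum_sum_type]
  congr 1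
  · rw [Fintype.sum_prod_type, Fin.sum_univ_three]
    rfl
  · rw [Fintype.sum_prod_type]
    simp only [Fintype.sum_prod_type]
    have e1 : (∑ a : Fin r, sOp (h (0, a))) * (∑ a : Fin r, sOp (h (1, a))) *
        (∑ a : Fin r, sOp (h (2, a))) = ∑ a : Fin r, ∑ b : Fin r, ∑ c : Fin r,
          sOp (h (0, a)) * sOp (h (1, b)) * sOp (h (2, c)) := by
      rw [Finset.sum_mul_sum, Finset.sum_mul]
      refine Finset.sum_congr rfl fun a _ => ?_
      rw [Finset.sum_mul_sum]
    have e2 : (∑ a : Fin r, sOp (h (2, a))) * (∑ a : Fin r, sOp (h (1, a))) *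
        (∑ a : Fin r, sOp (h (0, a))) = ∑ a : Fin r, ∑ b : Fin r, ∑ c : Fin r,
          sOp (h (2, c)) * sOp (h (1, b)) * sOp (h (0, a)) := by
      rw [Finset.mul_sum]
      refine Finset.sum_congr rfl fun a _ => ?_
      rw [Finset.sum_mul_sum, Finset.sum_comm, Finset.sum_mul]
      refine Finset.sum_congr rfl fun b _ => ?_
      rw [Finset.sum_mul]
    rw [e1, e2, ← Finset.sum_add_distrib, Finset.smul_sum]
    refine Finset.sum_congr rfl fun a _ => ?_
    rw [← Finset.sum_add_distrib, Finset.smul_sum]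
    refine Finset.sum_congr rfl fun b _ => ?_
    rw [← Finset.sum_add_distrib, Finset.smul_sum]
    rfl

/-- the growth constant `G = 26 r^{3/2}`. -/
noncomputable def GG (r : ℕ) : ℝ := 26 * Real.sqrt r ^ 3

theorem one_le_sqrt (hr : 0 < r) : 1 ≤ Real.sqrt r := by
  rw [show (1 : ℝ) = Real.sqrt 1 by simp]
  exact Real.sqrt_le_sqrt (by exact_mod_cast hr)

theorem GG_pos (hr : 0 < r) : 0 < GG r := by
  have := one_le_sqrt hr
  unfold GG; positivity

theorem four_thirds_le : (4 : ℝ) / 3 ≤ Real.sqrt 2 := by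
  rw [show (4 : ℝ) / 3 = Real.sqrt ((4 / 3) ^ 2) by rw [Real.sqrt_sq (by norm_num)]]
  exact Real.sqrt_le_sqrt (by norm_num)

theorem bd_sum_Yfn (h : Fin 3 × Fin r → J) (hinj : Function.Injective h) (hr : 0 < r) :
    Bd (wt (Real.sqrt r)⁻¹) (∑ i, Yfn h i) (18 * Real.sqrt r ^ 3) := by
  have hs : 1 ≤ Real.sqrt r := one_le_sqrt hr
  have hs0 : 0 < Real.sqrt r := by linarith
  have hss : Real.sqrt r * Real.sqrt r = r := Real.mul_self_sqrt (Nat.cast_nonneg r)
  have hw : (0 : List J → ℝ) ≤ wt (Real.sqrt r)⁻¹ := fun z => by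
    show (0 : ℝ) ≤ (Real.sqrt r)⁻¹ ^ z.length
    positivity
  have hg : ∀ g : Fin 3, Bd (wt (Real.sqrt r)⁻¹) (∑ a : Fin r, sOp (h (g, a)))
      (2 * Real.sqrt r) := by
    intro g
    refine bd_group (fun a : Fin r => h (g, a)) ?_ _ _ (by positivity) ?_
    · intro a b hab
      have := hinj hab
      exact (Prod.mk.inj this).2
    · rw [Fintype.card_fin, inv_inv]
      have : (r : ℝ) * (Real.sqrt r)⁻¹ = Real.sqrt r := by
        nth_rw 1 [← hss]; field_simp
      rw [this]; linarith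
  have h0 : 0 ≤ 2 * Real.sqrt r := by positivity
  have hlin := ((hg 0).add (hg 1)).add (hg 2)
  have hcub := ((((hg 0).mul (hg 1) h0).mul (hg 2) h0).add
    (((hg 2).mul (hg 1) h0).mul (hg 0) h0)).smul sqrt2_inv_pos.le
  have hall := hlin.add hcub
  rw [← sum_Yfn] at hall
  refine hall.weaken hw ?_
  have h5 : (Real.sqrt 2)⁻¹ ≤ ((4 : ℝ) / 3)⁻¹ := inv_anti₀ (by norm_num) four_thirds_le
  have h6 : Real.sqrt r ≤ Real.sqrt r ^ 3 := by
    calc Real.sqrt r = Real.sqrt r ^ 1 := by ring
      _ ≤ Real.sqrt r ^ 3 := pow_le_pow_right₀ hs (by norm_num)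
  have h7 : (Real.sqrt 2)⁻¹ * (2 * Real.sqrt r * (2 * Real.sqrt r) * (2 * Real.sqrt r) +
      2 * Real.sqrt r * (2 * Real.sqrt r) * (2 * Real.sqrt r)) ≤ 12 * Real.sqrt r ^ 3 := by
    calc _ ≤ ((4 : ℝ) / 3)⁻¹ * (2 * Real.sqrt r * (2 * Real.sqrt r) * (2 * Real.sqrt r) +
      2 * Real.sqrt r * (2 * Real.sqrt r) * (2 * Real.sqrt r)) := by gcongr
      _ = _ := by ring
  linarith

theorem del_le_wt (q : ℝ) (hq : 0 ≤ q) : (del : List J → ℝ) ≤ wt q := by
  intro z
  cases z with
  | nil => simp [wt]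
  | cons a z => rw [del_cons]; exact pow_nonneg hq _

theorem triple_vac {a b c : J} (hab : a ≠ b) (hbc : b ≠ c) (F : List J → ℝ) :
    (sOp a * sOp b * sOp c) F [] = F [c, b, a] := by
  show sOp a (sOp b (sOp c F)) [] = _
  rw [sOp_nil, sOp_cons, if_neg hab, add_zero, sOp_cons, if_neg hbc, add_zero]

theorem Yfn_vac_le (h : Fin 3 × Fin r → J) (hinj : Function.Injective h) (i : CI r)
    (F : List J → ℝ) (C q : ℝ) (hC : 0 ≤ C) (hq0 : 0 ≤ q) (hq1 : q ≤ 1)
    (hF : F ≤ C • wt q) : Yfn h i F [] ≤ Real.sqrt 2 * C := by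
  have h2 : 1 ≤ Real.sqrt 2 := by have := four_thirds_le; linarith
  have hle : ∀ z : List J, F z ≤ C := by
    intro z
    have h1 := hF z
    have h3 : (C • wt q) z = C * q ^ z.length := rfl
    rw [h3] at h1
    have h4 : q ^ z.length ≤ 1 := pow_le_one₀ hq0 hq1
    nlinarith
  rcases i with a | ⟨a, b, c⟩
  · show sOp (h a) F [] ≤ _
    rw [sOp_nil]
    have := hle [h a]
    nlinarith
  · have n01 : h (0, a) ≠ h (1, b) := fun e => by
      have := (Prod.mk.inj (hinj e)).1; exact absurd this (by decide)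
    have n12 : h (1, b) ≠ h (2, c) := fun e => by
      have := (Prod.mk.inj (hinj e)).1; exact absurd this (by decide)
    have e1 := triple_vac n01 n12 F
    have e2 := triple_vac n12.symm n01.symm F
    show (Real.sqrt 2)⁻¹ * ((sOp (h (0, a)) * sOp (h (1, b)) * sOp (h (2, c))) F [] +
        (sOp (h (2, c)) * sOp (h (1, b)) * sOp (h (0, a))) F []) ≤ _
    rw [e1, e2]
    have h5 := hle [h (2, c), h (1, b), h (0, a)]
    have h6 := hle [h (0, a), h (1, b), h (2, c)]
    calc (Real.sqrt 2)⁻¹ * (F [h (2, c), h (1, b), h (0, a)] + F [h (0, a), h (1, b), h (2, c)])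
        ≤ (Real.sqrt 2)⁻¹ * (C + C) :=
          mul_le_mul_of_nonneg_left (add_le_add h5 h6) sqrt2_inv_pos.le
      _ = Real.sqrt 2 * C := by
          field_simp
          rw [Real.sq_sqrt (by norm_num)]
          ring

/-- H4 (helper251's form). -/
theorem H4' (h : Fin 3 × Fin r → J) (hinj : Function.Injective h) (hr : 0 < r) (i : CI r)
    (k : ℕ) : ∑ u : Fin k → CI r, mY h (i :: List.ofFn u) ≤ GG r ^ k := by
  have hs : 1 ≤ Real.sqrt r := one_le_sqrt hr
  have hs0 : 0 < Real.sqrt r := by linarith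
  have e1 : ∑ u : Fin k → CI r, mY h (i :: List.ofFn u) =
      (Yfn h i) (((∑ j, Yfn h j) ^ k) del) [] := by
    rw [← sum_ofFn_prod, LinearMap.sum_apply, map_sum, Finset.sum_apply]
    refine Finset.sum_congr rfl fun u _ => ?_
    unfold mY
    rw [List.map_cons, List.prod_cons]
    rfl
  rw [e1]
  rcases Nat.eq_zero_or_pos k with hk | hk
  · subst hk
    rw [pow_zero, pow_zero]
    have := hcent h i
    unfold mY at this
    simp only [List.map_cons, List.map_nil, List.prod_cons, List.prod_nil, mul_one] at this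
    show Yfn h i del [] ≤ 1
    rw [this]; norm_num
  · have hb := (bd_sum_Yfn h hinj hr).pow (by positivity) k
    have hF := (hb.1.mono (del_le_wt (J := J) (Real.sqrt r)⁻¹ (by positivity))).trans hb.2
    have h1 := Yfn_vac_le h hinj i _ _ _ (by positivity) (by positivity)
      (inv_le_one_of_one_le₀ hs) hF
    refine h1.trans ?_
    have h2 : Real.sqrt 2 ≤ (26 / 18) ^ k := by
      have h3 : Real.sqrt 2 ≤ 26 / 18 := by
        rw [show (26 : ℝ) / 18 = Real.sqrt ((26 / 18) ^ 2) by rw [Real.sqrt_sq (by norm_num)]]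
        exact Real.sqrt_le_sqrt (by norm_num)
      calc Real.sqrt 2 ≤ (26 / 18) ^ 1 := by rw [pow_one]; exact h3
        _ ≤ (26 / 18) ^ k := pow_le_pow_right₀ (by norm_num) hk
    have h4 : GG r ^ k = (26 / 18) ^ k * (18 * Real.sqrt r ^ 3) ^ k := by
      rw [← mul_pow]; congr 1; unfold GG; ring
    rw [h4]
    exact mul_le_mul_of_nonneg_right h2 (by positivity)

theorem ofFn_reverse_sum {I : Type*} [Fintype I] (F : List I → ℝ) (k : ℕ) :
    ∑ u : Fin k → I, F (List.ofFn u).reverse = ∑ u : Fin k → I, F (List.ofFn u) := by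
  rw [← (Equiv.arrowCongr Fin.revPerm (Equiv.refl I)).sum_comp]
  refine Finset.sum_congr rfl fun u _ => ?_
  congr 1
  apply List.ext_getElem
  · simp
  · intro n h1 h2
    simp only [List.getElem_reverse, List.getElem_ofFn, List.length_ofFn]
    simp only [Equiv.arrowCongr_apply, Function.comp, Equiv.refl_apply]
    congr 1
    simp [Fin.ext_iff, Fin.revPerm]
    simp at h1 
    omega

/-- H4 (helper89's form). -/
theorem H4 (h : Fin 3 × Fin r → J) (hinj : Function.Injective h) (hr : 0 < r) (i : CI r)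
    (k : ℕ) : ∑ u : Fin k → CI r, mY h ((List.ofFn u).reverse ++ [i]) ≤ GG r ^ k := by
  refine le_trans (le_of_eq ?_) (H4' h hinj hr i k)
  refine Finset.sum_congr rfl fun u _ => ?_
  rw [← mY_reverse]
  simp

theorem mY_pair (h : Fin 3 × Fin r → J) (hinj : Function.Injective h) (i : CI r) :
    mY h [i, i] = 1 := by
  have hss : Real.sqrt 2 * Real.sqrt 2 = 2 := Real.mul_self_sqrt (by norm_num)
  unfold mY
  simp only [List.map_cons, List.map_nil, List.prod_cons, List.prod_nil, mul_one]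
  rcases i with a | ⟨a, b, c⟩
  · show sOp (h a) (sOp (h a) del) [] = 1
    simp
  · have n01 : h (0, a) ≠ h (1, b) := fun e => by
      have := (Prod.mk.inj (hinj e)).1; exact absurd this (by decide)
    have n12 : h (1, b) ≠ h (2, c) := fun e => by
      have := (Prod.mk.inj (hinj e)).1; exact absurd this (by decide)
    have n02 : h (0, a) ≠ h (2, c) := fun e => by
      have := (Prod.mk.inj (hinj e)).1; exact absurd this (by decide)
    have e1 := fun F => triple_vac n01 n12 F
    have e2 := fun F => triple_vac n12.symm n01.symm F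
    have hY : ∀ F : List J → ℝ, Yfn h (.inr (a, b, c)) F = (Real.sqrt 2)⁻¹ •
        ((sOp (h (0, a)) * sOp (h (1, b)) * sOp (h (2, c))) F +
        (sOp (h (2, c)) * sOp (h (1, b)) * sOp (h (0, a))) F) := fun F => rfl
    show Yfn h (.inr (a, b, c)) (Yfn h (.inr (a, b, c)) del) [] = 1
    rw [hY (Yfn h (.inr (a, b, c)) del)]
    show (Real.sqrt 2)⁻¹ * ((sOp (h (0, a)) * sOp (h (1, b)) * sOp (h (2, c)))
      (Yfn h (.inr (a, b, c)) del) [] + (sOp (h (2, c)) * sOp (h (1, b)) * sOp (h (0, a)))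
      (Yfn h (.inr (a, b, c)) del) []) = 1
    rw [e1, e2, hY]
    have k1 : (sOp (h (0, a)) * sOp (h (1, b)) * sOp (h (2, c))) (del : List J → ℝ)
        [h (2, c), h (1, b), h (0, a)] = 0 := by
      show sOp (h (0, a)) (sOp (h (1, b)) (sOp (h (2, c)) del)) _ = 0
      simp [n01, n12, n02, n01.symm, n12.symm, n02.symm]
    have k2 : (sOp (h (2, c)) * sOp (h (1, b)) * sOp (h (0, a))) (del : List J → ℝ)
        [h (2, c), h (1, b), h (0, a)] = 1 := by
      show sOp (h (2, c)) (sOp (h (1, b)) (sOp (h (0, a)) del)) _ = 1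
      simp [n01, n12, n02, n01.symm, n12.symm, n02.symm]
    have k3 : (sOp (h (0, a)) * sOp (h (1, b)) * sOp (h (2, c))) (del : List J → ℝ)
        [h (0, a), h (1, b), h (2, c)] = 1 := by
      show sOp (h (0, a)) (sOp (h (1, b)) (sOp (h (2, c)) del)) _ = 1
      simp [n01, n12, n02, n01.symm, n12.symm, n02.symm]
    have k4 : (sOp (h (2, c)) * sOp (h (1, b)) * sOp (h (0, a))) (del : List J → ℝ)
        [h (0, a), h (1, b), h (2, c)] = 0 := by
      show sOp (h (2, c)) (sOp (h (1, b)) (sOp (h (0, a)) del)) _ = 0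
      simp [n01, n12, n02, n01.symm, n12.symm, n02.symm]
    simp only [Pi.smul_apply, Pi.add_apply, k1, k2, k3, k4, smul_eq_mul]
    field_simp
    linarith

end H4

end Crest.Agent.R089.Fn
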