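import Crest.Agent.R089.SplitSum

/-!
# R089: cumulant expansion for polynomials in free semicirculars (purely algebraic)

`m : List L → ℝ` is the moment functional of a semicircular system indexed by `L`
(`IsSC m`, i.e. Schwinger-Dyson equations).  Blocks `Z j = ∑ e, c j e • (word w j e)`.
`tau2 m c w x U` is the moment of the word `x` followed by the product of the blocks `U`.
`kap m c w x v` is the free cumulant of the word `x` with the blocks `v` (all blocks joined).
Main theorem `tau2_eq_GG`:
`tau2 x U = ∑_{v ⊂ U (positions)} kap x v * ∏ gaps`.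
-/

set_option autoImplicit false

namespace Crest.Agent.R089

open Finset

section gaps

variable {J : Type*}

/-- `GG m1 g f U`: sum over all subsets of positions of `U` (giving the sublist `v`) of
`f v * ∏ (m1 of the gaps)`, the first gap being preceded by `g`. -/
noncomputable def GG (m1 : List J → ℝ) : List J → (List J → ℝ) → List J → ℝ
  | g, f, [] => f [] * m1 g
  | g, f, j :: U => GG m1 (g ++ [j]) f U + m1 g * GG m1 [] (fun v => f (j :: v)) U

theorem GG_nil (m1 : List J → ℝ) (g : List J) (f : List J → ℝ) :
    GG m1 g f [] = f [] * m1 g := rfl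

theorem GG_cons (m1 : List J → ℝ) (g : List J) (f : List J → ℝ) (j : J) (U : List J) :
    GG m1 g f (j :: U) =
      GG m1 (g ++ [j]) f U + m1 g * GG m1 [] (fun v => f (j :: v)) U := rfl

theorem GG_eq_ss (m1 : List J → ℝ) (g : List J) (f : List J → ℝ) (U : List J) :
    GG m1 g f U = f [] * m1 (g ++ U) +
      ss (fun U' j U'' => m1 (g ++ U') * GG m1 [] (fun v => f (j :: v)) U'') U := by
  induction U generalizing g f with
  | nil => simp [GG_nil]
  | cons j U ih =>
    rw [GG_cons, ih (g ++ [j]) f, ss_cons]
    simp only [List.append_assoc, List.singleton_append, List.append_nil]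
    ring

theorem GG_add (m1 : List J → ℝ) (g : List J) (f f' : List J → ℝ) (U : List J) :
    GG m1 g (fun v => f v + f' v) U = GG m1 g f U + GG m1 g f' U := by
  induction U generalizing g f f' with
  | nil => simp only [GG_nil]; ring
  | cons j U ih =>
    rw [GG_cons, GG_cons, GG_cons, ih (g ++ [j]), ih [] (fun v => f (j :: v))]
    ring

theorem GG_mul (m1 : List J → ℝ) (g : List J) (r : ℝ) (f : List J → ℝ) (U : List J) :
    GG m1 g (fun v => r * f v) U = r * GG m1 g f U := by
  induction U generalizing g f with
  | nil => simp only [GG_nil]; ring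
  | cons j U ih =>
    rw [GG_cons, GG_cons, ih (g ++ [j]), ih [] (fun v => f (j :: v))]
    ring

theorem GG_zero (m1 : List J → ℝ) (g : List J) (U : List J) :
    GG m1 g (fun _ => 0) U = 0 := by
  have := GG_mul m1 g 0 (fun _ => 0) U
  simpa using this

theorem GG_sum {β : Type*} (m1 : List J → ℝ) (g : List J) (s : Finset β) (f : β → List J → ℝ)
    (U : List J) :
    GG m1 g (fun v => ∑ i ∈ s, f i v) U = ∑ i ∈ s, GG m1 g (f i) U := by
  classical
  induction s using Finset.induction_on with
  | empty => simpa using GG_zero m1 g U
  | insert a s ha ih =>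
    simp only [Finset.sum_insert ha]
    rw [GG_add, ih]

theorem GG_ss {α : Type*} (m1 : List J → ℝ) (g : List J)
    (F : List α → α → List α → List J → ℝ) (x : List α) (U : List J) :
    GG m1 g (fun v => ss (fun p b q => F p b q v) x) U =
      ss (fun p b q => GG m1 g (F p b q) U) x := by
  induction x generalizing F with
  | nil => simpa using GG_zero m1 g U
  | cons a x ih =>
    rw [ss_cons, ← ih (fun p b q v => F (a :: p) b q v), ← GG_add]
    rfl

/-- Splitting a sub-position set at one of its chosen positions. -/
theorem GG_split (m1 : List J → ℝ) (h : List J → J → List J → ℝ) (U : List J) :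
    GG m1 [] (fun v => ss h v) U =
      ss (fun U' j U'' => GG m1 [] (fun v' => GG m1 [] (fun v'' => h v' j v'') U'') U') U := by
  induction' hn : U.length using Nat.strong_induction_on with n ih generalizing h U
  rw [GG_eq_ss]
  simp only [ss_nil, zero_mul, zero_add, List.nil_append]
  have e1 : ss (fun U' j U'' => m1 U' * GG m1 [] (fun v => ss h (j :: v)) U'') U =
      ss (fun U₁ i U₂ => m1 U₁ * GG m1 [] (fun v => h [] i v) U₂ +
        ss (fun A j B => m1 U₁ * GG m1 [] (fun v' => GG m1 [] (fun v'' => h (i :: v') j v'') B) A)
          U₂) U := by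
    refine ss_congr U fun U₁ i U₂ hU => ?_
    simp only [ss_cons]
    rw [GG_add, mul_add]
    congr 1
    rw [ih U₂.length (by rw [← hn, ← hU]; simp; omega) (fun v' j v'' => h (i :: v') j v'') U₂ rfl,
      ss_mul_left]
  rw [e1, ss_add,
    ss_ss (fun U₁ i A j B => m1 U₁ * GG m1 [] (fun v' => GG m1 [] (fun v'' => h (i :: v') j v'') B) A)]
  rw [← ss_add]
  refine ss_congr U fun U' j U'' _ => ?_
  rw [GG_eq_ss m1 [] (fun v' => GG m1 [] (fun v'' => h v' j v'') U'') U']
  simp only [List.nil_append]
  rw [mul_comm]

theorem GG_nonneg {m1 : List J → ℝ} (hm : ∀ u, 0 ≤ m1 u) {f : List J → ℝ} (hf : ∀ v, 0 ≤ f v)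
    (g U : List J) : 0 ≤ GG m1 g f U := by
  induction U generalizing g f with
  | nil => exact mul_nonneg (hf _) (hm _)
  | cons j U ih =>
    rw [GG_cons]
    exact add_nonneg (ih hf _) (mul_nonneg (hm _) (ih (fun v => hf _) _))

theorem le_GG {m1 : List J → ℝ} (h1 : m1 [] = 1) (hm : ∀ u, 0 ≤ m1 u) {f : List J → ℝ}
    (hf : ∀ v, 0 ≤ f v) (U : List J) : f U ≤ GG m1 [] f U := by
  induction U generalizing f with
  | nil => rw [GG_nil, h1, mul_one]
  | cons j U ih =>
    rw [GG_cons, h1, one_mul]
    have := ih (f := fun v => f (j :: v)) (fun v => hf _)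
    have h2 := GG_nonneg hm hf ([] ++ [j]) U
    linarith

/-- Iterated split pairing `D_v(U) = ∑_{v ⊂ U} ∏ m1 (gaps)`. -/
noncomputable def DD [DecidableEq J] (m1 : List J → ℝ) : List J → List J → ℝ
  | [], U => m1 U
  | j :: v, U => ss (fun U' i U'' => if i = j then m1 U' * DD m1 v U'' else 0) U

theorem DD_nil [DecidableEq J] (m1 : List J → ℝ) (U : List J) : DD m1 [] U = m1 U := rfl

theorem DD_cons [DecidableEq J] (m1 : List J → ℝ) (j : J) (v U : List J) :
    DD m1 (j :: v) U = ss (fun U' i U'' => if i = j then m1 U' * DD m1 v U'' else 0) U := rfl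

theorem DD_eq_GG [DecidableEq J] (m1 : List J → ℝ) (v U : List J) :
    DD m1 v U = GG m1 [] (fun v' => if v' = v then 1 else 0) U := by
  induction v generalizing U with
  | nil =>
    rw [DD_nil, GG_eq_ss]
    simp [GG_zero]
  | cons j v ih =>
    rw [DD_cons, GG_eq_ss]
    simp only [List.nil_eq, reduceCtorEq, if_false, zero_mul, zero_add, List.nil_append]
    refine ss_congr U fun U' i U'' _ => ?_
    by_cases hij : i = j
    · subst hij
      rw [if_pos rfl, ih]
      simp
    · rw [if_neg hij]
      simp [hij, GG_zero]

theorem GG_congr_sublist {m1 : List J → ℝ} {f f' : List J → ℝ} (g U : List J)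
    (h : ∀ v, v.Sublist U → f v = f' v) : GG m1 g f U = GG m1 g f' U := by
  induction U generalizing g f f' with
  | nil => rw [GG_nil, GG_nil, h [] (List.Sublist.refl _)]
  | cons j U ih =>
    rw [GG_cons, GG_cons, ih (g ++ [j]) (fun v hv => h v (hv.cons j)),
      ih [] (fun v hv => h (j :: v) (hv.cons_cons j))]

theorem DD_eq_zero [DecidableEq J] (m1 : List J → ℝ) {v U : List J} (h : ¬ v.Sublist U) :
    DD m1 v U = 0 := by
  rw [DD_eq_GG, GG_congr_sublist (f' := fun _ => 0), GG_zero]
  intro v' hv'
  rw [if_neg]
  rintro rfl
  exact h hv'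

/-- `GG` as a finite sum over sublists. -/
theorem GG_eq_sum [DecidableEq J] (m1 : List J → ℝ) (f : List J → ℝ) (U : List J)
    (s : Finset (List J)) (hs : ∀ v, v.Sublist U → v ∈ s) :
    GG m1 [] f U = ∑ v ∈ s, f v * DD m1 v U := by
  simp only [DD_eq_GG]
  rw [Finset.sum_congr rfl fun v _ => (GG_mul m1 [] (f v) (fun v' => if v' = v then 1 else 0) U).symm,
    ← GG_sum]
  refine GG_congr_sublist _ _ fun v hv => ?_
  simp [hs v hv]

theorem GG_hasSum [DecidableEq J] (m1 : List J → ℝ) (f : List J → ℝ) (U : List J) :
    HasSum (fun v => f v * DD m1 v U) (GG m1 [] f U) := by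
  rw [GG_eq_sum m1 f U U.sublists.toFinset (by intro v hv; simpa using hv)]
  refine hasSum_sum_of_ne_finset_zero fun v hv => ?_
  rw [DD_eq_zero, mul_zero]
  simpa using hv

end gaps

section main

variable {J L E : Type*} [DecidableEq L] [Fintype E]

/-- Moment functional (on words) of a semicircular system. -/
structure IsSC (m : List L → ℝ) : Prop where
  nil : m [] = 1
  cons : ∀ a x, m (a :: x) = ss (fun p b q => if b = a then m p * m q else 0) x
  trace : ∀ x y, m (x ++ y) = m (y ++ x)

theorem IsSC.nonneg {m : List L → ℝ} (h : IsSC m) (x : List L) : 0 ≤ m x := by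
  induction' hn : x.length using Nat.strong_induction_on with n ih generalizing x
  cases x with
  | nil => rw [h.nil]; exact zero_le_one
  | cons a x =>
    rw [h.cons, ss_eq_sum_fin]
    refine Finset.sum_nonneg fun k _ => ?_
    split_ifs
    · have hk : (k : ℕ) < x.length := k.2
      simp only [List.length_cons] at hn
      refine mul_nonneg (ih (x.take k).length ?_ _ rfl) (ih (x.drop (k + 1)).length ?_ _ rfl)
      · simp; omega
      · simp; omega
    · exact le_refl _

/-- moment of the word `x` followed by the product of the blocks `U`. -/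
noncomputable def tau2 (m : List L → ℝ) (c : J → E → ℝ) (w : J → E → List L) :
    List L → List J → ℝ
  | x, [] => m x
  | x, j :: U => ∑ e, c j e * tau2 m c w (x ++ w j e) U

variable (m : List L → ℝ) (c : J → E → ℝ) (w : J → E → List L)

@[simp] theorem tau2_nil (x : List L) : tau2 m c w x [] = m x := by
  rw [tau2]

theorem tau2_cons (x : List L) (j : J) (U : List J) :
    tau2 m c w x (j :: U) = ∑ e, c j e * tau2 m c w (x ++ w j e) U := by
  rw [tau2]

theorem tau2_SD (h : IsSC m) (a : L) (x : List L) (U : List J) :
    tau2 m c w (a :: x) U =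
      ss (fun p b q => if b = a then m p * tau2 m c w q U else 0) x +
      ss (fun U' j U'' => ∑ e, c j e *
        ss (fun p b q => if b = a then tau2 m c w (p ++ x) U' * tau2 m c w q U'' else 0)
          (w j e)) U := by
  induction U generalizing x with
  | nil => simp [h.cons]
  | cons j U ih =>
    rw [tau2_cons, ss_cons]
    have e1 : ∀ e, tau2 m c w (a :: x ++ w j e) U =
        ss (fun p b q => if b = a then m p * tau2 m c w (q ++ w j e) U else 0) x +
        ss (fun p b q => if b = a then tau2 m c w (p ++ x) [] * tau2 m c w q U else 0) (w j e) +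
        ss (fun U' i U'' => ∑ e', c i e' *
          ss (fun p b q => if b = a then tau2 m c w (p ++ x ++ w j e) U' * tau2 m c w q U''
            else 0) (w i e')) U := by
      intro e
      rw [List.cons_append, ih (x ++ w j e), ss_append]
      congr 1
      · congr 1
        refine ss_congr _ fun p b q _ => ?_
        rw [tau2_nil, h.trace]
      · refine ss_congr _ fun U' i U'' _ => ?_
        refine Finset.sum_congr rfl fun e' _ => ?_
        simp only [List.append_assoc]
    simp only [e1, mul_add, Finset.sum_add_distrib]
    rw [add_assoc]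
    congr 1
    · rw [Finset.sum_congr rfl fun e _ => (ss_mul_left (c j e) _ x).symm, ← ss_finset_sum]
      refine ss_congr _ fun p b q _ => ?_
      split_ifs
      · rw [tau2_cons, Finset.mul_sum]
        exact Finset.sum_congr rfl fun e _ => by ring
      · simp
    · congr 1
      rw [Finset.sum_congr rfl fun e _ => (ss_mul_left (c j e) _ U).symm, ← ss_finset_sum]
      refine ss_congr _ fun U' i U'' _ => ?_
      simp only [Finset.mul_sum]
      rw [Finset.sum_comm]
      refine Finset.sum_congr rfl fun e' _ => ?_
      rw [← Finset.sum_congr rfl fun e _ => show c i e' * (c j e * ss (fun p b q => if b = a then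
        tau2 m c w (p ++ x ++ w j e) U' * tau2 m c w q U'' else 0) (w i e')) =
        c j e * (c i e' * ss (fun p b q => if b = a then
        tau2 m c w (p ++ x ++ w j e) U' * tau2 m c w q U'' else 0) (w i e')) by ring,
        ← Finset.mul_sum]
      congr 1
      rw [Finset.sum_congr rfl fun e _ => (ss_mul_left (c j e) _ (w i e')).symm, ← ss_finset_sum]
      refine ss_congr _ fun p b q _ => ?_
      split_ifs
      · rw [tau2_cons, Finset.sum_mul]
        exact Finset.sum_congr rfl fun e _ => by ring
      · simp

/-- The free cumulants: sum over noncrossing pairings of the letters of `x` and of the blocks `v`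
joining everything. -/
noncomputable def kap (m : List L → ℝ) (c : J → E → ℝ) (w : J → E → List L) :
    List L → List J → ℝ
  | [], v => if v.isEmpty then 1 else 0
  | a :: x, v =>
    (∑ k : Fin x.length,
      if x[k] = a then m (x.take k) * kap m c w (x.drop (k + 1)) v else 0) +
    ∑ k : Fin v.length, ∑ e : E, c v[k] e * ∑ l : Fin (w v[k] e).length,
      if (w v[k] e)[l] = a then
        kap m c w ((w v[k] e).take l ++ x) (v.take k) *
          kap m c w ((w v[k] e).drop (l + 1)) (v.drop (k + 1)) else 0
  termination_by x v => (v.length, x.length)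
  decreasing_by
    · apply Prod.Lex.right
      simp only [List.length_drop, List.length_cons]
      omega
    · apply Prod.Lex.left
      have := k.2
      simp only [List.length_take]
      omega
    · apply Prod.Lex.left
      have := k.2
      simp only [List.length_drop]
      omega

theorem kap_nil (v : List J) : kap m c w [] v = if v = [] then 1 else 0 := by
  rw [kap]
  cases v <;> simp

theorem kap_cons (a : L) (x : List L) (v : List J) :
    kap m c w (a :: x) v =
      ss (fun p b q => if b = a then m p * kap m c w q v else 0) x +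
      ss (fun v' j v'' => ∑ e, c j e *
        ss (fun p b q => if b = a then kap m c w (p ++ x) v' * kap m c w q v'' else 0)
          (w j e)) v := by
  rw [kap]
  simp only [ss_eq_sum_fin]

/-- **Main theorem**: moment-cumulant formula. -/
theorem tau2_eq_GG (h : IsSC m) (x : List L) (U : List J) :
    tau2 m c w x U = GG (tau2 m c w []) [] (kap m c w x) U := by
  induction' hn : U.length using Nat.strong_induction_on with n ih generalizing x U
  induction' hk : x.length using Nat.strong_induction_on with k ihx generalizing x
  cases x with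
  | nil =>
    rw [GG_eq_ss]
    simp only [kap_nil, reduceCtorEq, if_false, GG_zero, mul_zero, ss_zero, if_true, one_mul,
      List.nil_append, add_zero]
  | cons a x =>
    rw [tau2_SD m c w h, show kap m c w (a :: x) = _ from funext (kap_cons m c w a x),
      GG_add, GG_ss, GG_split]
    congr 1
    · refine ss_congr _ fun p b q hx => ?_
      split_ifs with hb
      · rw [GG_mul, ihx q.length (by rw [← hk, ← hx]; simp; omega) q rfl]
      · rw [GG_zero]
    · refine ss_congr _ fun U' j U'' hU => ?_
      have l1 : U'.length < n := by rw [← hn, ← hU]; simp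
      have l2 : U''.length < n := by rw [← hn, ← hU]; simp; omega
      simp only [GG_sum, GG_mul, GG_ss]
      refine Finset.sum_congr rfl fun e _ => ?_
      congr 1
      refine ss_congr _ fun p b q _ => ?_
      split_ifs with hb
      · rw [ih U'.length l1 (p ++ x) U' rfl, ih U''.length l2 q U'' rfl]
        simp only [GG_mul]
        rw [mul_comm, ← GG_mul]
        congr 1
        funext v'
        ring
      · simp only [GG_zero]

theorem kap_nonneg (h : IsSC m) (hc : ∀ j e, 0 ≤ c j e) (x : List L) (v : List J) :
    0 ≤ kap m c w x v := by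
  induction' hn : v.length using Nat.strong_induction_on with n ih generalizing x v
  induction' hk : x.length using Nat.strong_induction_on with k ihx generalizing x
  cases x with
  | nil => rw [kap_nil]; split_ifs <;> norm_num
  | cons a x =>
    rw [kap_cons, ss_eq_sum_fin, ss_eq_sum_fin]
    refine add_nonneg (Finset.sum_nonneg fun i _ => ?_) (Finset.sum_nonneg fun i _ => ?_)
    · split_ifs
      · refine mul_nonneg (h.nonneg _) (ihx (x.drop (i + 1)).length ?_ _ rfl)
        rw [← hk]
        simp only [List.length_drop, List.length_cons]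
        omega
      · exact le_refl _
    · refine Finset.sum_nonneg fun e _ => mul_nonneg (hc _ _) (ss_nonneg (fun p b q => ?_) _)
      have hi := i.2
      split_ifs
      · refine mul_nonneg (ih (v.take i).length ?_ _ _ rfl) (ih (v.drop (i + 1)).length ?_ _ _ rfl)
        · rw [← hn, List.length_take]; omega
        · rw [← hn, List.length_drop]; omega
      · exact le_refl _

theorem tau2_nonneg (h : IsSC m) (hc : ∀ j e, 0 ≤ c j e) (x : List L) (U : List J) :
    0 ≤ tau2 m c w x U := by
  induction U generalizing x with
  | nil => rw [tau2_nil]; exact h.nonneg _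
  | cons j U ih =>
    rw [tau2_cons]
    exact Finset.sum_nonneg fun e _ => mul_nonneg (hc _ _) (ih _)

/-- cumulants are at most moments -/
theorem kap_le_tau2 (h : IsSC m) (hc : ∀ j e, 0 ≤ c j e) (x : List L) (v : List J) :
    kap m c w x v ≤ tau2 m c w x v := by
  rw [tau2_eq_GG m c w h]
  refine le_GG ?_ (tau2_nonneg m c w h hc []) (kap_nonneg m c w h hc x) v
  rw [tau2_nil, h.nil]

end main

end Crest.Agent.R089
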