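import Crest.Prelude.Def_FreeEntropy

/-!
Row 89, part (D): measurability of the free Fisher information along the heat path, the lower
bound for it, integrability of the entropy integrand and the resulting lower bound of `chiStar`.
-/

set_option autoImplicit false
set_option linter.unusedSectionVars false

open scoped ENNReal
open MeasureTheory Filter Topology

namespace Crest.Agent.R089.FisherIntegral

open Crest.OpAlg

variable {A : Type*} [Ring A] [Algebra ℂ A] {n : ℕ}

/-! ### Continuity of moments along the heat path -/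

lemma wordEval_ofList (Z : Fin n → A) (l : List (Fin n)) :
    wordEval Z (FreeMonoid.ofList l) = (l.map Z).prod := by
  unfold wordEval
  simp [FreeMonoid.lift_apply]

lemma wordEval_toList (Z : Fin n → A) (w : FreeMonoid (Fin n)) :
    wordEval Z w = ((FreeMonoid.toList w).map Z).prod := by
  rw [← wordEval_ofList]; rfl

lemma continuous_list_prod (τ : A →ₗ[ℂ] ℂ) (X S : Fin n → A) (l : List (Fin n)) :
    ∀ a : A, Continuous fun s : ℝ => τ (a * (l.map (heatTuple X S s)).prod) := by
  induction l with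
  | nil => intro a; simpa using continuous_const
  | cons i l ih =>
    intro a
    have h : ∀ s : ℝ, τ (a * ((i :: l).map (heatTuple X S s)).prod) =
        τ ((a * X i) * (l.map (heatTuple X S s)).prod) +
          (Real.sqrt s : ℂ) * τ ((a * S i) * (l.map (heatTuple X S s)).prod) := by
      intro s
      rw [List.map_cons, List.prod_cons]
      have : a * (heatTuple X S s i * (l.map (heatTuple X S s)).prod) =
          (a * X i) * (l.map (heatTuple X S s)).prod +
            (Real.sqrt s : ℂ) • ((a * S i) * (l.map (heatTuple X S s)).prod) := by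
        simp only [heatTuple, add_mul, mul_add, mul_assoc, smul_mul_assoc, mul_smul_comm]
      rw [this, map_add, map_smul, smul_eq_mul]
    simp_rw [h]
    refine (ih _).add (Continuous.mul ?_ (ih _))
    exact Complex.continuous_ofReal.comp Real.continuous_sqrt

lemma continuous_wordEval (τ : A →ₗ[ℂ] ℂ) (X S : Fin n → A) (w : FreeMonoid (Fin n)) :
    Continuous fun s : ℝ => τ (wordEval (heatTuple X S s) w) := by
  have := continuous_list_prod τ X S (FreeMonoid.toList w) 1
  simpa [wordEval_toList] using this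

lemma polyEval_eq_sum (Z : Fin n → A) (P : NCPoly n) :
    polyEval Z P = P.coeff.sum fun w c => c • wordEval Z w := by
  unfold polyEval wordEval
  rw [MonoidAlgebra.lift_apply]

lemma continuous_polyEval (τ : A →ₗ[ℂ] ℂ) (X S : Fin n → A) (P : NCPoly n) :
    Continuous fun s : ℝ => τ (polyEval (heatTuple X S s) P) := by
  simp_rw [polyEval_eq_sum, Finsupp.sum, map_sum, map_smul, smul_eq_mul]
  exact continuous_finsetSum _ fun w _ => continuous_const.mul (continuous_wordEval τ X S w)

lemma continuous_polyEval_mul (τ : A →ₗ[ℂ] ℂ) (X S : Fin n → A) (P Q : NCPoly n) :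
    Continuous fun s : ℝ => τ (polyEval (heatTuple X S s) P * polyEval (heatTuple X S s) Q) := by
  have h : ∀ s : ℝ, polyEval (heatTuple X S s) P * polyEval (heatTuple X S s) Q =
      polyEval (heatTuple X S s) (P * Q) := by
    intro s; unfold polyEval; rw [map_mul]
  simp_rw [h]
  exact continuous_polyEval τ X S _

lemma continuous_splitPairing (τ : A →ₗ[ℂ] ℂ) (X S : Fin n → A) (i : Fin n) (P : NCPoly n) :
    Continuous fun s : ℝ => splitPairing τ (heatTuple X S s) i P := by
  unfold splitPairing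
  simp_rw [Finsupp.sum]
  refine continuous_finsetSum _ fun w _ => continuous_const.mul ?_
  refine continuous_finsetSum _ fun k _ => ?_
  split_ifs with h
  · exact (continuous_wordEval τ X S _).mul (continuous_wordEval τ X S _)
  · exact continuous_const

/-- The free Fisher information along the heat path is measurable (lower semicontinuous). -/
lemma lowerSemicontinuous_freeFisher (τ : A →ₗ[ℂ] ℂ) (X S : Fin n → A) :
    LowerSemicontinuous fun s : ℝ => freeFisher τ (heatTuple X S s) := by
  unfold freeFisher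
  refine lowerSemicontinuous_iSup fun P => lowerSemicontinuous_iSup fun _ => ?_
  refine Continuous.lowerSemicontinuous ?_
  refine ENNReal.continuous_ofReal.comp (Complex.continuous_re.comp ?_)
  refine continuous_finsetSum _ fun i _ => ?_
  exact (continuous_const.mul (continuous_splitPairing τ X S i (P i))).sub
    (continuous_polyEval_mul τ X S (P i) (P i))

lemma measurable_freeFisher (τ : A →ₗ[ℂ] ℂ) (X S : Fin n → A) :
    Measurable fun s : ℝ => freeFisher τ (heatTuple X S s) :=
  (lowerSemicontinuous_freeFisher τ X S).measurable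

/-! ### Lower bound -/

/-- The linear test polynomial `c • X_i`. -/
noncomputable def linPoly (i : Fin n) (c : ℝ) : NCPoly n :=
  MonoidAlgebra.single (FreeMonoid.of i) (c : ℂ)

lemma polyStar_linPoly (i : Fin n) (c : ℝ) : polyStar (linPoly i c) = linPoly i c := by
  unfold polyStar linPoly
  simp only [MonoidAlgebra.coeff_single]
  rw [Finsupp.sum_single_index]
  · simp [FreeMonoid.toList_of]
  · simp

lemma polyEval_linPoly (Z : Fin n → A) (i : Fin n) (c : ℝ) :
    polyEval Z (linPoly i c) = (c : ℂ) • Z i := by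
  unfold polyEval linPoly
  simp

lemma splitPairing_linPoly (τ : A →ₗ[ℂ] ℂ) (hτ : τ 1 = 1) (Z : Fin n → A) (i : Fin n) (c : ℝ) :
    splitPairing τ Z i (linPoly i c) = c := by
  unfold splitPairing linPoly
  simp only [MonoidAlgebra.coeff_single]
  rw [Finsupp.sum_single_index]
  · simp [FreeMonoid.toList_of, wordEval, hτ]
  · simp

/-- Lower bound of the free Fisher information by linear test polynomials. -/
lemma le_freeFisher (τ : A →ₗ[ℂ] ℂ) (hτ : τ 1 = 1) (Z : Fin n → A) (v : Fin n → ℝ)
    (hv : ∀ i, 0 < v i) (hZ : ∀ i, τ (Z i * Z i) = (v i : ℂ)) :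
    ENNReal.ofReal (∑ i, 1 / v i) ≤ freeFisher τ Z := by
  unfold freeFisher
  refine le_trans ?_ (le_iSup_of_le (fun i => linPoly i (1 / v i)) (le_iSup_of_le
    (fun i => polyStar_linPoly i _) le_rfl))
  refine le_of_eq ?_
  congr 1
  rw [Complex.re_sum]
  refine Finset.sum_congr rfl fun i _ => ?_
  rw [splitPairing_linPoly τ hτ, polyEval_linPoly, smul_mul_smul_comm, map_smul, hZ, smul_eq_mul]
  have hv' : (v i : ℝ) ≠ 0 := (hv i).ne'
  have : (2 * ((1 / v i : ℝ) : ℂ) - ((1 / v i : ℝ) : ℂ) * ((1 / v i : ℝ) : ℂ) * ((v i : ℝ) : ℂ))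
      = ((2 * (1 / v i) - (1 / v i) * (1 / v i) * v i : ℝ) : ℂ) := by
    push_cast; ring
  rw [this, Complex.ofReal_re]
  field_simp
  ring

/-- Lower bound of the free Fisher information along the heat path. -/
lemma le_freeFisher_heat (τ : A →ₗ[ℂ] ℂ) (hτ : τ 1 = 1) (X S : Fin n → A) (v : Fin n → ℝ)
    (hv : ∀ i, 0 ≤ v i) (hX : ∀ i, τ (X i * X i) = (v i : ℂ)) (hXS : ∀ i, τ (X i * S i) = 0)
    (hSX : ∀ i, τ (S i * X i) = 0) (hSS : ∀ i, τ (S i * S i) = 1) (s : ℝ) (hs : 0 < s) :
    ENNReal.ofReal (∑ i, 1 / (v i + s)) ≤ freeFisher τ (heatTuple X S s) := by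
  refine le_freeFisher τ hτ _ (fun i => v i + s) (fun i => by have := hv i; positivity) ?_
  intro i
  have h1 : heatTuple X S s i * heatTuple X S s i = X i * X i + (Real.sqrt s : ℂ) • (X i * S i)
      + (Real.sqrt s : ℂ) • (S i * X i) +
      ((Real.sqrt s : ℂ) * (Real.sqrt s : ℂ)) • (S i * S i) := by
    simp only [heatTuple, add_mul, mul_add, smul_mul_assoc, mul_smul_comm]
    rw [smul_add, smul_smul]
    abel
  rw [h1, map_add, map_add, map_add, map_smul, map_smul, map_smul, hX, hXS, hSX, hSS]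
  have h2 : (Real.sqrt s : ℂ) * (Real.sqrt s : ℂ) = (s : ℂ) := by
    rw [← Complex.ofReal_mul, Real.mul_self_sqrt hs.le]
  rw [h2]
  simp

/-! ### Calculus of `1/(1+s) - 1/(a+s)` -/

/-- The comparison function `1/(1+s) - 1/(a+s)`. -/
noncomputable def hfun (a s : ℝ) : ℝ := 1 / (1 + s) - 1 / (a + s)

/-- Its primitive. -/
noncomputable def Hfun (a s : ℝ) : ℝ := Real.log (1 + s) - Real.log (a + s)

lemma hasDerivAt_Hfun {a s : ℝ} (ha : 0 < a) (hs : 0 ≤ s) : HasDerivAt (Hfun a) (hfun a s) s := by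
  unfold hfun
  have h1 : HasDerivAt (fun s : ℝ => Real.log (1 + s)) (1 / (1 + s)) s := by
    have := ((hasDerivAt_id s).const_add 1).log (by simp; linarith)
    simpa using this
  have h2 : HasDerivAt (fun s : ℝ => Real.log (a + s)) (1 / (a + s)) s := by
    have := ((hasDerivAt_id s).const_add a).log (by simp; linarith)
    simpa using this
  exact h1.sub h2

lemma tendsto_Hfun (a : ℝ) : Tendsto (Hfun a) atTop (𝓝 0) := by
  have h : Tendsto (fun s : ℝ => (1 + s) / (a + s)) atTop (𝓝 1) := by
    have h1 : Tendsto (fun s : ℝ => 1 + (1 - a) / (a + s)) atTop (𝓝 (1 + 0)) := by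
      refine tendsto_const_nhds.add ?_
      exact tendsto_const_nhds.div_atTop (tendsto_atTop_add_const_left _ _ tendsto_id)
    rw [add_zero] at h1
    refine h1.congr' ?_
    filter_upwards [eventually_gt_atTop (-a)] with s hs
    have : a + s ≠ 0 := by linarith
    field_simp
    ring
  have h2 := (Real.continuousAt_log one_ne_zero).tendsto.comp h
  rw [Real.log_one] at h2
  refine h2.congr' ?_
  filter_upwards [eventually_gt_atTop (-a), eventually_gt_atTop (-1)] with s hs hs1
  have h3 : a + s ≠ 0 := by linarith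
  have h4 : 1 + s ≠ 0 := by linarith
  simp only [Function.comp, Hfun]
  rw [Real.log_div h4 h3]

lemma integrableOn_hfun {a : ℝ} (ha : 0 < a) : IntegrableOn (hfun a) (Set.Ioi 0) := by
  rcases le_total 1 a with h | h
  · refine integrableOn_Ioi_deriv_of_nonneg' (g := Hfun a) (l := 0)
      (fun x hx => hasDerivAt_Hfun ha hx) (fun x hx => ?_) (tendsto_Hfun a)
    have hx' : (0 : ℝ) < x := hx
    unfold hfun
    rw [sub_nonneg]
    exact one_div_le_one_div_of_le (by linarith) (by linarith)
  · refine integrableOn_Ioi_deriv_of_nonpos' (g := Hfun a) (l := 0)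
      (fun x hx => hasDerivAt_Hfun ha hx) (fun x hx => ?_) (tendsto_Hfun a)
    have hx' : (0 : ℝ) < x := hx
    unfold hfun
    rw [sub_nonpos]
    exact one_div_le_one_div_of_le (by linarith) (by linarith)

lemma setIntegral_hfun {a s0 : ℝ} (ha : 0 < a) (hs0 : 0 < s0) :
    ∫ s in Set.Ioc 0 s0, hfun a s = Real.log ((1 + s0) * a / (a + s0)) := by
  have hint : IntegrableOn (hfun a) (Set.Ioc 0 s0) :=
    (integrableOn_hfun ha).mono_set Set.Ioc_subset_Ioi_self
  have h := intervalIntegral.integral_eq_sub_of_hasDerivAt (f := Hfun a) (f' := hfun a)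
    (a := 0) (b := s0) (fun x hx => by
      rw [Set.uIcc_of_le hs0.le] at hx
      exact hasDerivAt_Hfun ha hx.1)
    ((intervalIntegrable_iff_integrableOn_Ioc_of_le hs0.le).2 hint)
  rw [intervalIntegral.integral_of_le hs0.le] at h
  rw [h]
  simp only [Hfun, add_zero, Real.log_one, zero_sub, sub_neg_eq_add]
  have h1 : (1 + s0) ≠ 0 := by positivity
  have h2 : a + s0 ≠ 0 := by positivity
  rw [Real.log_div (mul_ne_zero h1 ha.ne') h2, Real.log_mul h1 ha.ne']
  ring

/-! ### The abstract integration theorem -/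

section main

variable (τ : A →ₗ[ℂ] ℂ) (X S : Fin n → A)

/-- The integrand of `chiStar`. -/
noncomputable def integrand (s : ℝ) : ℝ :=
  (n : ℝ) / (1 + s) - (freeFisher τ (heatTuple X S s)).toReal

lemma measurable_integrand : Measurable (integrand τ X S) := by
  unfold integrand
  refine Measurable.sub ?_ (measurable_freeFisher τ X S).ennreal_toReal
  exact measurable_const.div (measurable_const.add measurable_id)

lemma n_div_eq (s : ℝ) (v : Fin n → ℝ) :
    (n : ℝ) / (1 + s) - ∑ i, 1 / (v i + s) = ∑ i, hfun (v i) s := by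
  unfold hfun
  rw [Finset.sum_sub_distrib]
  simp [div_eq_mul_inv]

theorem chiStar_lower (hτ : τ 1 = 1) (v δ : Fin n → ℝ)
    (hv : ∀ i, 0 < v i) (hδ : ∀ i, 0 < δ i)
    (hX : ∀ i, τ (X i * X i) = (v i : ℂ)) (hXS : ∀ i, τ (X i * S i) = 0)
    (hSX : ∀ i, τ (S i * X i) = 0) (hSS : ∀ i, τ (S i * S i) = 1)
    (hU1 : ∀ s : ℝ, 0 < s → freeFisher τ (heatTuple X S s) ≤ ENNReal.ofReal (∑ i, 1 / (δ i + s)))
    (s0 : ℝ) (hs0 : 0 < s0) (E : ℝ → ℝ) (hE : IntegrableOn E (Set.Ioi s0))
    (hE0 : ∀ s, s0 < s → 0 ≤ E s)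
    (hU2 : ∀ s : ℝ, s0 < s →
      freeFisher τ (heatTuple X S s) ≤ ENNReal.ofReal ((n : ℝ) / (1 + s) + E s)) :
    (∀ s : ℝ, 0 < s → freeFisher τ (heatTuple X S s) < ⊤) ∧
    IntegrableOn (fun s : ℝ => (n : ℝ) / (1 + s) - (freeFisher τ (heatTuple X S s)).toReal)
      (Set.Ioi 0) ∧
    (n : ℝ) / 2 * Real.log (2 * Real.pi * Real.exp 1) +
      1 / 2 * (∑ i, Real.log ((1 + s0) * δ i / (δ i + s0)) - ∫ s in Set.Ioi s0, E s) ≤
      chiStar τ X S := by
  have hfin : ∀ s : ℝ, 0 < s → freeFisher τ (heatTuple X S s) < ⊤ := fun s hs =>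
    lt_of_le_of_lt (hU1 s hs) ENNReal.ofReal_lt_top
  -- pointwise bounds for the integrand
  have hup : ∀ s : ℝ, 0 < s → integrand τ X S s ≤ ∑ i, hfun (v i) s := by
    intro s hs
    rw [← n_div_eq]
    unfold integrand
    have h1 := le_freeFisher_heat τ hτ X S v (fun i => (hv i).le) hX hXS hSX hSS s hs
    have h2 := (ENNReal.ofReal_le_iff_le_toReal (hfin s hs).ne).1 h1
    linarith
  have hlow : ∀ s : ℝ, 0 < s → ∑ i, hfun (δ i) s ≤ integrand τ X S s := by
    intro s hs
    rw [← n_div_eq]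
    unfold integrand
    have h2 : (freeFisher τ (heatTuple X S s)).toReal ≤ ∑ i, 1 / (δ i + s) := by
      refine ENNReal.toReal_le_of_le_ofReal ?_ (hU1 s hs)
      exact Finset.sum_nonneg fun i _ => by have := hδ i; positivity
    linarith
  have hlow2 : ∀ s : ℝ, s0 < s → - E s ≤ integrand τ X S s := by
    intro s hs
    unfold integrand
    have h2 : (freeFisher τ (heatTuple X S s)).toReal ≤ (n : ℝ) / (1 + s) + E s := by
      refine ENNReal.toReal_le_of_le_ofReal ?_ (hU2 s hs)
      have := hE0 s hs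
      have : 0 < 1 + s := by linarith
      positivity
    linarith
  have hIδ : IntegrableOn (fun s => ∑ i, hfun (δ i) s) (Set.Ioi 0) :=
    integrable_finsetSum _ fun i _ => integrableOn_hfun (hδ i)
  have hIv : IntegrableOn (fun s => ∑ i, hfun (v i) s) (Set.Ioi 0) :=
    integrable_finsetSum _ fun i _ => integrableOn_hfun (hv i)
  have hint : IntegrableOn (integrand τ X S) (Set.Ioi 0) := by
    refine Integrable.mono' (hIδ.norm.add hIv.norm)
      (measurable_integrand τ X S).aestronglyMeasurable ?_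
    refine (ae_restrict_iff' measurableSet_Ioi).2 (Filter.Eventually.of_forall fun s hs => ?_)
    have h1 := hup s hs
    have h2 := hlow s hs
    rw [Real.norm_eq_abs, abs_le]
    simp only [Pi.add_apply, Real.norm_eq_abs]
    constructor
    · have := neg_abs_le (∑ i, hfun (δ i) s)
      have := abs_nonneg (∑ i, hfun (v i) s)
      linarith
    · have := le_abs_self (∑ i, hfun (v i) s)
      have := abs_nonneg (∑ i, hfun (δ i) s)
      linarith
  refine ⟨hfin, hint, ?_⟩
  unfold chiStar
  have key : ∑ i, Real.log ((1 + s0) * δ i / (δ i + s0)) - ∫ s in Set.Ioi s0, E s ≤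
      ∫ s in Set.Ioi (0 : ℝ), integrand τ X S s := by
    have hsplit : Set.Ioi (0 : ℝ) = Set.Ioc 0 s0 ∪ Set.Ioi s0 := by
      rw [Set.Ioc_union_Ioi_eq_Ioi hs0.le]
    rw [hsplit, setIntegral_union (Set.Ioc_disjoint_Ioi le_rfl) measurableSet_Ioi
      (hint.mono_set Set.Ioc_subset_Ioi_self) (hint.mono_set (Set.Ioi_subset_Ioi hs0.le))]
    have e1 : ∑ i, Real.log ((1 + s0) * δ i / (δ i + s0)) ≤
        ∫ s in Set.Ioc 0 s0, integrand τ X S s := by
      have : ∑ i, Real.log ((1 + s0) * δ i / (δ i + s0)) =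
          ∫ s in Set.Ioc 0 s0, ∑ i, hfun (δ i) s := by
        rw [integral_finsetSum _ fun i _ =>
          (integrableOn_hfun (hδ i)).mono_set Set.Ioc_subset_Ioi_self]
        exact Finset.sum_congr rfl fun i _ => (setIntegral_hfun (hδ i) hs0).symm
      rw [this]
      refine setIntegral_mono_on (hIδ.mono_set Set.Ioc_subset_Ioi_self)
        (hint.mono_set Set.Ioc_subset_Ioi_self) measurableSet_Ioc ?_
      intro s hs
      exact hlow s hs.1
    have e2 : - ∫ s in Set.Ioi s0, E s ≤ ∫ s in Set.Ioi s0, integrand τ X S s := by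
      rw [← integral_neg]
      refine setIntegral_mono_on hE.neg (hint.mono_set (Set.Ioi_subset_Ioi hs0.le))
        measurableSet_Ioi ?_
      intro s hs
      exact hlow2 s hs
    linarith
  have : (∫ s in Set.Ioi (0 : ℝ), ((n : ℝ) / (1 + s) -
      (freeFisher τ (heatTuple X S s)).toReal)) = ∫ s in Set.Ioi (0 : ℝ), integrand τ X S s := rfl
  rw [this]
  linarith

/-! ### Version with the representing-vector bound -/

lemma hasDerivAt_neg_inv {a s : ℝ} (ha : 0 < a) (hs : 0 ≤ s) :
    HasDerivAt (fun s : ℝ => - (1 / (a + s))) (1 / (a + s) ^ 2) s := by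
  have h0 : a + s ≠ 0 := by positivity
  have h := (((hasDerivAt_id s).const_add a).inv h0).neg
  have e1 : (fun s : ℝ => - (1 / (a + s))) = -(fun x : ℝ => a + id x)⁻¹ := by
    ext x; simp
  rw [e1]
  refine h.congr_deriv ?_
  simp only [id]
  ring

lemma tendsto_neg_inv (a : ℝ) : Tendsto (fun s : ℝ => - (1 / (a + s))) atTop (𝓝 0) := by
  have h : Tendsto (fun s : ℝ => 1 / (a + s)) atTop (𝓝 0) :=
    tendsto_const_nhds.div_atTop (tendsto_atTop_add_const_left _ _ tendsto_id)
  simpa using h.neg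

lemma integrableOn_inv_sq {a s0 : ℝ} (ha : 0 < a) (hs0 : 0 ≤ s0) :
    IntegrableOn (fun s : ℝ => 1 / (a + s) ^ 2) (Set.Ioi s0) := by
  refine integrableOn_Ioi_deriv_of_nonneg' (g := fun s : ℝ => - (1 / (a + s))) (l := 0)
      (fun x hx => hasDerivAt_neg_inv ha (hs0.trans hx)) (fun x hx => ?_) (tendsto_neg_inv a)
  positivity

lemma setIntegral_inv_sq {a s0 : ℝ} (ha : 0 < a) (hs0 : 0 ≤ s0) :
    ∫ s in Set.Ioi s0, 1 / (a + s) ^ 2 = 1 / (a + s0) := by
  rw [integral_Ioi_of_hasDerivAt_of_nonneg' (g := fun s : ℝ => - (1 / (a + s))) (l := 0)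
      (fun x hx => hasDerivAt_neg_inv ha (hs0.trans hx)) (fun x hx => by positivity)
      (tendsto_neg_inv a)]
  simp

lemma setIntegral_hfun_Ioi {a : ℝ} (ha : 0 < a) :
    ∫ s in Set.Ioi 0, hfun a s = Real.log a := by
  rw [integral_Ioi_of_hasDerivAt_of_tendsto' (f := Hfun a) (m := 0)
    (fun x hx => hasDerivAt_Hfun ha hx) (integrableOn_hfun ha) (tendsto_Hfun a)]
  simp [Hfun]

/-- Main analytic output: the two upper bounds for `Φ*` along the heat path give finiteness,
integrability and the lower bound for `chiStar`. -/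
theorem chiStar_lower_of_le (hτ : τ 1 = 1) (v δ : Fin n → ℝ)
    (hv : ∀ i, 0 < v i) (hδ : ∀ i, 0 < δ i)
    (hX : ∀ i, τ (X i * X i) = (v i : ℂ)) (hXS : ∀ i, τ (X i * S i) = 0)
    (hSX : ∀ i, τ (S i * X i) = 0) (hSS : ∀ i, τ (S i * S i) = 1)
    (hU1 : ∀ s : ℝ, 0 < s → freeFisher τ (heatTuple X S s) ≤ ENNReal.ofReal (∑ i, 1 / (δ i + s)))
    (s0 : ℝ) (hs0 : 0 ≤ s0)
    (hU2 : ∀ s : ℝ, s0 < s → freeFisher τ (heatTuple X S s) ≤
      ENNReal.ofReal (∑ i, (1 / (δ i + s) - 1 / (2 * (δ i + s) ^ 2)))) :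
    (∀ s : ℝ, 0 < s → freeFisher τ (heatTuple X S s) < ⊤) ∧
    IntegrableOn (fun s : ℝ => (n : ℝ) / (1 + s) - (freeFisher τ (heatTuple X S s)).toReal)
      (Set.Ioi 0) ∧
    ∑ i, (1 / 2 * Real.log (2 * Real.pi * Real.exp 1 * δ i) + 1 / 4 * (1 / (δ i + s0))) ≤
      chiStar τ X S := by
  have hfin : ∀ s : ℝ, 0 < s → freeFisher τ (heatTuple X S s) < ⊤ := fun s hs =>
    lt_of_le_of_lt (hU1 s hs) ENNReal.ofReal_lt_top
  have hup : ∀ s : ℝ, 0 < s → integrand τ X S s ≤ ∑ i, hfun (v i) s := by
    intro s hs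
    rw [← n_div_eq]
    unfold integrand
    have h1 := le_freeFisher_heat τ hτ X S v (fun i => (hv i).le) hX hXS hSX hSS s hs
    have h2 := (ENNReal.ofReal_le_iff_le_toReal (hfin s hs).ne).1 h1
    linarith
  have hlow : ∀ s : ℝ, 0 < s → ∑ i, hfun (δ i) s ≤ integrand τ X S s := by
    intro s hs
    rw [← n_div_eq]
    unfold integrand
    have h2 : (freeFisher τ (heatTuple X S s)).toReal ≤ ∑ i, 1 / (δ i + s) := by
      refine ENNReal.toReal_le_of_le_ofReal ?_ (hU1 s hs)
      exact Finset.sum_nonneg fun i _ => by have := hδ i; positivity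
    linarith
  -- the pointwise lower bound with the gain on `(s0, ∞)`
  have hlow2 : ∀ s : ℝ, s0 < s →
      ∑ i, hfun (δ i) s + ∑ i, 1 / 2 * (1 / (δ i + s) ^ 2) ≤ integrand τ X S s := by
    intro s hs
    have hs' : 0 < s := hs0.trans_lt hs
    rw [← n_div_eq]
    have hsum : 0 ≤ ∑ i, (1 / (δ i + s) - 1 / (2 * (δ i + s) ^ 2)) ∨
        (freeFisher τ (heatTuple X S s)) = 0 := by
      by_cases h : 0 ≤ ∑ i, (1 / (δ i + s) - 1 / (2 * (δ i + s) ^ 2))
      · exact Or.inl h
      · right
        have := hU2 s hs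
        rw [ENNReal.ofReal_of_nonpos (not_le.1 h).le] at this
        exact le_antisymm this bot_le
    have h2 : (freeFisher τ (heatTuple X S s)).toReal ≤
        ∑ i, (1 / (δ i + s) - 1 / (2 * (δ i + s) ^ 2)) := by
      rcases hsum with h | h
      · exact ENNReal.toReal_le_of_le_ofReal h (hU2 s hs)
      · -- impossible unless the sum is nonnegative anyway, by the lower bound
        have h1 := le_freeFisher_heat τ hτ X S v (fun i => (hv i).le) hX hXS hSX hSS s hs'
        have h3 := h1.trans (hU2 s hs)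
        by_cases hn : 0 ≤ ∑ i, (1 / (δ i + s) - 1 / (2 * (δ i + s) ^ 2))
        · exact ENNReal.toReal_le_of_le_ofReal hn (hU2 s hs)
        · exfalso
          rw [ENNReal.ofReal_of_nonpos (not_le.1 hn).le] at h3
          have h4 : ∑ i, 1 / (v i + s) ≤ 0 := by
            by_contra hcon
            have := ENNReal.ofReal_pos.2 (not_le.1 hcon)
            exact absurd h3 (not_le.2 this)
          have h5 : ∀ i, 0 < 1 / (v i + s) := fun i => by have := hv i; positivity
          have h6 : (Finset.univ : Finset (Fin n)) = ∅ := by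
            by_contra hne
            have := Finset.sum_pos (fun i _ => h5 i) (Finset.nonempty_iff_ne_empty.2 hne)
            linarith
          rw [h6] at hn
          simp at hn
    unfold integrand
    have h3 : ∑ i, (1 / (δ i + s) - 1 / (2 * (δ i + s) ^ 2)) =
        ∑ i, 1 / (δ i + s) - ∑ i, 1 / 2 * (1 / (δ i + s) ^ 2) := by
      rw [Finset.sum_sub_distrib]
      congr 1
      refine Finset.sum_congr rfl fun i _ => ?_
      have : δ i + s ≠ 0 := by have := hδ i; positivity
      field_simp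
    linarith
  have hIδ : IntegrableOn (fun s => ∑ i, hfun (δ i) s) (Set.Ioi 0) :=
    integrable_finsetSum _ fun i _ => integrableOn_hfun (hδ i)
  have hIv : IntegrableOn (fun s => ∑ i, hfun (v i) s) (Set.Ioi 0) :=
    integrable_finsetSum _ fun i _ => integrableOn_hfun (hv i)
  have hIg : IntegrableOn (fun s => ∑ i, 1 / 2 * (1 / (δ i + s) ^ 2)) (Set.Ioi s0) :=
    integrable_finsetSum _ fun i _ => (integrableOn_inv_sq (hδ i) hs0).const_mul _
  have hint : IntegrableOn (integrand τ X S) (Set.Ioi 0) := by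
    refine Integrable.mono' (hIδ.norm.add hIv.norm)
      (measurable_integrand τ X S).aestronglyMeasurable ?_
    refine (ae_restrict_iff' measurableSet_Ioi).2 (Filter.Eventually.of_forall fun s hs => ?_)
    have h1 := hup s hs
    have h2 := hlow s hs
    rw [Real.norm_eq_abs, abs_le]
    simp only [Pi.add_apply, Real.norm_eq_abs]
    constructor
    · have := neg_abs_le (∑ i, hfun (δ i) s)
      have := abs_nonneg (∑ i, hfun (v i) s)
      linarith
    · have := le_abs_self (∑ i, hfun (v i) s)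
      have := abs_nonneg (∑ i, hfun (δ i) s)
      linarith
  refine ⟨hfin, hint, ?_⟩
  -- gain function
  let G : ℝ → ℝ := (Set.Ioi s0).indicator fun s => ∑ i, 1 / 2 * (1 / (δ i + s) ^ 2)
  have hG : IntegrableOn G (Set.Ioi 0) := by
    have : Integrable G := (integrable_indicator_iff measurableSet_Ioi).2 hIg
    exact this.integrableOn
  have hGint : ∫ s in Set.Ioi 0, G s = ∑ i, 1 / 2 * (1 / (δ i + s0)) := by
    have h1 : ∫ s in Set.Ioi 0, G s = ∫ s in Set.Ioi s0, ∑ i, 1 / 2 * (1 / (δ i + s) ^ 2) := by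
      show ∫ s in Set.Ioi 0, (Set.Ioi s0).indicator _ s = _
      rw [setIntegral_indicator measurableSet_Ioi]
      congr 2
      ext x
      simp only [Set.mem_inter_iff, Set.mem_Ioi]
      constructor
      · exact fun h => h.2
      · exact fun h => ⟨hs0.trans_lt h, h⟩
    rw [h1, integral_finsetSum _ fun i _ => (integrableOn_inv_sq (hδ i) hs0).const_mul _]
    refine Finset.sum_congr rfl fun i _ => ?_
    rw [integral_const_mul, setIntegral_inv_sq (hδ i) hs0]
  have hmono : ∫ s in Set.Ioi (0 : ℝ), (∑ i, hfun (δ i) s + G s) ≤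
      ∫ s in Set.Ioi (0 : ℝ), integrand τ X S s := by
    refine setIntegral_mono_on (hIδ.add hG) hint measurableSet_Ioi fun s hs => ?_
    by_cases h : s0 < s
    · have : G s = ∑ i, 1 / 2 * (1 / (δ i + s) ^ 2) := Set.indicator_of_mem h _
      rw [this]
      exact hlow2 s h
    · have : G s = 0 := Set.indicator_of_notMem h _
      rw [this, add_zero]
      exact hlow s hs
  rw [integral_add hIδ hG, hGint,
    integral_finsetSum _ fun i _ => integrableOn_hfun (hδ i)] at hmono
  simp_rw [fun i => setIntegral_hfun_Ioi (hδ i)] at hmono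
  have hchi : chiStar τ X S = (n : ℝ) / 2 * Real.log (2 * Real.pi * Real.exp 1) +
      1 / 2 * ∫ s in Set.Ioi (0 : ℝ), integrand τ X S s := rfl
  rw [hchi]
  have hsum : ∑ i, (1 / 2 * Real.log (2 * Real.pi * Real.exp 1 * δ i) +
      1 / 4 * (1 / (δ i + s0))) =
      (n : ℝ) / 2 * Real.log (2 * Real.pi * Real.exp 1) +
        1 / 2 * (∑ i, Real.log (δ i) + ∑ i, 1 / 2 * (1 / (δ i + s0))) := by
    have h1 : ∀ i, 1 / 2 * Real.log (2 * Real.pi * Real.exp 1 * δ i) + 1 / 4 * (1 / (δ i + s0)) =
        1 / 2 * Real.log (2 * Real.pi * Real.exp 1) +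
          1 / 2 * (Real.log (δ i) + 1 / 2 * (1 / (δ i + s0))) := by
      intro i
      rw [Real.log_mul (by positivity) (hδ i).ne']
      ring
    simp_rw [h1]
    rw [Finset.sum_add_distrib, ← Finset.mul_sum, ← Finset.mul_sum, Finset.sum_add_distrib]
    simp
    ring
  rw [hsum]
  linarith

end main

end Crest.Agent.R089.FisherIntegral
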