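import Crest.Agent.R089.FockModel
import Crest.Agent.R089.XiBound
import Crest.Agent.R089.ChiStar
import Crest.Agent.R089.HeatLaw
import Crest.Agent.R089.CubicH

/-!
# R089 (T5): the large-noise Fisher bound.

In the Fock model, `Z_i = Y_i + ν_i s_i`.  The conjugate variable of `Z_i` is represented by
`ξ_i = v_i⁻¹ (ν_i e_i + (Y_i Ω - ζ_i)/2)`, `ζ_i = ∑_u κ(i;u) ∏ ν⁻¹ e_u`.
-/

set_option autoImplicit false
set_option linter.unusedSectionVars false

open Crest.OpAlg
open scoped InnerProductSpace ENNReal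

namespace Crest.Agent.R089.FL

open Crest.Agent.R089.Fock

section coords
variable {ι : Type} [DecidableEq ι]

theorem vec_sWord_apply (x z : List ι) : (vec (sWord x : Alg ι) : H ι) z = (cf x z : ℂ) := by
  unfold vec
  rw [coe_sWord]
  induction x generalizing z with
  | nil =>
    have h1 : (sWordOp ([] : List ι) : H ι →L[ℂ] H ι) = 1 := by simp [sWordOp]
    rw [h1, one_apply_eq_self, Om_apply, cf_nil]
    split_ifs <;> simp
  | cons a x ih =>
    have h1 : (sWordOp (a :: x) : H ι →L[ℂ] H ι) = sOp a * sWordOp x := by simp [sWordOp]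
    rw [h1, mul_apply_eq_comp]
    cases z with
    | nil => rw [sOp_apply_nil, ih, cf_cons_nil]
    | cons b z =>
      rw [sOp_apply_cons, ih, ih, cf_cons_cons]
      by_cases hab : a = b
      · subst hab; simp; ring
      · rw [if_neg hab, if_neg (fun h => hab h.symm)]; simp

/-- `vec` as a linear map. -/
noncomputable def vecL : Alg ι →ₗ[ℂ] H ι where
  toFun := vec
  map_add' x y := by
    change ((x : H ι →L[ℂ] H ι) + (y : H ι →L[ℂ] H ι)) Om = _
    rw [add_apply]; rfl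
  map_smul' c x := by
    change (c • (x : H ι →L[ℂ] H ι)) Om = _
    rw [smul_apply]; rfl

theorem vecL_apply (x : Alg ι) : vecL x = vec x := rfl

theorem tau_eq_vec (x : Alg ι) : tau x = (vec x) ([] : List ι) := by
  rw [tau_apply, Om, inner_e_left]
  rfl

end coords

section block
variable {k n : ℕ} {E : Type} [Fintype E] (c : Fin n → E → ℝ) (wh : Fin n → E → List (Fin k))
  (ν : Fin n → ℝ)

/-- the hidden polynomials. -/
noncomputable def Yop (i : Fin n) : Alg (Fin k ⊕ Fin n) :=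
  ∑ e, (c i e : ℂ) • sWord ((wh i e).map Sum.inl)

/-- the noisy variables. -/
noncomputable def Zop (i : Fin n) : Alg (Fin k ⊕ Fin n) :=
  Yop c wh i + (ν i : ℂ) • s (Sum.inr i)

theorem Zop_eq (i : Fin n) :
    Zop c wh ν i = ∑ e : Option E, (cZ c ν i e : ℂ) • sWord (wZ wh i e) := by
  rw [Fintype.sum_option]
  have h1 : sWord (wZ wh i none) = s (Sum.inr i : Fin k ⊕ Fin n) := by
    simp [wZ, sWord]
  rw [h1, add_comm]
  rfl

theorem vec_word (x : List (Fin k ⊕ Fin n)) (U : List (Fin n)) (z : List (Fin k ⊕ Fin n)) :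
    (vec (sWord x * (U.map (Zop c wh ν)).prod)) z =
      (tau2 (fun u => cf u z) (cZ c ν) (wZ wh) x U : ℂ) := by
  induction U generalizing x with
  | nil => rw [List.map_nil, List.prod_nil, mul_one, vec_sWord_apply, tau2_nil]
  | cons i U ih =>
    rw [List.map_cons, List.prod_cons, ← mul_assoc, Zop_eq, Finset.mul_sum, Finset.sum_mul,
      ← vecL_apply, map_sum, tau2_cons]
    have h1 : ∀ (S : Finset (Option E)) (f : Option E → H (Fin k ⊕ Fin n)),
        (∑ e ∈ S, f e : H (Fin k ⊕ Fin n)) z = ∑ e ∈ S, (f e) z := by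
      intro S f
      rw [lp.coeFn_sum, Finset.sum_apply]
    rw [h1]
    push_cast
    refine Finset.sum_congr rfl fun e _ => ?_
    rw [mul_smul_comm, smul_mul_assoc, ← sWord_append, map_smul, vecL_apply, lp.coeFn_smul,
      Pi.smul_apply, ih, smul_eq_mul]

theorem vec_wordEval (w : FreeMonoid (Fin n)) (z : List (Fin k ⊕ Fin n)) :
    (vec (wordEval (Zop c wh ν) w)) z =
      (tau2 (fun u => cf u z) (cZ c ν) (wZ wh) [] (FreeMonoid.toList w) : ℂ) := by
  rw [wordEval_eq_prod, ← vec_word]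
  congr 2

/-- the vacuum moments -/
noncomputable def mm : List (Fin k ⊕ Fin n) → ℝ := fun u => cf u []

theorem isSC_mm : IsSC (mm (k := k) (n := n)) := isSC_cf

theorem tau_wordEval (w : FreeMonoid (Fin n)) :
    tau (wordEval (Zop c wh ν) w) =
      (tau2 mm (cZ c ν) (wZ wh) [] (FreeMonoid.toList w) : ℂ) := by
  rw [tau_eq_vec, vec_wordEval]
  rfl

/-- iterated split pairings -/
noncomputable def Dv (v U : List (Fin n)) : ℝ := DD (tau2 mm (cZ c ν) (wZ wh) []) v U

theorem splitWord_eq (i : Fin n) (w : FreeMonoid (Fin n)) :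
    ChiStar.splitWord tau (Zop c wh ν) i w = (Dv c wh ν [i] (FreeMonoid.toList w) : ℂ) := by
  rw [ChiStar.splitWord, Dv, DD_cons]
  simp only [tau_wordEval, DD_nil, Equiv.apply_symm_apply]
  rw [ss_eq_sum_range i (fun p q => tau2 mm (cZ c ν) (wZ wh) [] p *
    tau2 mm (cZ c ν) (wZ wh) [] q)]
  push_cast
  refine Finset.sum_congr rfl fun k _ => ?_
  split_ifs <;> simp

/-- noise chaos coordinates -/
theorem vec_noise (v : List (Fin n)) (w : FreeMonoid (Fin n)) :
    (vec (wordEval (Zop c wh ν) w)) (v.map Sum.inr) =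
      ((v.map ν).prod * Dv c wh ν v (FreeMonoid.toList w) : ℝ) := by
  rw [vec_wordEval]
  congr 1
  rw [Dv, ← tau2_DD_noise]
  congr 1
  funext u
  exact cf_eq_DD u _

/-- `τ(Y_i Z_w)` -/
theorem tau_Y_word (i : Fin n) (w : FreeMonoid (Fin n)) :
    tau (Yop c wh i * wordEval (Zop c wh ν) w) =
      ((∑ e, c i e * tau2 mm (cZ c ν) (wZ wh) ((wh i e).map Sum.inl) (FreeMonoid.toList w) : ℝ) : ℂ)
      := by
  rw [Yop, Finset.sum_mul, map_sum]
  push_cast
  refine Finset.sum_congr rfl fun e _ => ?_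
  rw [smul_mul_assoc, map_smul, smul_eq_mul, tau_eq_vec, wordEval_eq_prod, vec_word]
  rfl

/-- the isometry onto the noise words. -/
theorem inj_map_inr : Function.Injective (fun v : List (Fin n) =>
    (v.map Sum.inr : List (Fin k ⊕ Fin n))) :=
  List.map_injective_iff.2 Sum.inr_injective

noncomputable def TT : lp (fun _ : List (Fin n) => ℂ) 2 →ₗᵢ[ℂ] H (Fin k ⊕ Fin n) :=
  ((orthonormal_e.comp (fun v : List (Fin n) => (v.map Sum.inr : List (Fin k ⊕ Fin n)))
    inj_map_inr).orthogonalFamily).linearIsometry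

theorem TT_single (v : List (Fin n)) :
    (TT (k := k) (lp.single 2 v (1 : ℂ)) : H (Fin k ⊕ Fin n)) = e (v.map Sum.inr) := by
  have := ((orthonormal_e.comp (fun v : List (Fin n) => (v.map Sum.inr : List (Fin k ⊕ Fin n)))
    inj_map_inr).orthogonalFamily).linearIsometry_apply_single (i := v) (1 : ℂ)
  rw [TT, this]
  simp

theorem inner_TT (a : lp (fun _ : List (Fin n) => ℂ) 2) (x : H (Fin k ⊕ Fin n)) :
    ⟪TT a, x⟫_ℂ = ∑' v : List (Fin n), (starRingEnd ℂ (a v)) * x (v.map Sum.inr) := by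
  have h1 : ⟪TT a, x⟫_ℂ =
      ⟪a, ContinuousLinearMap.adjoint (TT (k := k) (n := n)).toContinuousLinearMap x⟫_ℂ := by
    rw [ContinuousLinearMap.adjoint_inner_right]
    rfl
  rw [h1, lp.inner_eq_tsum]
  refine tsum_congr fun v => ?_
  have h2 : (ContinuousLinearMap.adjoint (TT (k := k) (n := n)).toContinuousLinearMap x) v =
      x (v.map Sum.inr) := by
    have h3 := ContinuousLinearMap.adjoint_inner_right
      (TT (k := k) (n := n)).toContinuousLinearMap (lp.single 2 v (1 : ℂ)) x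
    rw [lp.inner_single_left] at h3
    have h4 : (TT (k := k) (n := n)).toContinuousLinearMap (lp.single 2 v (1 : ℂ)) =
      e (v.map Sum.inr) := TT_single v
    rw [h4, inner_e_left] at h3
    simpa using h3
  rw [h2, RCLike.inner_apply]
  ring

theorem norm_TT (a : lp (fun _ : List (Fin n) => ℂ) 2) :
    ‖(TT (k := k) a : H (Fin k ⊕ Fin n))‖ = ‖a‖ := LinearIsometry.norm_map _ _

theorem TT_apply (a : lp (fun _ : List (Fin n) => ℂ) 2) (v : List (Fin n)) :
    (TT (k := k) a) (v.map Sum.inr) = a v := by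
  have h := inner_TT (k := k) a (e (v.map Sum.inr))
  rw [inner_e_right] at h
  have h2 : ∀ u : List (Fin n), (starRingEnd ℂ (a u)) *
      (e (v.map Sum.inr) : H (Fin k ⊕ Fin n)) (u.map Sum.inr) =
      if u = v then starRingEnd ℂ (a v) else 0 := by
    intro u
    rw [e_apply]
    by_cases huv : u = v
    · subst huv; simp
    · rw [if_neg huv, if_neg, mul_zero]
      intro h'
      exact huv (inj_map_inr h'.symm)
  rw [tsum_congr h2, tsum_ite_eq] at h
  exact (RingHom.injective (starRingEnd ℂ)) h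

/-- moments of words in `Y` -/
theorem tau_Yword (x : List (Fin k)) (U : List (Fin n)) :
    tau (sWord (x.map Sum.inl) * (U.map (Yop c wh)).prod : Alg (Fin k ⊕ Fin n)) =
      (tau2 (mH (mm (k := k) (n := n))) c wh x U : ℂ) := by
  induction U generalizing x with
  | nil =>
    rw [List.map_nil, List.prod_nil, mul_one, tau_eq_vec, vec_sWord_apply, tau2_nil]
    rfl
  | cons i U ih =>
    rw [List.map_cons, List.prod_cons, ← mul_assoc, Yop, Finset.mul_sum, Finset.sum_mul,
      map_sum, tau2_cons]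
    push_cast
    refine Finset.sum_congr rfl fun e _ => ?_
    rw [mul_smul_comm, smul_mul_assoc, ← sWord_append, map_smul, ← List.map_append, ih,
      smul_eq_mul]

theorem tau_Yword' (U : List (Fin n)) :
    tau ((U.map (Yop c wh)).prod : Alg (Fin k ⊕ Fin n)) =
      (mY c wh (mm (k := k) (n := n)) U : ℂ) := by
  have h := tau_Yword c wh [] U
  rw [mY, ← h]
  congr 1

theorem vec_Yop_noise (i : Fin n) (j : Fin n) (v : List (Fin n)) :
    (vec (Yop c wh i : Alg (Fin k ⊕ Fin n))) ((j :: v).map Sum.inr) = 0 := by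
  rw [Yop, ← vecL_apply, map_sum, lp.coeFn_sum, Finset.sum_apply]
  refine Finset.sum_eq_zero fun e _ => ?_
  rw [map_smul, vecL_apply, lp.coeFn_smul, Pi.smul_apply, vec_sWord_apply, cf_eq_DD,
    DD_eq_zero]
  · simp
  · intro h
    have h1 := h.subset (show (Sum.inr j : Fin k ⊕ Fin n) ∈ (j :: v).map Sum.inr by simp)
    simp at h1

/-- coordinates of the chaos part of the conjugate variable -/
noncomputable def cc (i : Fin n) (v : List (Fin n)) : ℝ :=
  kapY c wh (mm (k := k) (n := n)) i v * (v.map fun j => (ν j)⁻¹).prod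

theorem cc_sq {vv : Fin n → ℝ} (hν : ∀ j, ν j ^ 2 = vv j) (i : Fin n) (v : List (Fin n)) :
    cc c wh ν i v ^ 2 = xiT c wh (mm (k := k) (n := n)) vv i v := by
  rw [cc, xiT, mul_pow]
  congr 1
  rw [wt]
  induction v with
  | nil => simp
  | cons j v ih =>
    rw [List.map_cons, List.prod_cons, List.map_cons, List.prod_cons, mul_pow, ih, inv_pow, hν]

theorem memℓp_cc {vv : Fin n → ℝ} (hν : ∀ j, ν j ^ 2 = vv j) (i : Fin n)
    (hs : Summable (xiT c wh (mm (k := k) (n := n)) vv i)) :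
    Memℓp (fun v : List (Fin n) => ((cc c wh ν i v : ℝ) : ℂ)) 2 := by
  rw [memℓp_gen_iff (by norm_num)]
  refine hs.congr fun v => ?_
  rw [← cc_sq c wh ν hν]
  simp

/-- the vector `ζ_i` -/
noncomputable def aa {vv : Fin n → ℝ} (hν : ∀ j, ν j ^ 2 = vv j) (i : Fin n)
    (hs : Summable (xiT c wh (mm (k := k) (n := n)) vv i)) :
    lp (fun _ : List (Fin n) => ℂ) 2 := ⟨_, memℓp_cc c wh ν hν i hs⟩

theorem aa_apply {vv : Fin n → ℝ} (hν : ∀ j, ν j ^ 2 = vv j) (i : Fin n)
    (hs : Summable (xiT c wh (mm (k := k) (n := n)) vv i)) (v : List (Fin n)) :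
    aa c wh ν hν i hs v = (cc c wh ν i v : ℂ) := rfl

theorem norm_aa {vv : Fin n → ℝ} (hν : ∀ j, ν j ^ 2 = vv j) (i : Fin n)
    (hs : Summable (xiT c wh (mm (k := k) (n := n)) vv i)) :
    ‖aa c wh ν hν i hs‖ ^ 2 = ∑' u, xiT c wh (mm (k := k) (n := n)) vv i u := by
  have h := lp.norm_rpow_eq_tsum (p := 2) (by norm_num) (aa c wh ν hν i hs)
  simp only [ENNReal.toReal_ofNat, Real.rpow_two] at h
  rw [h]
  refine tsum_congr fun v => ?_
  rw [aa_apply, ← cc_sq c wh ν hν]
  simp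

theorem inner_zeta {vv : Fin n → ℝ} (hν : ∀ j, ν j ^ 2 = vv j) (hν0 : ∀ j, ν j ≠ 0) (i : Fin n)
    (hs : Summable (xiT c wh (mm (k := k) (n := n)) vv i)) (w : FreeMonoid (Fin n)) :
    ⟪TT (aa c wh ν hν i hs), vec (wordEval (Zop c wh ν) w)⟫_ℂ =
      tau (Yop c wh i * wordEval (Zop c wh ν) w) := by
  rw [inner_TT, tau_Y_word]
  have h := hasSum_kapY c ν wh (mm (k := k) (n := n)) isSC_mm i (FreeMonoid.toList w)
  have h2 := (Complex.hasSum_ofReal.2 h).tsum_eq
  rw [← h2]
  refine tsum_congr fun v => ?_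
  rw [aa_apply, vec_noise, Complex.conj_ofReal, ← Complex.ofReal_mul]
  congr 1
  rw [cc, ← mul_assoc, mul_assoc (kapY _ _ _ _ _)]
  have h3 : (v.map fun j => (ν j)⁻¹).prod * (v.map ν).prod = 1 := by
    rw [← List.prod_map_mul]
    have : (fun j => (ν j)⁻¹ * ν j) = fun _ : Fin n => (1 : ℝ) := by
      funext j; exact inv_mul_cancel₀ (hν0 j)
    rw [this]
    simp
  rw [h3, mul_one]
  rfl

/-- **Fisher bound for block systems.** -/
theorem fisher_block (hsa : ∀ i, IsSelfAdjoint (Yop c wh i : Alg (Fin k ⊕ Fin n)))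
    (vv : Fin n → ℝ) (hvv : ∀ j, 0 < vv j) (hν : ∀ j, ν j = Real.sqrt (vv j))
    (h0 : ∀ j, mY c wh (mm (k := k) (n := n)) [j] = 0)
    (h1 : ∀ j, mY c wh (mm (k := k) (n := n)) [j, j] = 1)
    (hs : ∀ i, Summable (xiT c wh (mm (k := k) (n := n)) vv i) ∧
      ∑' u, xiT c wh (mm (k := k) (n := n)) vv i u ≤ 1) :
    freeFisher tau (Zop c wh ν) ≤ ENNReal.ofReal (∑ i, (1 / vv i - 1 / (2 * vv i ^ 2))) := by
  have hν2 : ∀ j, ν j ^ 2 = vv j := fun j => by rw [hν, Real.sq_sqrt (hvv j).le]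
  have hνp : ∀ j, 0 < ν j := fun j => by rw [hν]; exact Real.sqrt_pos.2 (hvv j)
  have hν0 : ∀ j, ν j ≠ 0 := fun j => (hνp j).ne'
  set y : Fin n → H (Fin k ⊕ Fin n) := fun i => vec (Yop c wh i) with hy
  set ζ : Fin n → H (Fin k ⊕ Fin n) := fun i => TT (aa c wh ν hν2 i (hs i).1) with hζ
  set e0 : Fin n → H (Fin k ⊕ Fin n) := fun i => e [Sum.inr i] with he0
  set ξ : Fin n → H (Fin k ⊕ Fin n) := fun i =>
    (((vv i)⁻¹ : ℝ) : ℂ) • ((ν i : ℂ) • e0 i + (((1 / 2 : ℝ)) : ℂ) • (y i - ζ i)) with hξ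
  have hZsa : ∀ i, IsSelfAdjoint (Zop c wh ν i) := by
    intro i
    refine (hsa i).add ?_
    rw [IsSelfAdjoint, star_smul, (isSelfAdjoint_s _).star_eq]
    simp
  have hrep : ∀ i (w : FreeMonoid (Fin n)),
      ChiStar.splitWord tau (Zop c wh ν) i w = ⟪ξ i, vecL (wordEval (Zop c wh ν) w)⟫_ℂ := by
    intro i w
    have a1 : ⟪e0 i, vec (wordEval (Zop c wh ν) w)⟫_ℂ =
        (ν i * Dv c wh ν [i] (FreeMonoid.toList w) : ℝ) := by
      have := vec_noise c wh ν [i] w
      rw [he0, inner_e_left]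
      simpa using this
    have a2 : ⟪ζ i, vec (wordEval (Zop c wh ν) w)⟫_ℂ =
      tau (Yop c wh i * wordEval (Zop c wh ν) w) := inner_zeta c wh ν hν2 hν0 i (hs i).1 w
    have a3 : ⟪y i, vec (wordEval (Zop c wh ν) w)⟫_ℂ =
      tau (Yop c wh i * wordEval (Zop c wh ν) w) := by
      rw [hy, ← tau_star_mul, (hsa i).star_eq]
    rw [splitWord_eq, vecL_apply, hξ, inner_smul_left, inner_add_left, inner_smul_left,
      inner_smul_left, inner_sub_left, a1, a2, a3, sub_self, mul_zero, add_zero,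
      Complex.conj_ofReal, Complex.conj_ofReal, ← Complex.ofReal_mul, ← Complex.ofReal_mul]
    congr 1
    rw [← hν2 i]
    have := hν0 i
    field_simp
  have hnorm : ∀ i, ‖ξ i‖ ^ 2 ≤ 1 / vv i - 1 / (2 * vv i ^ 2) := by
    intro i
    have b1 : ‖e0 i‖ = 1 := norm_e _
    have b2 : ⟪e0 i, y i⟫_ℂ = 0 := by
      rw [he0, inner_e_left]
      exact vec_Yop_noise c wh i i []
    have b3 : ⟪e0 i, ζ i⟫_ℂ = (((ν i)⁻¹ : ℝ) : ℂ) := by
      rw [he0, inner_e_left]
      have := TT_apply (k := k) (aa c wh ν hν2 i (hs i).1) [i]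
      rw [aa_apply, cc, kapY_single c wh mm isSC_mm h0, h1] at this
      simpa using this
    have b4 : ⟪ζ i, y i⟫_ℂ = 0 := by
      rw [hζ, inner_TT]
      rw [tsum_congr (g := fun _ => (0 : ℂ)), tsum_zero]
      intro v
      cases v with
      | nil => rw [aa_apply, cc, kapY_nil c wh mm isSC_mm, h0]; simp
      | cons j v =>
        have := vec_Yop_noise c wh i j v
        rw [hy, this, mul_zero]
    have b5 : ‖y i‖ ^ 2 = 1 := by
      have h2 := inner_self_eq_norm_sq_to_K (𝕜 := ℂ) (y i)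
      have h3 : ⟪y i, y i⟫_ℂ = 1 := by
        rw [hy, ← tau_star_mul, (hsa i).star_eq]
        have := tau_Yword' c wh [i, i]
        rw [h1] at this
        simpa using this
      rw [h3] at h2
      have h4 : ((‖y i‖ ^ 2 : ℝ) : ℂ) = ((1 : ℝ) : ℂ) := by
        rw [Complex.ofReal_pow, Complex.ofReal_one]
        exact h2.symm
      exact Complex.ofReal_injective h4
    have b6 : ‖ζ i‖ ^ 2 ≤ 1 := by
      rw [hζ, norm_TT, norm_aa]
      exact (hs i).2
    have b7 : ‖y i - ζ i‖ ^ 2 = ‖y i‖ ^ 2 + ‖ζ i‖ ^ 2 := by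
      rw [@norm_sub_sq ℂ]
      have : RCLike.re ⟪y i, ζ i⟫_ℂ = 0 := by
        rw [← inner_conj_symm, b4]; simp
      rw [this]; ring
    have b8 : ‖(ν i : ℂ) • e0 i + (((1 / 2 : ℝ)) : ℂ) • (y i - ζ i)‖ ^ 2 ≤ vv i - 1 / 2 := by
      rw [@norm_add_sq ℂ, norm_smul, norm_smul, b1, inner_smul_left, inner_smul_right,
        inner_sub_right, b2, b3, mul_pow, mul_pow, b7, b5]
      have e1 : RCLike.re ((starRingEnd ℂ) (ν i : ℂ) *
          ((((1 / 2 : ℝ)) : ℂ) * (0 - (((ν i)⁻¹ : ℝ) : ℂ)))) = -(1 / 2) := by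
        rw [Complex.conj_ofReal, zero_sub, ← Complex.ofReal_neg, ← Complex.ofReal_mul,
          ← Complex.ofReal_mul]
        change ((ν i * (1 / 2 * -(ν i)⁻¹) : ℝ) : ℂ).re = _
        rw [Complex.ofReal_re]
        have := hν0 i
        field_simp
      rw [e1, Complex.norm_real, Complex.norm_real, Real.norm_eq_abs, Real.norm_eq_abs, sq_abs,
        sq_abs, hν2]
      nlinarith
    rw [hξ, norm_smul, mul_pow, Complex.norm_real, Real.norm_eq_abs, sq_abs]
    have hv := hvv i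
    calc (vv i)⁻¹ ^ 2 * ‖(ν i : ℂ) • e0 i + (((1 / 2 : ℝ)) : ℂ) • (y i - ζ i)‖ ^ 2
        ≤ (vv i)⁻¹ ^ 2 * (vv i - 1 / 2) := mul_le_mul_of_nonneg_left b8 (by positivity)
      _ = 1 / vv i - 1 / (2 * vv i ^ 2) := by field_simp
  refine (ChiStar.freeFisher_le tau vecL (fun a b => tau_star_mul a b) (Zop c wh ν) hZsa ξ
    hrep).trans ?_
  exact ENNReal.ofReal_le_ofReal (Finset.sum_le_sum fun i _ => hnorm i)

end block

section cubic

open Crest.Agent.R089.Model

/-- coefficients of the hidden polynomials -/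
noncomputable def c0 (r : ℕ) : Idx r → Bool → ℝ
  | Sum.inl _, b => if b then 0 else 1
  | Sum.inr _, _ => (Real.sqrt 2)⁻¹

/-- words of the hidden polynomials -/
noncomputable def w0 (r : ℕ) : Idx r → Bool → List (Fin (kk r))
  | Sum.inl h, _ => [eh r h]
  | Sum.inr (a, b, c), t => if t then [eh r (2, c), eh r (1, b), eh r (0, a)]
      else [eh r (0, a), eh r (1, b), eh r (2, c)]

noncomputable def cN (r : ℕ) (i : Fin (nn r)) : Bool → ℝ := c0 r ((ei r).symm i)

noncomputable def wN (r : ℕ) (i : Fin (nn r)) : Bool → List (Fin (kk r)) := w0 r ((ei r).symm i)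

theorem cN_nonneg (r : ℕ) (i : Fin (nn r)) (e : Bool) : 0 ≤ cN r i e := by
  unfold cN
  rcases (ei r).symm i with h | abc
  · simp only [c0]; split_ifs <;> norm_num
  · simp only [c0]; positivity

theorem Yop_eq (r : ℕ) (i : Fin (nn r)) :
    Yop (cN r) (wN r) i =
      polyEval (fun j => s (Sum.inl j : Fin (kk r) ⊕ Fin (nn r))) (QQ r i) := by
  unfold Yop cN wN QQ
  rcases (ei r).symm i with h | ⟨a, b, c⟩
  · simp [c0, w0, Qi, sWord]
  · simp only [c0, w0, Qi, cubic, Fintype.sum_bool]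
    rw [polyEval_smul, polyEval_add, polyEval_single, polyEval_single, one_smul, one_smul,
      wordEval_mul, wordEval_mul, wordEval_mul, wordEval_mul, wordEval_of, wordEval_of,
      wordEval_of, smul_add, add_comm]
    simp only [if_true, if_false, Bool.false_eq_true, List.map_cons, List.map_nil, sWord_cons,
      mul_assoc]
    have h1 : (sWord [] : Alg (Fin (kk r) ⊕ Fin (nn r))) = 1 := rfl
    rw [h1, mul_one, mul_one]

theorem isSelfAdjoint_Yop (r : ℕ) (i : Fin (nn r)) :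
    IsSelfAdjoint (Yop (cN r) (wN r) i : Alg (Fin (kk r) ⊕ Fin (nn r))) := by
  unfold Yop cN wN
  rcases (ei r).symm i with h | ⟨a, b, c⟩
  · simp [c0, w0, sWord, isSelfAdjoint_s]
  · simp only [c0, w0, Fintype.sum_bool]
    rw [IsSelfAdjoint, star_add, star_smul, star_smul, star_sWord, star_sWord, add_comm]
    simp only [if_true, if_false, Bool.false_eq_true, List.map_cons, List.map_nil,
      List.reverse_cons, List.reverse_nil, List.nil_append, List.cons_append,
      Complex.star_def, Complex.conj_ofReal]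

theorem mm_eq_mom {k n : ℕ} : (mm : List (Fin k ⊕ Fin n) → ℝ) = mom := by
  funext u
  have h := tau_sWord u
  rw [tau_eq_vec, vec_sWord_apply] at h
  exact_mod_cast h

theorem mH_mm {k n : ℕ} : mH (mm : List (Fin k ⊕ Fin n) → ℝ) = Fn.phiFn := by
  refine Fn.isSD_eq_phiFn ?_
  rw [mm_eq_mom]
  exact IsSD.comap isSD_mom Sum.inl Sum.inl_injective

theorem Yfn_eq (r : ℕ) (i : Fin (nn r)) :
    Fn.Yfn (eh r) ((ei r).symm i) = ∑ e, cN r i e • Fn.sWord (wN r i e) := by
  unfold cN wN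
  rcases (ei r).symm i with h | ⟨a, b, c⟩
  · simp [c0, w0, Fn.Yfn, Fn.sWord]
  · simp only [c0, w0, Fn.Yfn, Fintype.sum_bool]
    simp [Fn.sWord, mul_assoc, smul_add, add_comm]

theorem tau2_fn (r : ℕ) (x : List (Fin (kk r))) (U : List (Fin (nn r))) :
    tau2 Fn.phiFn (cN r) (wN r) x U =
      (Fn.sWord x * ((U.map (ei r).symm).map (Fn.Yfn (eh r))).prod) Fn.del [] := by
  induction U generalizing x with
  | nil => rw [tau2_nil]; simp [Fn.phiFn]
  | cons i U ih =>
    rw [tau2_cons, List.map_cons, List.map_cons, List.prod_cons, ← mul_assoc, Yfn_eq,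
      Finset.mul_sum, Finset.sum_mul, LinearMap.sum_apply, Finset.sum_apply]
    refine Finset.sum_congr rfl fun e _ => ?_
    rw [ih, mul_smul_comm, smul_mul_assoc, ← Fn.sWord_append]
    rfl

theorem mY_eq (r : ℕ) (U : List (Fin (nn r))) :
    mY (cN r) (wN r) (mm (k := kk r) (n := nn r)) U = Fn.mY (eh r) (U.map (ei r).symm) := by
  rw [mY, mH_mm, tau2_fn, Fn.sWord_nil, one_mul]
  rfl

theorem mY_H4 (r : ℕ) (hr : 0 < r) (i : Fin (nn r)) (k : ℕ) :
    ∑ u : Fin k → Fin (nn r), mY (cN r) (wN r) (mm (k := kk r) (n := nn r))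
      (i :: List.ofFn u) ≤ 1 * Fn.GG r ^ k := by
  rw [one_mul]
  refine le_trans (le_of_eq ?_) (Fn.H4' (eh r) (eh r).injective hr ((ei r).symm i) k)
  rw [← (Equiv.arrowCongr (Equiv.refl (Fin k)) (ei r).symm).sum_comp]
  refine Finset.sum_congr rfl fun u _ => ?_
  rw [mY_eq, List.map_cons, List.map_ofFn]
  rfl

theorem fisher_large_reduced (r : ℕ) (hr : 0 < r) (vv : Fin (nn r) → ℝ) (t : ℝ)
    (ht : 4056 * Real.sqrt r ^ 3 ≤ t) (hv : ∀ j, t ≤ vv j) :
    freeFisher tau (Zop (cN r) (wN r) fun j => Real.sqrt (vv j)) ≤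
      ENNReal.ofReal (∑ i, (1 / vv i - 1 / (2 * vv i ^ 2))) := by
  have hs := Fn.one_le_sqrt hr
  have ht0 : 0 < t := lt_of_lt_of_le (by positivity) ht
  have hG := Fn.GG_pos hr
  refine fisher_block (cN r) (wN r) _ (isSelfAdjoint_Yop r) vv (fun j => ht0.trans_le (hv j))
    (fun _ => rfl) (fun j => ?_) (fun j => ?_) (fun i => ?_)
  · rw [mY_eq]
    exact Fn.hcent _ _
  · rw [mY_eq]
    exact Fn.mY_pair _ (eh r).injective _
  · refine xi_summable (cN r) (wN r) mm isSC_mm (cN_nonneg r) (fun j => ?_) (t := t)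
      (Lc := 12) (C := 1) (G := Fn.GG r) ht0 hv (by norm_num) (by norm_num) hG.le (fun u => ?_)
      (fun i k => mY_H4 r hr i k) ?_ i
    · rw [mY_eq]
      exact Fn.hcent _ _
    · rw [mY_eq]
      have := Fn.H1 (eh r) (u.map (ei r).symm)
      rw [List.length_map] at this
      exact (le_abs_self _).trans this
    · unfold Fn.GG
      linarith

/-- **(T5) large-noise Fisher bound.** -/
theorem fisher_le_large : ∃ K0 : ℝ, 0 ≤ K0 ∧ ∀ (r : ℕ) (_ : 0 < r) (d : ℝ) (_ : 0 < d)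
    (A : Type) (_ : CStarAlgebra A)
    (τ : A →ₗ[ℂ] ℂ) (s : Jx r → A) (φ : List (Jx r) → ℝ) (_ : IsModel τ s φ)
    (t : ℝ) (_ : K0 * (r : ℝ) ^ (3 / 2 : ℝ) < t),
    freeFisher τ (heatTuple (XX r d s) (SS r s) t) ≤
      ENNReal.ofReal (∑ i, (1 / (delt r d i + t) - 1 / (2 * (delt r d i + t) ^ 2))) := by
  refine ⟨4056, by norm_num, ?_⟩
  intro r hr d hd A _ τ sA φ hmod t ht
  have hr32 : (r : ℝ) ^ (3 / 2 : ℝ) = Real.sqrt r ^ 3 := by
    rw [Real.sqrt_eq_rpow, ← Real.rpow_natCast, ← Real.rpow_mul (Nat.cast_nonneg r)]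
    norm_num
  rw [hr32] at ht
  have hs := Fn.one_le_sqrt hr
  have ht0 : 0 < t := lt_of_le_of_lt (by positivity) ht
  have hdelt : ∀ i, 0 < delt r d i := by
    intro i
    unfold delt
    split
    · exact hd
    · norm_num
  -- reindexing of the letters
  let f : Fin (kk r) ⊕ Fin (nn r) ⊕ Fin (nn r) → Jx r :=
    Sum.elim (fun j => Sum.inl (Sum.inl j)) (Sum.elim (fun j => Sum.inl (Sum.inr j))
      (fun j => Sum.inr j))
  have hf : Function.Injective f := by
    rintro (a | a | a) (b | b | b) hab <;> simp [f] at hab ⊢ <;> exact hab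
  have hτ : ∀ w : List (Fin (kk r) ⊕ Fin (nn r) ⊕ Fin (nn r)),
      τ ((w.map (Sum.elim (fun j => sA (Sum.inl (Sum.inl j)))
        (Sum.elim (fun j => sA (Sum.inl (Sum.inr j))) (SS r sA)))).prod) =
        ((φ (w.map f) : ℝ) : ℂ) := by
    intro w
    rw [← hmod.mom, List.map_map]
    congr 3
    funext x
    rcases x with x | x | x <;> rfl
  have hred := freeFisher_heatTuple (k := kk r) (n := nn r) τ
    (fun j => sA (Sum.inl (Sum.inl j))) (fun j => sA (Sum.inl (Sum.inr j))) (SS r sA)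
    (IsSD.comap hmod.sd f hf) hτ (QQ r) (delt r d) hdelt t ht0.le
    (tau : Alg (Fin (kk r) ⊕ Fin (nn r)) →ₗ[ℂ] ℂ)
    (fun j => Fock.s (Sum.inl j)) (fun j => Fock.s (Sum.inr j)) isSD_mom (fun w => by
      rw [← tau_sWord]
      congr 3
      funext x
      rcases x with x | x <;> rfl)
  have hZ : (fun i => polyEval (fun j => (Fock.s (Sum.inl j) : Alg (Fin (kk r) ⊕ Fin (nn r))))
      (QQ r i) + (Real.sqrt (delt r d i + t) : ℂ) • Fock.s (Sum.inr i)) =
      Zop (cN r) (wN r) fun j => Real.sqrt (delt r d j + t) := by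
    funext i
    rw [Zop, Yop_eq]
  rw [hZ] at hred
  have hmain := fisher_large_reduced r hr (fun i => delt r d i + t) t ht.le
    (fun j => by have := (hdelt j).le; linarith)
  exact (le_of_eq hred).trans hmain

end cubic

end Crest.Agent.R089.FL
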