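import Crest.Agent.R089.GUEDefs

set_option autoImplicit false
set_option linter.unusedSectionVars false

/-!
R089 (S0118), function-level Fock model (helper459).

`J` = set of letters.  All real functions on `List J`; `ann j`, `cre j`, `sOp j = ann j + cre j`.
`phiFn w = (s_{w_1} ⋯ s_{w_k} δ_[]) []` is the semicircular law.
-/

namespace Crest.Agent.R089.Fn

open Crest.Agent.R089

section defs
variable {J : Type*} [DecidableEq J]

/-- annihilation operator at the level of functions. -/
def ann (j : J) : Module.End ℝ (List J → ℝ) where
  toFun f z := f (j :: z)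
  map_add' _ _ := rfl
  map_smul' _ _ := rfl

/-- creation operator at the level of functions. -/
def cre (j : J) : Module.End ℝ (List J → ℝ) where
  toFun f z := match z with
    | [] => 0
    | a :: z' => if a = j then f z' else 0
  map_add' f g := by
    funext z
    cases z with
    | nil => simp
    | cons a z =>
      by_cases h : a = j <;> simp [h]
  map_smul' c f := by
    funext z
    cases z with
    | nil => simp
    | cons a z =>
      by_cases h : a = j <;> simp [h]

/-- the field operator `s_j = l_j^* + l_j`. -/
def sOp (j : J) : Module.End ℝ (List J → ℝ) := ann j + cre j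

/-- the vacuum function. -/
def del : List J → ℝ := fun z => match z with
  | [] => 1
  | _ :: _ => 0

@[simp] theorem ann_apply (j : J) (f : List J → ℝ) (z : List J) : ann j f z = f (j :: z) := rfl
@[simp] theorem cre_nil (j : J) (f : List J → ℝ) : cre j f [] = 0 := rfl
@[simp] theorem cre_cons (j a : J) (f : List J → ℝ) (z : List J) :
    cre j f (a :: z) = if a = j then f z else 0 := rfl
theorem sOp_apply (j : J) (f : List J → ℝ) (z : List J) : sOp j f z = f (j :: z) + cre j f z := rfl
@[simp] theorem sOp_nil (j : J) (f : List J → ℝ) : sOp j f [] = f [j] := by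
  rw [sOp_apply]; simp
@[simp] theorem sOp_cons (j a : J) (f : List J → ℝ) (z : List J) :
    sOp j f (a :: z) = f (j :: a :: z) + if a = j then f z else 0 := rfl
omit [DecidableEq J] in
@[simp] theorem del_nil : (del : List J → ℝ) [] = 1 := rfl
omit [DecidableEq J] in
@[simp] theorem del_cons (a : J) (z : List J) : (del : List J → ℝ) (a :: z) = 0 := rfl

/-- `s_w = s_{w_1} ⋯ s_{w_k}`. -/
def sWord (w : List J) : Module.End ℝ (List J → ℝ) := (w.map sOp).prod

@[simp] theorem sWord_nil : sWord ([] : List J) = 1 := rfl
@[simp] theorem sWord_cons (j : J) (w : List J) : sWord (j :: w) = sOp j * sWord w := by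
  simp [sWord]
theorem sWord_append (u w : List J) : sWord (u ++ w) = sWord u * sWord w := by
  simp [sWord]

/-- the semicircular law. -/
def phiFn (w : List J) : ℝ := sWord w del []

theorem sWord_split (w : List J) : ∀ (x : List J) (j : J),
    sWord w del (x ++ [j]) = ∑ k ∈ Finset.range w.length,
      if w[k]? = some j then sWord (w.take k) del x * phiFn (w.drop (k + 1)) else 0 := by
  induction w with
  | nil => intro x j; cases x <;> simp
  | cons g w ih =>
    intro x j
    rw [List.length_cons, Finset.sum_range_succ']
    simp only [List.getElem?_cons_succ, List.take_succ_cons, List.drop_succ_cons,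
      List.getElem?_cons_zero, List.take_zero, List.drop_zero]
    rw [sWord_cons]
    show sOp g (sWord w del) (x ++ [j]) = _
    cases x with
    | nil =>
      rw [List.nil_append, sOp_cons]
      have h1 := ih [g] j
      rw [List.singleton_append] at h1
      rw [h1]
      congr 1
      · refine Finset.sum_congr rfl fun k _ => ?_
        split_ifs with h
        · rw [sWord_cons]
          show _ = (sOp g (sWord (w.take k) del)) [] * _
          rw [sOp_nil]
        · rfl
      · by_cases h : j = g
        · subst h; simp [phiFn]
        · have h' : ¬ (some g = some j) := fun h2 => h (Option.some.inj h2).symm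
          simp [h, h']
    | cons a x =>
      rw [List.cons_append, sOp_cons]
      have h1 := ih (g :: a :: x) j
      simp only [List.cons_append] at h1
      rw [h1]
      have h2 := ih x j
      rw [h2]
      have h3 : (if some g = some j then sWord ([] : List J) del (a :: x) * phiFn w else 0) = 0 := by
        simp
      rw [h3, add_zero]
      by_cases ha : a = g
      · subst ha
        rw [if_pos rfl, ← Finset.sum_add_distrib]
        refine Finset.sum_congr rfl fun k _ => ?_
        split_ifs with h
        · rw [sWord_cons]
          show _ = (sOp a (sWord (w.take k) del)) (a :: x) * _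
          rw [sOp_cons, if_pos rfl]
          ring
        · simp
      · rw [if_neg ha, add_zero]
        refine Finset.sum_congr rfl fun k _ => ?_
        split_ifs with h
        · rw [sWord_cons]
          show _ = (sOp g (sWord (w.take k) del)) (a :: x) * _
          rw [sOp_cons, if_neg ha, add_zero]
        · rfl

theorem isSD_phiFn : IsSD (phiFn : List J → ℝ) where
  nil := rfl
  cons j w := by
    have := sWord_split w [] j
    rw [List.nil_append] at this
    show sWord (j :: w) del [] = _
    rw [sWord_cons]
    show sOp j (sWord w del) [] = _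
    rw [sOp_nil, this]
    rfl

theorem isSD_unique {φ ψ : List J → ℝ} (hφ : IsSD φ) (hψ : IsSD ψ) : φ = ψ := by
  funext w
  induction hn : w.length using Nat.strong_induction_on generalizing w with
  | _ n ih =>
    cases w with
    | nil => rw [hφ.nil, hψ.nil]
    | cons j w =>
      rw [hφ.cons, hψ.cons]
      refine Finset.sum_congr rfl fun k hk => ?_
      rw [Finset.mem_range] at hk
      rw [List.length_cons] at hn
      split_ifs with h
      · rw [ih (w.take k).length (by rw [List.length_take]; omega) (w.take k) rfl,
          ih (w.drop (k+1)).length (by rw [List.length_drop]; omega) (w.drop (k+1)) rfl]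
      · rfl

theorem isSD_eq_phiFn {φ : List J → ℝ} (hφ : IsSD φ) : φ = phiFn := isSD_unique hφ isSD_phiFn

end defs

section positivity
variable {J : Type*} [DecidableEq J]

theorem sOp_nonneg (j : J) (f : List J → ℝ) (hf : 0 ≤ f) : 0 ≤ sOp j f := by
  intro z
  cases z with
  | nil => rw [sOp_nil]; exact hf [j]
  | cons a z =>
    rw [sOp_cons]
    have h1 := hf (j :: a :: z)
    have h2 := hf z
    simp only [Pi.zero_apply] at *
    split_ifs <;> linarith

/-- positivity preserving operators. -/
def PosOp (T : Module.End ℝ (List J → ℝ)) : Prop := ∀ f : List J → ℝ, 0 ≤ f → 0 ≤ T f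

omit [DecidableEq J] in
theorem PosOp.mono {T : Module.End ℝ (List J → ℝ)} (hT : PosOp T) {f g : List J → ℝ} (h : f ≤ g) :
    T f ≤ T g := by
  have h1 := hT (g - f) (sub_nonneg.mpr h)
  rw [map_sub] at h1
  exact sub_nonneg.mp h1

omit [DecidableEq J] in
theorem PosOp.mul {S T : Module.End ℝ (List J → ℝ)} (hS : PosOp S) (hT : PosOp T) :
    PosOp (S * T) := fun f hf => hS _ (hT f hf)

omit [DecidableEq J] in
theorem PosOp.add {S T : Module.End ℝ (List J → ℝ)} (hS : PosOp S) (hT : PosOp T) :
    PosOp (S + T) := fun f hf => add_nonneg (hS f hf) (hT f hf)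

omit [DecidableEq J] in
theorem PosOp.smul {T : Module.End ℝ (List J → ℝ)} {c : ℝ} (hc : 0 ≤ c) (hT : PosOp T) :
    PosOp (c • T) := fun f hf => smul_nonneg hc (hT f hf)

omit [DecidableEq J] in
theorem PosOp.one : PosOp (1 : Module.End ℝ (List J → ℝ)) := fun _ hf => hf

omit [DecidableEq J] in
theorem PosOp.zero : PosOp (0 : Module.End ℝ (List J → ℝ)) := fun _ _ => le_refl _

omit [DecidableEq J] in
theorem PosOp.sum {ι : Type*} (s : Finset ι) (T : ι → Module.End ℝ (List J → ℝ))
    (h : ∀ i ∈ s, PosOp (T i)) : PosOp (∑ i ∈ s, T i) := by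
  classical
  induction s using Finset.induction_on with
  | empty => simpa using PosOp.zero
  | insert a s ha ih =>
    rw [Finset.sum_insert ha]
    exact (h a (Finset.mem_insert_self _ _)).add (ih fun i hi => h i (Finset.mem_insert_of_mem hi))

omit [DecidableEq J] in
theorem PosOp.pow {T : Module.End ℝ (List J → ℝ)} (hT : PosOp T) (k : ℕ) : PosOp (T ^ k) := by
  induction k with
  | zero => simpa using PosOp.one
  | succ k ih => rw [pow_succ]; exact ih.mul hT

omit [DecidableEq J] in
theorem PosOp.listProd (l : List (Module.End ℝ (List J → ℝ))) (h : ∀ T ∈ l, PosOp T) :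
    PosOp l.prod := by
  induction l with
  | nil => simpa using PosOp.one
  | cons T l ih =>
    rw [List.prod_cons]
    exact (h T (by simp)).mul (ih fun S hS => h S (by simp [hS]))

theorem posOp_sOp (j : J) : PosOp (sOp j) := sOp_nonneg j

omit [DecidableEq J] in
theorem del_nonneg : (0 : List J → ℝ) ≤ del := by
  intro z; cases z <;> simp

/-- Domination of shifted functions. -/
def Dom (z : List J) (c : ℝ) (F G : List J → ℝ) : Prop := ∀ x, c * G x ≤ F (x ++ z)

/-- operators preserving `Dom z c` for all `z`, `c ≥ 0` (and positivity). -/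
def DomOp (T : Module.End ℝ (List J → ℝ)) : Prop :=
  PosOp T ∧ ∀ (z : List J) (c : ℝ) (F G : List J → ℝ), 0 ≤ c → 0 ≤ F → Dom z c F G →
    Dom z c (T F) (T G)

theorem domOp_sOp (j : J) : DomOp (sOp j) := by
  refine ⟨posOp_sOp j, fun z c F G hc hF h x => ?_⟩
  cases x with
  | nil =>
    rw [sOp_nil, List.nil_append, sOp_apply]
    have h1 := h [j]
    rw [List.singleton_append] at h1
    have h2 : 0 ≤ cre j F z := by
      cases z with
      | nil => simp
      | cons a z => rw [cre_cons]; split_ifs; exacts [hF _, le_refl _]
    linarith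
  | cons a x =>
    rw [sOp_cons, List.cons_append, sOp_cons]
    have h1 := h (j :: a :: x)
    have h2 := h x
    simp only [List.cons_append] at h1
    split_ifs
    · rw [mul_add]; exact add_le_add h1 h2
    · rw [add_zero, add_zero]; exact h1

omit [DecidableEq J] in
theorem DomOp.mul {S T : Module.End ℝ (List J → ℝ)} (hS : DomOp S) (hT : DomOp T) :
    DomOp (S * T) :=
  ⟨hS.1.mul hT.1, fun z c F G hc hF h => hS.2 z c _ _ hc (hT.1 F hF) (hT.2 z c F G hc hF h)⟩

omit [DecidableEq J] in
theorem DomOp.add {S T : Module.End ℝ (List J → ℝ)} (hS : DomOp S) (hT : DomOp T) :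
    DomOp (S + T) :=
  ⟨hS.1.add hT.1, fun z c F G hc hF h x => by
    have h1 := hS.2 z c F G hc hF h x
    have h2 := hT.2 z c F G hc hF h x
    show c * (S G x + T G x) ≤ S F (x ++ z) + T F (x ++ z)
    rw [mul_add]; exact add_le_add h1 h2⟩

omit [DecidableEq J] in
theorem DomOp.smul {T : Module.End ℝ (List J → ℝ)} {a : ℝ} (ha : 0 ≤ a) (hT : DomOp T) :
    DomOp (a • T) :=
  ⟨hT.1.smul ha, fun z c F G hc hF h x => by
    have h2 := hT.2 z c F G hc hF h x
    show c * (a * T G x) ≤ a * T F (x ++ z)
    calc c * (a * T G x) = a * (c * T G x) := by ring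
      _ ≤ _ := mul_le_mul_of_nonneg_left h2 ha⟩

omit [DecidableEq J] in
theorem DomOp.one : DomOp (1 : Module.End ℝ (List J → ℝ)) :=
  ⟨PosOp.one, fun _ _ _ _ _ _ h => h⟩

omit [DecidableEq J] in
theorem DomOp.listProd (l : List (Module.End ℝ (List J → ℝ))) (h : ∀ T ∈ l, DomOp T) :
    DomOp l.prod := by
  induction l with
  | nil => simpa using DomOp.one
  | cons T l ih =>
    rw [List.prod_cons]
    exact (h T (by simp)).mul (ih fun S hS => h S (by simp [hS]))

omit [DecidableEq J] in
/-- insertion inequality: `(T f)(z) ≥ (T δ)([]) f(z)` for nonnegative `f`. -/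
theorem DomOp.insertion {T : Module.End ℝ (List J → ℝ)} (hT : DomOp T) (f : List J → ℝ)
    (hf : 0 ≤ f) : (T del []) • f ≤ T f := by
  intro z
  have h := hT.2 z (f z) f del (hf z) hf (fun x => by
    cases x with
    | nil => simp
    | cons a x => rw [del_cons, mul_zero]; exact hf _) []
  rw [List.nil_append] at h
  show T del [] * f z ≤ T f z
  rw [mul_comm]; exact h

end positivity

section symmetric
variable {J : Type*} [DecidableEq J]

/-- operators preserving finite support and symmetric there. -/
def SymPair (S T : Module.End ℝ (List J → ℝ)) : Prop :=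
  (∀ f : List J → ℝ, f.support.Finite → (S f).support.Finite) ∧
  (∀ f : List J → ℝ, f.support.Finite → (T f).support.Finite) ∧
  ∀ f g : List J → ℝ, f.support.Finite → g.support.Finite →
    ∑' z, S f z * g z = ∑' z, f z * T g z

theorem finite_support_ann (j : J) (f : List J → ℝ) (hf : f.support.Finite) :
    (ann j f).support.Finite := by
  have : (ann j f).support = (fun z => j :: z) ⁻¹' f.support := by
    ext z; simp [Function.mem_support]
  rw [this]
  exact hf.preimage (List.cons_injective.injOn)

theorem finite_support_cre (j : J) (f : List J → ℝ) (hf : f.support.Finite) :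
    (cre j f).support.Finite := by
  refine (hf.image (fun z => j :: z)).subset ?_
  intro z hz
  rw [Function.mem_support] at hz
  cases z with
  | nil => simp at hz
  | cons a z =>
    rw [cre_cons] at hz
    split_ifs at hz with h
    · subst h
      exact ⟨z, hz, rfl⟩
    · exact absurd rfl hz

theorem finite_support_sOp (j : J) (f : List J → ℝ) (hf : f.support.Finite) :
    (sOp j f).support.Finite := by
  refine ((finite_support_ann j f hf).union (finite_support_cre j f hf)).subset ?_
  exact Function.support_add _ _

theorem tsum_ann_mul (j : J) (f g : List J → ℝ) :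
    ∑' z, ann j f z * g z = ∑' z, f z * cre j g z := by
  have hinj : Function.Injective (fun z : List J => j :: z) := List.cons_injective
  have := hinj.tsum_eq (f := fun z => f z * cre j g z) (by
    intro z hz
    rw [Function.mem_support] at hz
    cases z with
    | nil => simp at hz
    | cons a z =>
      rw [cre_cons] at hz
      split_ifs at hz with h
      · subst h; exact ⟨z, rfl⟩
      · simp at hz)
  rw [← this]
  refine tsum_congr fun z => ?_
  simp

theorem tsum_cre_mul (j : J) (f g : List J → ℝ) :
    ∑' z, cre j f z * g z = ∑' z, f z * ann j g z := by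
  have := tsum_ann_mul j g f
  calc ∑' z, cre j f z * g z = ∑' z, g z * cre j f z := tsum_congr fun z => mul_comm _ _
    _ = ∑' z, ann j g z * f z := this.symm
    _ = _ := tsum_congr fun z => mul_comm _ _

omit [DecidableEq J] in
theorem summable_mul_of_finite (f g : List J → ℝ) (hf : f.support.Finite) :
    Summable fun z => f z * g z := by
  refine summable_of_hasFiniteSupport (hf.subset ?_)
  intro z hz
  rw [Function.mem_support] at hz ⊢
  exact left_ne_zero_of_mul hz

theorem symPair_sOp (j : J) : SymPair (sOp j) (sOp j) := by
  refine ⟨finite_support_sOp j, finite_support_sOp j, fun f g hf hg => ?_⟩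
  have h1 : ∀ z, sOp j f z * g z = ann j f z * g z + cre j f z * g z := by
    intro z; rw [← add_mul]; rfl
  have h2 : ∀ z, f z * sOp j g z = f z * cre j g z + f z * ann j g z := by
    intro z; rw [← mul_add, add_comm]; rfl
  rw [tsum_congr h1, tsum_congr h2,
    (summable_mul_of_finite _ _ (finite_support_ann j f hf)).tsum_add
      (summable_mul_of_finite _ _ (finite_support_cre j f hf)),
    (summable_mul_of_finite _ _ hf).tsum_add (summable_mul_of_finite _ _ hf),
    tsum_ann_mul, tsum_cre_mul]

omit [DecidableEq J] in
theorem SymPair.one : SymPair (1 : Module.End ℝ (List J → ℝ)) 1 :=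
  ⟨fun _ h => h, fun _ h => h, fun _ _ _ _ => rfl⟩

omit [DecidableEq J] in
theorem SymPair.mul {S S' T T' : Module.End ℝ (List J → ℝ)} (h : SymPair S S')
    (h' : SymPair T T') : SymPair (S * T) (T' * S') := by
  refine ⟨fun f hf => h.1 _ (h'.1 f hf), fun f hf => h'.2.1 _ (h.2.1 f hf), fun f g hf hg => ?_⟩
  have h1 := h.2.2 (T f) g (h'.1 f hf) hg
  have h2 := h'.2.2 f (S' g) hf (h.2.1 g hg)
  exact h1.trans h2

omit [DecidableEq J] in
theorem SymPair.add {S S' T T' : Module.End ℝ (List J → ℝ)} (h : SymPair S S')
    (h' : SymPair T T') : SymPair (S + T) (S' + T') := by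
  refine ⟨fun f hf => ((h.1 f hf).union (h'.1 f hf)).subset (Function.support_add _ _),
    fun f hf => ((h.2.1 f hf).union (h'.2.1 f hf)).subset (Function.support_add _ _),
    fun f g hf hg => ?_⟩
  have e1 : ∀ z, (S + T) f z * g z = S f z * g z + T f z * g z := by
    intro z; rw [← add_mul]; rfl
  have e2 : ∀ z, f z * (S' + T') g z = f z * S' g z + f z * T' g z := by
    intro z; rw [← mul_add]; rfl
  rw [tsum_congr e1, tsum_congr e2,
    (summable_mul_of_finite _ _ (h.1 f hf)).tsum_add (summable_mul_of_finite _ _ (h'.1 f hf)),
    (summable_mul_of_finite _ _ hf).tsum_add (summable_mul_of_finite _ _ hf),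
    h.2.2 f g hf hg, h'.2.2 f g hf hg]

omit [DecidableEq J] in
theorem SymPair.smul {S S' : Module.End ℝ (List J → ℝ)} (c : ℝ) (h : SymPair S S') :
    SymPair (c • S) (c • S') := by
  refine ⟨fun f hf => (h.1 f hf).subset (fun z hz => ?_),
    fun f hf => (h.2.1 f hf).subset (fun z hz => ?_), fun f g hf hg => ?_⟩
  · rw [Function.mem_support] at hz ⊢
    intro h0; apply hz
    show c * S f z = 0
    rw [h0, mul_zero]
  · rw [Function.mem_support] at hz ⊢
    intro h0; apply hz
    show c * S' f z = 0
    rw [h0, mul_zero]
  · have e1 : ∀ z, (c • S) f z * g z = c * (S f z * g z) := fun z => mul_assoc _ _ _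
    have e2 : ∀ z, f z * (c • S') g z = c * (f z * S' g z) := fun z => mul_left_comm _ _ _
    rw [tsum_congr e1, tsum_congr e2, tsum_mul_left, tsum_mul_left, h.2.2 f g hf hg]

omit [DecidableEq J] in
theorem SymPair.listProd {I : Type*} (Y : I → Module.End ℝ (List J → ℝ))
    (hY : ∀ i, SymPair (Y i) (Y i)) (w : List I) :
    SymPair (w.map Y).prod (w.reverse.map Y).prod := by
  induction w with
  | nil => simpa using SymPair.one
  | cons i w ih =>
    rw [List.map_cons, List.prod_cons, List.reverse_cons, List.map_append, List.prod_append,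
      List.map_cons, List.map_nil, List.prod_cons, List.prod_nil, mul_one]
    exact (hY i).mul ih

omit [DecidableEq J] in
theorem finite_support_del : (del : List J → ℝ).support.Finite := by
  refine (Set.finite_singleton ([] : List J)).subset ?_
  intro z hz
  cases z with
  | nil => simp
  | cons a z => simp at hz

omit [DecidableEq J] in
theorem tsum_mul_del (f : List J → ℝ) : ∑' z, f z * del z = f [] := by
  rw [tsum_eq_single []]
  · simp
  · intro z hz
    cases z with
    | nil => exact absurd rfl hz
    | cons a z => simp

omit [DecidableEq J] in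
theorem tsum_del_mul (f : List J → ℝ) : ∑' z, del z * f z = f [] := by
  rw [← tsum_mul_del f]
  exact tsum_congr fun z => mul_comm _ _

omit [DecidableEq J] in
theorem SymPair.vac {S T : Module.End ℝ (List J → ℝ)} (h : SymPair S T) :
    S del [] = T del [] := by
  have := h.2.2 del del finite_support_del finite_support_del
  rwa [tsum_mul_del, tsum_del_mul] at this

end symmetric

end Crest.Agent.R089.Fn
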