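import Mathlib
import Crest.Prelude.Def_CStarRep
import Crest.Prelude.Def_FreeEntropy

/-!
Full Fock space model of a free semicircular family: Hilbert space `H ι = ℓ²(List ι)`,
left/right creation operators, the commutant algebra `Alg ι` of the right field operators with its
vacuum state, which is a faithful tracial state.
-/

set_option autoImplicit false

open scoped InnerProductSpace ENNReal

namespace Crest.Agent.R089.Fock

/-- Full Fock space with orthonormal basis indexed by words in `ι`. -/
abbrev H (ι : Type) : Type := lp (fun _ : List ι => ℂ) 2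

variable {ι : Type} [DecidableEq ι]

/-- basis vector of a word -/
noncomputable def e (w : List ι) : H ι := lp.single 2 w (1 : ℂ)

theorem inner_e_left (w : List ι) (f : H ι) : ⟪e w, f⟫_ℂ = f w := by
  rw [e, lp.inner_single_left]
  simp

theorem inner_e_right (w : List ι) (f : H ι) : ⟪f, e w⟫_ℂ = starRingEnd ℂ (f w) := by
  rw [← inner_conj_symm, inner_e_left]

theorem e_apply (v w : List ι) : (e v : H ι) w = if v = w then 1 else 0 := by
  rw [e, lp.single_apply]
  by_cases h : v = w
  · subst h; simp
  · rw [if_neg h, Pi.single_eq_of_ne (Ne.symm h)]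

theorem norm_e (w : List ι) : ‖(e w : H ι)‖ = 1 := by
  rw [e, lp.norm_single (by norm_num)]
  simp

theorem orthonormal_e : Orthonormal ℂ (e : List ι → H ι) := by
  rw [orthonormal_iff_ite]
  intro i j
  rw [inner_e_left, e_apply]
  by_cases h : j = i
  · subst h; simp
  · rw [if_neg h, if_neg (fun h' => h h'.symm)]

theorem ext_inner_e {f g : H ι} (h : ∀ w, ⟪e w, f⟫_ℂ = ⟪e w, g⟫_ℂ) : f = g := by
  apply lp.ext
  funext w
  have := h w
  rwa [inner_e_left, inner_e_left] at this

/-- Two bounded operators agreeing on all basis vectors are equal. -/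
theorem ext_e {A B : H ι →L[ℂ] H ι} (h : ∀ w, A (e w) = B (e w)) : A = B := by
  apply lp.ext_continuousLinearMap (by norm_num)
  intro w
  ext1
  simpa [e] using h w

/-- isometry induced by an injective map on words -/
noncomputable def push (φ : List ι → List ι) (hφ : Function.Injective φ) : H ι →L[ℂ] H ι :=
  ((orthonormal_e.comp φ hφ).orthogonalFamily).linearIsometry.toContinuousLinearMap

theorem push_e (φ : List ι → List ι) (hφ : Function.Injective φ) (w : List ι) :
    push φ hφ (e w) = e (φ w) := by
  have := ((orthonormal_e.comp φ hφ).orthogonalFamily).linearIsometry_apply_single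
    (i := w) (1 : ℂ)
  rw [push, e]
  simpa using this

open ContinuousLinearMap in
theorem adj_push_apply (φ : List ι → List ι) (hφ : Function.Injective φ) (f : H ι) (w : List ι) :
    (adjoint (push φ hφ) f) w = f (φ w) := by
  rw [← inner_e_left, adjoint_inner_right, push_e, inner_e_left]

/-- left creation operator -/
noncomputable def l (g : ι) : H ι →L[ℂ] H ι := push (fun w => g :: w) (List.cons_injective)

/-- right creation operator -/
noncomputable def r (g : ι) : H ι →L[ℂ] H ι :=
  push (fun w => w ++ [g]) (List.append_left_injective [g])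

theorem l_e (g : ι) (w : List ι) : l g (e w) = e (g :: w) := push_e _ _ _

theorem r_e (g : ι) (w : List ι) : r g (e w) = e (w ++ [g]) := push_e _ _ _

theorem star_l_apply (g : ι) (f : H ι) (w : List ι) : (star (l g) f) w = f (g :: w) :=
  adj_push_apply _ _ _ _

theorem star_r_apply (g : ι) (f : H ι) (w : List ι) : (star (r g) f) w = f (w ++ [g]) :=
  adj_push_apply _ _ _ _

theorem star_l_nil (g : ι) : star (l g) (e ([] : List ι)) = 0 := by
  apply lp.ext; funext w
  rw [star_l_apply, e_apply]
  simp

theorem star_l_cons (g h : ι) (v : List ι) :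
    star (l g) (e (h :: v)) = if g = h then e v else 0 := by
  apply lp.ext; funext w
  rw [star_l_apply, e_apply]
  by_cases hg : g = h
  · subst hg
    simp [e_apply]
  · rw [if_neg hg, if_neg]
    · simp
    · intro h'
      exact hg (List.cons.inj h').1.symm

theorem star_r_nil (g : ι) : star (r g) (e ([] : List ι)) = 0 := by
  apply lp.ext; funext w
  rw [star_r_apply, e_apply]
  simp

theorem star_r_concat (g h : ι) (v : List ι) :
    star (r g) (e (v ++ [h])) = if g = h then e v else 0 := by
  apply lp.ext; funext w
  rw [star_r_apply, e_apply]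
  by_cases hg : g = h
  · subst hg
    simp [e_apply]
  · rw [if_neg hg, if_neg]
    · simp
    · intro h'
      have := List.append_inj_right' h' (by simp)
      exact hg (by simpa using this.symm)

/-- vacuum -/
noncomputable def Om : H ι := e []

/-- The rank-one projection onto the vacuum. -/
noncomputable def vac : H ι →L[ℂ] H ι := (innerSL ℂ (Om : H ι)).smulRight (Om : H ι)

theorem vac_apply (f : H ι) : vac f = ⟪(Om : H ι), f⟫_ℂ • (Om : H ι) := rfl

theorem vac_e (w : List ι) : vac (e w : H ι) = if w = [] then Om else 0 := by
  rw [vac_apply, Om, inner_e_left, e_apply]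
  by_cases h : w = []
  · subst h; simp
  · rw [if_neg h, if_neg h, zero_smul]

/-- left field operator (semicircular) -/
noncomputable def sOp (g : ι) : H ι →L[ℂ] H ι := l g + star (l g)

/-- right field operator -/
noncomputable def tOp (g : ι) : H ι →L[ℂ] H ι := r g + star (r g)

theorem star_sOp (g : ι) : star (sOp g) = (sOp g : H ι →L[ℂ] H ι) := by
  rw [sOp, star_add, star_star, add_comm]

theorem star_tOp (g : ι) : star (tOp g) = (tOp g : H ι →L[ℂ] H ι) := by
  rw [tOp, star_add, star_star, add_comm]

theorem star_r_mul_r (g h : ι) : star (r g) * r h = if g = h then (1 : H ι →L[ℂ] H ι) else 0 := by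
  apply ext_e
  intro w
  rw [mul_apply_eq_comp, r_e, star_r_concat]
  by_cases hg : g = h
  · simp [hg]
  · simp [hg]

theorem star_l_mul_l (g h : ι) : star (l g) * l h = if g = h then (1 : H ι →L[ℂ] H ι) else 0 := by
  apply ext_e
  intro w
  rw [mul_apply_eq_comp, l_e, star_l_cons]
  by_cases hg : g = h
  · simp [hg]
  · simp [hg]

theorem l_mul_r (g h : ι) : (l g * r h : H ι →L[ℂ] H ι) = r h * l g := by
  apply ext_e
  intro w
  simp [mul_apply_eq_comp, r_e, l_e]

theorem star_r_mul_l (g h : ι) :
    (star (r h) * l g : H ι →L[ℂ] H ι) = l g * star (r h) + if g = h then vac else 0 := by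
  apply ext_e
  intro w
  rcases List.eq_nil_or_concat w with rfl | ⟨v, k, rfl⟩
  · rw [mul_apply_eq_comp, add_apply,
      mul_apply_eq_comp, l_e, star_r_nil, map_zero, zero_add]
    have := star_r_concat h g ([] : List ι)
    rw [List.nil_append] at this
    rw [this]
    by_cases hg : g = h
    · subst hg
      rw [if_pos rfl, if_pos rfl, vac_e, if_pos rfl, Om]
    · rw [if_neg hg, if_neg (fun h' => hg h'.symm)]
      simp
  · simp only [List.concat_eq_append]
    rw [mul_apply_eq_comp, add_apply,
      mul_apply_eq_comp, l_e, ← List.cons_append, star_r_concat, star_r_concat]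
    have h0 : (if g = h then (vac : H ι →L[ℂ] H ι) else 0) (e (v ++ [k])) = 0 := by
      by_cases hg : g = h
      · rw [if_pos hg, vac_e, if_neg (by simp)]
      · rw [if_neg hg]; simp
    rw [h0, add_zero]
    by_cases hk : h = k
    · rw [if_pos hk, if_pos hk, l_e]
    · rw [if_neg hk, if_neg hk, map_zero]

theorem star_vac : star (vac : H ι →L[ℂ] H ι) = vac := by
  rw [ContinuousLinearMap.star_eq_adjoint]
  apply ContinuousLinearMap.ext
  intro f
  apply ext_inner_left ℂ
  intro g
  rw [ContinuousLinearMap.adjoint_inner_right, vac_apply, vac_apply, inner_smul_left,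
    inner_smul_right, inner_conj_symm]
  ring

theorem star_l_mul_r (g h : ι) :
    (star (l g) * r h : H ι →L[ℂ] H ι) = r h * star (l g) + if g = h then vac else 0 := by
  have := congrArg star (star_r_mul_l (ι := ι) g h)
  rw [star_mul, star_star, star_add, star_mul, star_star] at this
  rw [this]
  congr 1
  by_cases hg : g = h
  · simp [hg, star_vac]
  · simp [hg]

theorem star_r_mul_sOp (g h : ι) :
    (star (r h) * sOp g : H ι →L[ℂ] H ι) = sOp g * star (r h) + if g = h then vac else 0 := by
  have h1 : (star (r h) * star (l g) : H ι →L[ℂ] H ι) = star (l g) * star (r h) := by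
    rw [← star_mul, ← star_mul, l_mul_r]
  rw [sOp, mul_add, add_mul, star_r_mul_l, h1]
  abel

theorem r_mul_sOp (g h : ι) :
    (r h * sOp g : H ι →L[ℂ] H ι) + (if g = h then vac else 0) = sOp g * r h := by
  rw [sOp, mul_add, add_mul, star_l_mul_r, l_mul_r]
  abel

/-- The right field operators commute with the left field operators. -/
theorem tOp_mul_sOp (g h : ι) : (tOp h * sOp g : H ι →L[ℂ] H ι) = sOp g * tOp h := by
  rw [tOp, add_mul, mul_add, star_r_mul_sOp, ← r_mul_sOp]
  abel

end Crest.Agent.R089.Fock
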