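import Crest.Agent.R089.FockMoments
import Crest.Agent.R089.Model

/-!
`exists_model` (A) and `model_semicircular` (A3) of the main skeleton; coordinate formulas for the
left field operators.
-/

set_option autoImplicit false

open Crest.OpAlg
open scoped InnerProductSpace ENNReal

namespace Crest.Agent.R089.Fock

variable {ι : Type} [DecidableEq ι]

/-- coordinate formula for the field operator at the empty word -/
theorem sOp_apply_nil (g : ι) (f : H ι) : (sOp g f) ([] : List ι) = f [g] := by
  rw [sOp, add_apply, lp.coeFn_add, Pi.add_apply, l_apply_nil, star_l_apply, zero_add]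

/-- coordinate formula for the field operator at a nonempty word -/
theorem sOp_apply_cons (g h : ι) (z : List ι) (f : H ι) :
    (sOp g f) (h :: z) = (if g = h then f z else 0) + f (g :: h :: z) := by
  rw [sOp, add_apply, lp.coeFn_add, Pi.add_apply, l_apply_cons, star_l_apply]

theorem Om_apply (w : List ι) : (Om : H ι) w = if w = [] then 1 else 0 := by
  rw [Om, e_apply]
  by_cases h : w = []
  · rw [if_pos h, if_pos h.symm]
  · rw [if_neg h, if_neg (fun h' => h h'.symm)]

end Crest.Agent.R089.Fock

namespace Crest.Agent.R089

open Model

/-- (A) existence of a free semicircular family indexed by any type, in a tracial C⋆-algebra. -/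
theorem exists_model (J : Type) [DecidableEq J] :
    ∃ (A : Type) (_ : CStarAlgebra A) (τ : A →ₗ[ℂ] ℂ) (s : J → A) (φ : List J → ℝ),
      IsModel τ s φ :=
  ⟨Fock.Alg J, inferInstance, Fock.tau, Fock.s, Fock.mom,
    { trace := Fock.isFaithfulTracialState_tau
      sa := Fock.isSelfAdjoint_s
      sd := Fock.isSD_mom
      mom := Fock.tau_sWord }⟩

/-- Catalan moments from the Schwinger-Dyson recursion. -/
theorem IsSD.replicate {J : Type*} [DecidableEq J] {φ : List J → ℝ} (h : IsSD φ) (g : J) (n : ℕ) :
    φ (List.replicate n g) = if Even n then (catalan (n / 2) : ℝ) else 0 := by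
  induction' n using Nat.strong_induction_on with n ih
  cases n with
  | zero => simp [h.nil]
  | succ n =>
    rw [List.replicate_succ, h.cons, List.length_replicate]
    have e1 : ∀ k ∈ Finset.range n, (if (List.replicate n g)[k]? = some g then
        φ ((List.replicate n g).take k) * φ ((List.replicate n g).drop (k + 1)) else 0) =
        (if Even k then (catalan (k / 2) : ℝ) else 0) *
          (if Even (n - (k + 1)) then (catalan ((n - (k + 1)) / 2) : ℝ) else 0) := by
      intro k hk
      rw [Finset.mem_range] at hk
      rw [if_pos (by rw [List.getElem?_replicate, if_pos hk]), List.take_replicate,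
        List.drop_replicate, min_eq_left hk.le, ih k (by omega), ih (n - (k + 1)) (by omega)]
    rw [Finset.sum_congr rfl e1]
    rcases Nat.even_or_odd n with hn | hn
    · rw [if_neg (by rw [Nat.even_add_one]; simpa using hn)]
      apply Finset.sum_eq_zero
      intro k hk
      rw [Finset.mem_range] at hk
      by_cases hk2 : Even k
      · rw [if_neg (c := Even (n - (k + 1))), mul_zero]
        intro h
        have : Even ((n - (k + 1)) + (k + 1)) := by rwa [Nat.sub_add_cancel (by omega)]
        rw [Nat.even_add] at this
        have h3 := this.1 h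
        rw [Nat.even_add_one] at h3
        exact h3 hk2
      · rw [if_neg hk2, zero_mul]
    · obtain ⟨m, rfl⟩ := hn
      rw [if_pos (by exact ⟨m + 1, by ring⟩)]
      have h2 : (2 * m + 1 + 1) / 2 = m + 1 := by omega
      rw [h2, catalan_succ, Finset.sum_fin_eq_sum_range]
      push_cast
      rw [Fock.sum_range_odd]
      · apply Finset.sum_congr rfl
        intro i hi
        rw [Finset.mem_range] at hi
        have h5 : 2 * m - 2 * i = 2 * (m - i) := by omega
        have h3 : 2 * i / 2 = i := by omega
        have h4 : 2 * (m - i) / 2 = m - i := by omega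
        rw [h5, if_pos ⟨i, by ring⟩, if_pos (c := Even (2 * (m - i))) ⟨m - i, by ring⟩, dif_pos hi,
          h3, h4]
        push_cast
        rfl
      · intro i
        rw [if_neg (by rw [Nat.even_add_one]; simp), zero_mul]

/-- (A3) Catalan moments. -/
theorem model_semicircular' {J : Type} [DecidableEq J] {n : ℕ} {A : Type} [CStarAlgebra A]
    (τ : A →ₗ[ℂ] ℂ) (s : J → A) (φ : List J → ℝ) (h : IsModel τ s φ) (f : Fin n → J) :
    IsStandardSemicircular τ (fun i => s (f i)) := by
  have key : ∀ (g : J) (n : ℕ), τ (s g ^ n) = if Even n then (catalan (n / 2) : ℂ) else 0 := by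
    intro g n
    have := h.mom (List.replicate n g)
    rw [List.map_replicate, List.prod_replicate, h.sd.replicate] at this
    rw [this]
    split_ifs <;> simp
  refine ⟨fun i => h.sa _, fun i k => ⟨?_, ?_⟩⟩
  · rw [key, if_pos ⟨k, by ring⟩]
    congr 2
    omega
  · rw [key, if_neg]
    rw [Nat.even_add_one]; simp

/-- (A3) Catalan moments, in the form of the skeleton. -/
theorem model_semicircular {K : Type} [DecidableEq K] {n : ℕ} {A : Type} [CStarAlgebra A]
    (τ : A →ₗ[ℂ] ℂ) (s : K ⊕ Fin n → A) (φ : List (K ⊕ Fin n) → ℝ) (h : IsModel τ s φ) :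
    IsStandardSemicircular τ (fun i => s (Sum.inr i)) :=
  model_semicircular' τ s φ h Sum.inr

end Crest.Agent.R089
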