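import Crest.Agent.R089.FockAlg
import Crest.Agent.R089.GUEDefs
import Crest.Agent.R089.Cumulant

/-!
Real moments of the Fock-space semicircular family; the Schwinger-Dyson structures `IsSD`, `IsSC`;
Catalan moments.
-/

set_option autoImplicit false

open scoped InnerProductSpace ENNReal

namespace Crest.Agent.R089.Fock

variable {ι : Type} [DecidableEq ι]

/-- real moments of the free semicircular family -/
noncomputable def mom (w : List ι) : ℝ := (phi w).re

theorem phi_im (w : List ι) : (phi w).im = 0 := by
  induction' hn : w.length using Nat.strong_induction_on with n ih generalizing w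
  cases w with
  | nil => rw [phi_nil]; rfl
  | cons g w =>
    rw [phi_cons, Complex.im_sum]
    apply Finset.sum_eq_zero
    intro k hk
    rw [Finset.mem_range] at hk
    rw [List.length_cons] at hn
    by_cases h : w[k]? = some g
    · rw [if_pos h, Complex.mul_im, ih (w.take k).length (by simp; omega) _ rfl,
        ih (w.drop (k + 1)).length (by simp; omega) _ rfl]
      ring
    · rw [if_neg h]; rfl

theorem phi_eq_mom (w : List ι) : phi w = (mom w : ℂ) :=
  Complex.ext rfl (by rw [phi_im]; rfl)

theorem tau_sWord (w : List ι) : tau (sWord w : Alg ι) = (mom w : ℂ) := phi_eq_mom w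

theorem mom_nil : mom ([] : List ι) = 1 := by
  rw [mom, phi_nil]; rfl

theorem mom_cons (g : ι) (w : List ι) :
    mom (g :: w) = ∑ k ∈ Finset.range w.length,
      if w[k]? = some g then mom (w.take k) * mom (w.drop (k + 1)) else 0 := by
  have h := phi_cons g w
  simp only [phi_eq_mom] at h
  have h2 : ((mom (g :: w) : ℝ) : ℂ) = ((∑ k ∈ Finset.range w.length,
      if w[k]? = some g then mom (w.take k) * mom (w.drop (k + 1)) else 0 : ℝ) : ℂ) := by
    rw [h]
    push_cast
    apply Finset.sum_congr rfl
    intro k _
    split_ifs <;> simp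
  exact_mod_cast h2

/-- The moments satisfy the Schwinger-Dyson recursion. -/
theorem isSD_mom : IsSD (mom : List ι → ℝ) := ⟨mom_nil, mom_cons⟩

theorem sWord_append (u v : List ι) : (sWord (u ++ v) : Alg ι) = sWord u * sWord v := by
  rw [sWord, List.map_append, List.prod_append]; rfl

theorem sWord_cons (g : ι) (v : List ι) : (sWord (g :: v) : Alg ι) = s g * sWord v := by
  rw [sWord, List.map_cons, List.prod_cons]; rfl

theorem mom_append_comm (u v : List ι) : mom (u ++ v) = mom (v ++ u) := by
  rw [mom, mom, phi, phi, sWord_append, sWord_append, tau_mul_comm]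

theorem tau_star (x : Alg ι) : tau (star x) = starRingEnd ℂ (tau x) := by
  have h1 : tau (star x) = ⟪vec x, vec (1 : Alg ι)⟫_ℂ := by
    rw [← tau_star_mul, mul_one]
  have h2 : tau x = ⟪vec (1 : Alg ι), vec x⟫_ℂ := by
    rw [← tau_star_mul, star_one, one_mul]
  rw [h1, h2, inner_conj_symm]

theorem mom_reverse (w : List ι) : mom w.reverse = mom w := by
  rw [mom, mom, phi, phi, ← star_sWord, tau_star]
  rfl

theorem isSC_mom : IsSC (mom : List ι → ℝ) where
  nil := mom_nil
  cons a x := by
    rw [mom_cons]
    exact (ss_eq_sum_range a (fun p q => mom p * mom q) x).symm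
  trace := mom_append_comm

theorem sum_range_odd (m : ℕ) (f : ℕ → ℝ) (hf : ∀ i, f (2 * i + 1) = 0) :
    ∑ k ∈ Finset.range (2 * m + 1), f k = ∑ i ∈ Finset.range (m + 1), f (2 * i) := by
  induction m with
  | zero => simp
  | succ m ih =>
    rw [show 2 * (m + 1) + 1 = 2 * m + 1 + 1 + 1 by ring, Finset.sum_range_succ,
      Finset.sum_range_succ, ih, hf m, add_zero, Finset.sum_range_succ _ (m + 1)]
    rfl

theorem mom_replicate (g : ι) (n : ℕ) :
    mom (List.replicate n g) = if Even n then (catalan (n / 2) : ℝ) else 0 := by
  induction' n using Nat.strong_induction_on with n ih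
  cases n with
  | zero => simp [mom_nil]
  | succ n =>
    rw [List.replicate_succ, mom_cons, List.length_replicate]
    have e1 : ∀ k ∈ Finset.range n, (if (List.replicate n g)[k]? = some g then
        mom ((List.replicate n g).take k) * mom ((List.replicate n g).drop (k + 1)) else 0) =
        (if Even k then (catalan (k / 2) : ℝ) else 0) *
          (if Even (n - (k + 1)) then (catalan ((n - (k + 1)) / 2) : ℝ) else 0) := by
      intro k hk
      rw [Finset.mem_range] at hk
      rw [if_pos (by rw [List.getElem?_replicate, if_pos hk]), List.take_replicate,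
        List.drop_replicate, min_eq_left hk.le, ih k (by omega), ih (n - (k + 1)) (by omega)]
    rw [Finset.sum_congr rfl e1]
    rcases Nat.even_or_odd n with hn | hn
    · -- n even: n + 1 odd; every term vanishes
      rw [if_neg (by rw [Nat.even_add_one]; simpa using hn)]
      apply Finset.sum_eq_zero
      intro k hk
      rw [Finset.mem_range] at hk
      by_cases hk2 : Even k
      · rw [if_neg (c := Even (n - (k + 1))), mul_zero]
        intro h
        have : Even ((n - (k + 1)) + (k + 1)) := by rwa [Nat.sub_add_cancel (by omega)]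
        rw [Nat.even_add] at this
        have h3 := this.1 h
        rw [Nat.even_add_one] at h3
        exact h3 hk2
      · rw [if_neg hk2, zero_mul]
    · obtain ⟨m, rfl⟩ := hn
      rw [if_pos (by exact ⟨m + 1, by ring⟩)]
      have h2 : (2 * m + 1 + 1) / 2 = m + 1 := by omega
      rw [h2, catalan_succ, Finset.sum_fin_eq_sum_range]
      push_cast
      rw [sum_range_odd]
      · apply Finset.sum_congr rfl
        intro i hi
        rw [Finset.mem_range] at hi
        have h5 : 2 * m - 2 * i = 2 * (m - i) := by omega
        have h3 : 2 * i / 2 = i := by omega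
        have h4 : 2 * (m - i) / 2 = m - i := by omega
        rw [h5, if_pos ⟨i, by ring⟩, if_pos (c := Even (2 * (m - i))) ⟨m - i, by ring⟩, dif_pos hi,
          h3, h4]
        push_cast
        rfl
      · intro i
        rw [if_neg (by rw [Nat.even_add_one]; simp), zero_mul]

theorem s_pow (g : ι) (n : ℕ) : (s g : Alg ι) ^ n = sWord (List.replicate n g) := by
  rw [sWord, List.map_replicate, List.prod_replicate]

theorem tau_s_pow (g : ι) (n : ℕ) :
    tau ((s g : Alg ι) ^ n) = if Even n then (catalan (n / 2) : ℂ) else 0 := by
  rw [s_pow, tau_sWord, mom_replicate]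
  split_ifs <;> simp

theorem isStandardSemicircular_s {n : ℕ} (f : Fin n → ι) :
    Crest.OpAlg.IsStandardSemicircular (tau : Alg ι →ₗ[ℂ] ℂ) (fun i => s (f i)) := by
  refine ⟨fun i => isSelfAdjoint_s _, fun i k => ⟨?_, ?_⟩⟩
  · rw [tau_s_pow, if_pos ⟨k, by ring⟩]
    congr 2
    omega
  · rw [tau_s_pow, if_neg]
    rw [Nat.even_add_one]; simp

end Crest.Agent.R089.Fock
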