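import Crest.Agent.R089.FisherIntegral

/-!
Row 89: second order moments from freeness and semicircularity, and the chiStar lower bound in a
form which only needs freeness.
-/

set_option autoImplicit false
set_option linter.unusedSectionVars false

open scoped ENNReal
open MeasureTheory

namespace Crest.Agent.R089.FreeBasics

open Crest.OpAlg Crest.Agent.R089.FisherIntegral

variable {A : Type*} [Ring A] [Algebra ℂ A] {n : ℕ}

/-- The polynomial `X_i - c`. -/
noncomputable def shiftPoly (i : Fin n) (c : ℂ) : NCPoly n :=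
  MonoidAlgebra.single (FreeMonoid.of i) 1 - MonoidAlgebra.single 1 c

lemma polyEval_shiftPoly (Z : Fin n → A) (i : Fin n) (c : ℂ) :
    polyEval Z (shiftPoly i c) = Z i - c • (1 : A) := by
  unfold polyEval shiftPoly
  rw [map_sub]
  simp

lemma semicircular_fst [StarRing A] {τ : A →ₗ[ℂ] ℂ} {S : Fin n → A}
    (hS : IsStandardSemicircular τ S) (i : Fin n) : τ (S i) = 0 := by
  have := (hS.2 i 0).2
  simpa using this

lemma semicircular_snd [StarRing A] {τ : A →ₗ[ℂ] ℂ} {S : Fin n → A}
    (hS : IsStandardSemicircular τ S) (i : Fin n) : τ (S i * S i) = 1 := by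
  have := (hS.2 i 1).1
  rw [mul_one, pow_two] at this
  simpa using this

lemma tau_mul_noise [StarRing A] {τ : A →ₗ[ℂ] ℂ} (hτ : τ 1 = 1) {X S : Fin n → A}
    (hS : IsStandardSemicircular τ S) (hfree : IsFreeFamily τ (withNoise X S)) (i j : Fin n) :
    τ (X i * S j) = 0 := by
  have h := hfree [(none, shiftPoly i (τ (X i))), (some j, shiftPoly j 0)] (by simp)
    (by simp) (by
      intro e he
      simp only [List.mem_cons, List.not_mem_nil, or_false] at he
      rcases he with rfl | rfl
      · simp only [polyEval_shiftPoly, withNoise, Option.elim, map_sub, map_smul, hτ]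
        simp
      · simp only [polyEval_shiftPoly, withNoise, Option.elim, map_sub, map_smul]
        simp [semicircular_fst hS j])
  simp only [List.map_cons, List.map_nil, List.prod_cons, List.prod_nil, mul_one,
    polyEval_shiftPoly, withNoise, Option.elim, zero_smul, sub_zero] at h
  rw [sub_mul, map_sub, smul_mul_assoc, one_mul, map_smul, semicircular_fst hS j] at h
  simpa using h

lemma tau_noise_mul [StarRing A] {τ : A →ₗ[ℂ] ℂ} (hτ : τ 1 = 1) {X S : Fin n → A}
    (hS : IsStandardSemicircular τ S) (hfree : IsFreeFamily τ (withNoise X S)) (i j : Fin n) :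
    τ (S j * X i) = 0 := by
  have h := hfree [(some j, shiftPoly j 0), (none, shiftPoly i (τ (X i)))] (by simp)
    (by simp) (by
      intro e he
      simp only [List.mem_cons, List.not_mem_nil, or_false] at he
      rcases he with rfl | rfl
      · simp only [polyEval_shiftPoly, withNoise, Option.elim, map_sub, map_smul]
        simp [semicircular_fst hS j]
      · simp only [polyEval_shiftPoly, withNoise, Option.elim, map_sub, map_smul, hτ]
        simp)
  simp only [List.map_cons, List.map_nil, List.prod_cons, List.prod_nil, mul_one,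
    polyEval_shiftPoly, withNoise, Option.elim, zero_smul, sub_zero] at h
  rw [mul_sub, map_sub, mul_smul_comm, mul_one, map_smul, semicircular_fst hS j] at h
  simpa using h

/-- `chiStar` lower bound from the two `Φ*` upper bounds, with the second-order data obtained
from freeness. -/
theorem chiStar_lower_of_free [StarRing A] {τ : A →ₗ[ℂ] ℂ} (hτ : τ 1 = 1) {X S : Fin n → A}
    (hS : IsStandardSemicircular τ S) (hfree : IsFreeFamily τ (withNoise X S))
    (v δ : Fin n → ℝ) (hv : ∀ i, 0 < v i) (hδ : ∀ i, 0 < δ i)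
    (hX : ∀ i, τ (X i * X i) = (v i : ℂ))
    (hU1 : ∀ s : ℝ, 0 < s → freeFisher τ (heatTuple X S s) ≤ ENNReal.ofReal (∑ i, 1 / (δ i + s)))
    (s0 : ℝ) (hs0 : 0 ≤ s0)
    (hU2 : ∀ s : ℝ, s0 < s → freeFisher τ (heatTuple X S s) ≤
      ENNReal.ofReal (∑ i, (1 / (δ i + s) - 1 / (2 * (δ i + s) ^ 2)))) :
    (∀ s : ℝ, 0 < s → freeFisher τ (heatTuple X S s) < ⊤) ∧
    IntegrableOn (fun s : ℝ => (n : ℝ) / (1 + s) - (freeFisher τ (heatTuple X S s)).toReal)
      (Set.Ioi 0) ∧
    ∑ i, (1 / 2 * Real.log (2 * Real.pi * Real.exp 1 * δ i) + 1 / 4 * (1 / (δ i + s0))) ≤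
      chiStar τ X S :=
  chiStar_lower_of_le τ X S hτ v δ hv hδ hX (fun i => tau_mul_noise hτ hS hfree i i)
    (fun i => tau_noise_mul hτ hS hfree i i) (fun i => semicircular_snd hS i) hU1 s0 hs0 hU2

end Crest.Agent.R089.FreeBasics
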