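import Crest.Agent.R089.Model
import Crest.Agent.R089.ChiStar

/-! Basic facts on the concrete model (helper89). -/

set_option autoImplicit false

open Crest.OpAlg Crest.Agent.R089.Model

namespace Crest.Agent.R089.ModelLemmas

theorem card_hid (r : ℕ) : Fintype.card (Hid r) = 3 * r := by
  simp [Hid]

theorem card_idx (r : ℕ) : nn r = 3 * r + r * (r * r) := by
  simp [nn, Idx, Hid]

theorem delt_eq (r : ℕ) (d : ℝ) (i : Fin (nn r)) :
    delt r d i = Sum.elim (fun _ => d) (fun _ => 1 / 2) ((ei r).symm i) := by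
  unfold delt
  split <;> rename_i h <;> rw [h] <;> rfl

theorem delt_ei_inl (r : ℕ) (d : ℝ) (h : Hid r) : delt r d (ei r (Sum.inl h)) = d := by
  rw [delt_eq]; simp

theorem delt_ei_inr (r : ℕ) (d : ℝ) (h : Fin r × Fin r × Fin r) :
    delt r d (ei r (Sum.inr h)) = 1 / 2 := by
  rw [delt_eq]; simp

theorem delt_pos (r : ℕ) (d : ℝ) (hd : 0 < d) (i : Fin (nn r)) : 0 < delt r d i := by
  rw [delt_eq]
  rcases (ei r).symm i with h | h <;> simp [hd]

theorem delt_nonneg (r : ℕ) (d : ℝ) (hd : 0 ≤ d) (i : Fin (nn r)) : 0 ≤ delt r d i := by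
  rw [delt_eq]
  rcases (ei r).symm i with h | h <;> simp [hd]

theorem sum_idx (r : ℕ) (f : Idx r → ℝ) :
    ∑ i, f ((ei r).symm i) = ∑ h : Hid r, f (Sum.inl h) + ∑ h : Fin r × Fin r × Fin r, f (Sum.inr h) := by
  rw [Equiv.sum_comp (ei r).symm f, Fintype.sum_sum_type]

theorem sum_delt (r : ℕ) (d : ℝ) (g : ℝ → ℝ) :
    ∑ i, g (delt r d i) = 3 * r * g d + (r : ℝ) ^ 3 * g (1 / 2) := by
  have h : ∑ i, g (delt r d i) =
      ∑ h : Hid r, g (Sum.elim (fun _ => d) (fun _ => 1 / 2) (Sum.inl h : Idx r)) +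
        ∑ h : Fin r × Fin r × Fin r, g (Sum.elim (fun _ => d) (fun _ => 1 / 2) (Sum.inr h : Idx r)) := by
    rw [← sum_idx r (fun x : Idx r => g (Sum.elim (fun _ => d) (fun _ => 1 / 2) x))]
    exact Finset.sum_congr rfl fun i _ => by rw [delt_eq]
  rw [h]
  simp only [Sum.elim_inl, Sum.elim_inr, Finset.sum_const, Finset.card_univ, nsmul_eq_mul,
    Fintype.card_prod, Fintype.card_fin]
  push_cast
  ring

/-- `polyStar` on a monomial. -/
theorem polyStar_single {n : ℕ} (w : FreeMonoid (Fin n)) (c : ℂ) :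
    polyStar (MonoidAlgebra.single w c) =
      MonoidAlgebra.single (FreeMonoid.toList.symm (FreeMonoid.toList w).reverse)
        (starRingEnd ℂ c) := by
  unfold polyStar
  rw [MonoidAlgebra.coeff_single]
  rw [Finsupp.sum_single_index]
  simp

theorem polyStar_add {n : ℕ} (P Q : NCPoly n) : polyStar (P + Q) = polyStar P + polyStar Q := by
  unfold polyStar
  rw [MonoidAlgebra.coeff_add, Finsupp.sum_add_index']
  · intro a; simp
  · intro a b c
    rw [map_add, MonoidAlgebra.single_add]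

theorem cubic_eq {k : ℕ} (x y z : Fin k) : cubic x y z =
    MonoidAlgebra.single (FreeMonoid.of x * FreeMonoid.of y * FreeMonoid.of z)
        (((Real.sqrt 2)⁻¹ : ℝ) : ℂ) +
      MonoidAlgebra.single (FreeMonoid.of z * FreeMonoid.of y * FreeMonoid.of x)
        (((Real.sqrt 2)⁻¹ : ℝ) : ℂ) := by
  unfold cubic
  rw [smul_add, MonoidAlgebra.smul_single, MonoidAlgebra.smul_single]
  simp

theorem polyStar_cubic {k : ℕ} (x y z : Fin k) : polyStar (cubic x y z) = cubic x y z := by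
  rw [cubic_eq, polyStar_add, polyStar_single, polyStar_single, add_comm]
  congr 1 <;> congr 1 <;> simp

theorem polyStar_QQ (r : ℕ) (i : Fin (nn r)) : polyStar (QQ r i) = QQ r i := by
  unfold QQ
  rcases (ei r).symm i with h | ⟨a, b, c⟩
  · unfold Qi
    rw [polyStar_single]
    congr 1
    simp
  · exact polyStar_cubic _ _ _

theorem polyStar_PP (r : ℕ) (i : Fin (nn r)) : polyStar (PP r i) = PP r i := by
  unfold PP
  rcases (ei r).symm i with h | ⟨a, b, c⟩
  · unfold Pi' polyStar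
    simp
  · exact polyStar_cubic _ _ _

theorem polyEval_cubic {A : Type*} [Ring A] [Algebra ℂ A] {k : ℕ} (X : Fin k → A)
    (x y z : Fin k) : polyEval X (cubic x y z) =
      (((Real.sqrt 2)⁻¹ : ℝ) : ℂ) • (X x * X y * X z + X z * X y * X x) := by
  rw [cubic_eq, ChiStar.polyEval_add, ChiStar.polyEval_single, ChiStar.polyEval_single, smul_add]
  simp only [ChiStar.wordEval_mul, ChiStar.wordEval_of]

theorem polyEval_mem {A : Type*} [Ring A] [Algebra ℂ A] {k : ℕ} (a : Fin k → A) (P : NCPoly k)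
    (S : Subalgebra ℂ A) (ha : ∀ i, a i ∈ S) : polyEval a P ∈ S := by
  rw [ChiStar.polyEval_eq_sum, Finsupp.sum]
  refine Subalgebra.sum_mem _ fun w _ => Subalgebra.smul_mem _ ?_ _
  unfold wordEval
  rw [FreeMonoid.lift_apply]
  refine Subalgebra.list_prod_mem _ ?_
  intro x hx
  rw [List.mem_map] at hx
  obtain ⟨i, _, rfl⟩ := hx
  exact ha i

theorem isSelfAdjoint_XX {A : Type*} [Ring A] [Algebra ℂ A] [StarRing A] [StarModule ℂ A]
    (r : ℕ) (d : ℝ) (s : Jx r → A) (hs : ∀ g, IsSelfAdjoint (s g)) (i : Fin (nn r)) :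
    IsSelfAdjoint (XX r d s i) := by
  unfold XX
  refine IsSelfAdjoint.add ?_ ?_
  · exact ChiStar.isSelfAdjoint_polyEval _ (fun j => hs _) _ (polyStar_QQ r i)
  · exact IsSelfAdjoint.smul (by rw [isSelfAdjoint_iff]; simp) (hs _)

end Crest.Agent.R089.ModelLemmas
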