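import Crest.Agent.R089.FockModel
import Crest.Agent.R089.ModelLemmas

/-! Freeness in the Fock model (A2, helper89). -/

set_option autoImplicit false

open Crest.OpAlg Crest.Agent.R089.Model
open scoped InnerProductSpace

namespace Crest.Agent.R089.Fock

variable {ι : Type} [DecidableEq ι]

/-- Algebra generated by the letters satisfying `C`. -/
noncomputable def colAlg (C : ι → Prop) : Subalgebra ℂ (Alg ι) :=
  Algebra.adjoin ℂ {x | ∃ g, C g ∧ x = s g}

/-- `v` has no component on words starting with a letter of colour `C`. -/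
def Outside (C : ι → Prop) (v : H ι) : Prop := ∀ g z, C g → v (g :: z) = 0

/-- `v` is supported on (nonempty) words starting with a letter of colour `C`. -/
def Inside (C : ι → Prop) (v : H ι) : Prop :=
  v [] = 0 ∧ ∀ g z, ¬ C g → v (g :: z) = 0

theorem factor (C : ι → Prop) [DecidablePred C] (v : H ι) (hv : Outside C v) (a : Alg ι)
    (ha : a ∈ colAlg C) (x : List ι) :
    ((a : H ι →L[ℂ] H ι) v) x = (vec a) (x.takeWhile C) * v (x.dropWhile C) := by
  unfold colAlg at ha
  rw [← Subalgebra.mem_toSubmodule, Algebra.adjoin_eq_span] at ha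
  induction ha using Submodule.span_induction generalizing x with
  | mem a ha =>
    induction ha using Submonoid.closure_induction_left generalizing x with
    | one =>
      have h1 : ((1 : Alg ι) : H ι →L[ℂ] H ι) v = v := rfl
      have h2 : vec (1 : Alg ι) = Om := rfl
      rw [h1, h2, Om_apply]
      cases x with
      | nil => simp
      | cons g z =>
        by_cases hg : C g
        · rw [List.takeWhile_cons_of_pos (by simpa using hg), if_neg (by simp), zero_mul]
          exact hv g z hg
        · rw [List.takeWhile_cons_of_neg (by simpa using hg),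
            List.dropWhile_cons_of_neg (by simpa using hg)]
          simp
    | mul_left b hb a ha ih =>
      obtain ⟨g, hg, rfl⟩ := hb
      have h1 : ((s g * a : Alg ι) : H ι →L[ℂ] H ι) v = sOp g ((a : H ι →L[ℂ] H ι) v) := rfl
      have h2 : vec (s g * a : Alg ι) = sOp g (vec a) := rfl
      rw [h1, h2]
      cases x with
      | nil =>
        rw [sOp_apply_nil, ih, List.takeWhile_nil, List.dropWhile_nil, sOp_apply_nil,
          List.takeWhile_cons_of_pos (by simpa using hg),
          List.dropWhile_cons_of_pos (by simpa using hg), List.takeWhile_nil, List.dropWhile_nil]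
      | cons h z =>
        by_cases hh : C h
        · rw [sOp_apply_cons, List.takeWhile_cons_of_pos (by simpa using hh),
            List.dropWhile_cons_of_pos (by simpa using hh), sOp_apply_cons, ih, ih,
            List.takeWhile_cons_of_pos (by simpa using hg),
            List.dropWhile_cons_of_pos (by simpa using hg),
            List.takeWhile_cons_of_pos (by simpa using hh),
            List.dropWhile_cons_of_pos (by simpa using hh)]
          split_ifs <;> ring
        · have hgh : g ≠ h := fun e => hh (e ▸ hg)
          rw [sOp_apply_cons, if_neg hgh, zero_add, ih,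
            List.takeWhile_cons_of_pos (by simpa using hg),
            List.dropWhile_cons_of_pos (by simpa using hg),
            List.takeWhile_cons_of_neg (by simpa using hh),
            List.dropWhile_cons_of_neg (by simpa using hh), sOp_apply_nil]
  | zero =>
    have h1 : ((0 : Alg ι) : H ι →L[ℂ] H ι) v = 0 := rfl
    have h2 : vec (0 : Alg ι) = 0 := rfl
    rw [h1, h2]
    simp
  | add a b _ _ iha ihb =>
    have h1 : ((a + b : Alg ι) : H ι →L[ℂ] H ι) v = (a : H ι →L[ℂ] H ι) v + (b : H ι →L[ℂ] H ι) v :=
      rfl
    have h2 : vec (a + b : Alg ι) = vec a + vec b := rfl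
    rw [h1, h2, lp.coeFn_add, lp.coeFn_add, Pi.add_apply, Pi.add_apply, iha, ihb, add_mul]
  | smul c a _ iha =>
    have h1 : ((c • a : Alg ι) : H ι →L[ℂ] H ι) v = c • (a : H ι →L[ℂ] H ι) v := rfl
    have h2 : vec (c • a : Alg ι) = c • vec a := rfl
    rw [h1, h2, lp.coeFn_smul, lp.coeFn_smul, Pi.smul_apply, Pi.smul_apply, iha, smul_eq_mul,
      smul_eq_mul, mul_assoc]

theorem tau_eq_vec_nil (a : Alg ι) : tau a = (vec a) [] := by
  rw [tau_apply, Om, inner_e_left]
  rfl

theorem inside_of_centered (C : ι → Prop) [DecidablePred C] (v : H ι) (hv : Outside C v)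
    (a : Alg ι) (ha : a ∈ colAlg C) (h0 : tau a = 0) : Inside C ((a : H ι →L[ℂ] H ι) v) := by
  rw [tau_eq_vec_nil] at h0
  constructor
  · rw [factor C v hv a ha, List.takeWhile_nil, h0, zero_mul]
  · intro g z hg
    rw [factor C v hv a ha, List.takeWhile_cons_of_neg (by simpa using hg), h0, zero_mul]

theorem outside_Om (C : ι → Prop) : Outside C (Om : H ι) := by
  intro g z _
  rw [Om_apply, if_neg (by simp)]

omit [DecidableEq ι] in
theorem Inside.outside {C D : ι → Prop} (hCD : ∀ g, D g → ¬ C g) {v : H ι} (hv : Inside C v) :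
    Outside D v := fun g z hg => hv.2 g z (hCD g hg)

/-- Alternating products of centred elements of pairwise disjoint colours. -/
theorem alternating {T : Type*} (C : T → ι → Prop) (hC : ∀ t t' g, t ≠ t' → C t g → ¬ C t' g)
    (l : List (T × Alg ι)) (hl : l ≠ [])
    (hchain : l.IsChain (fun a b => a.1 ≠ b.1)) (hmem : ∀ e ∈ l, e.2 ∈ colAlg (C e.1))
    (hcent : ∀ e ∈ l, tau e.2 = 0) :
    ∀ e ∈ l.head?, Inside (C e.1) (vec (l.map Prod.snd).prod) := by
  classical
  induction l with
  | nil => exact absurd rfl hl
  | cons a l ih =>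
    intro e he
    simp only [List.head?_cons, Option.mem_def, Option.some.injEq] at he
    subst he
    rw [List.map_cons, List.prod_cons]
    have hv : vec (a.2 * (l.map Prod.snd).prod : Alg ι) =
        (a.2 : H ι →L[ℂ] H ι) (vec (l.map Prod.snd).prod) := rfl
    rw [hv]
    refine inside_of_centered (C a.1) _ ?_ a.2 (hmem a (by simp)) (hcent a (by simp))
    cases l with
    | nil =>
      change Outside (C a.1) (Om : H ι)
      exact outside_Om (C a.1)
    | cons b l =>
      rw [List.isChain_cons_cons] at hchain
      have := ih (by simp) hchain.2 (fun e he => hmem e (List.mem_cons_of_mem _ he))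
        (fun e he => hcent e (List.mem_cons_of_mem _ he)) b (by simp)
      exact this.outside fun g hg => hC a.1 b.1 g hchain.1 hg

/-- Freeness of `X` (in the letters `inl`) and the individual letters `inr i`. -/
theorem isFreeFamily_withNoise {K : Type} [DecidableEq K] {n : ℕ} (X : Fin n → Alg (K ⊕ Fin n))
    (hX : ∀ i, X i ∈ Algebra.adjoin ℂ
      (Set.range fun j : K => (s (Sum.inl j) : Alg (K ⊕ Fin n)))) :
    IsFreeFamily (tau (ι := K ⊕ Fin n)) (withNoise X (fun i => s (Sum.inr i))) := by
  intro l hl hchain hcent
  let C : Option (Fin n) → (K ⊕ Fin n) → Prop := fun t g =>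
    t.elim (∃ j : K, g = Sum.inl j) (fun i => g = Sum.inr i)
  have hC : ∀ t t' g, t ≠ t' → C t g → ¬ C t' g := by
    intro t t' g htt' h1 h2
    cases t with
    | none =>
      cases t' with
      | none => exact htt' rfl
      | some i' =>
        obtain ⟨j, rfl⟩ := h1
        exact absurd h2 (by simp [C])
    | some i =>
      cases t' with
      | none =>
        obtain ⟨j, rfl⟩ := h2
        exact absurd h1 (by simp [C])
      | some i' =>
        simp only [C, Option.elim_some] at h1 h2
        rw [h1] at h2
        exact htt' (by rw [Sum.inr.inj h2])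
  have hmem : ∀ (t : Option (Fin n)) (P : NCPoly n),
      polyEval (withNoise X (fun i => s (Sum.inr i)) t) P ∈ colAlg (C t) := by
    intro t P
    refine ModelLemmas.polyEval_mem _ _ _ fun i => ?_
    cases t with
    | none =>
      refine Algebra.adjoin_mono ?_ (hX i)
      rintro _ ⟨j, rfl⟩
      exact ⟨Sum.inl j, ⟨j, rfl⟩, rfl⟩
    | some i' =>
      exact Algebra.subset_adjoin ⟨Sum.inr i', rfl, rfl⟩
  let l' : List (Option (Fin n) × Alg (K ⊕ Fin n)) :=
    l.map fun e => (e.1, polyEval (withNoise X (fun i => s (Sum.inr i)) e.1) e.2)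
  have hl' : l' ≠ [] := by simpa [l'] using hl
  have hchain' : l'.IsChain (fun a b => a.1 ≠ b.1) := by
    simp only [l', List.isChain_map]
    exact hchain
  have hmem' : ∀ e ∈ l', e.2 ∈ colAlg (C e.1) := by
    intro e he
    simp only [l', List.mem_map] at he
    obtain ⟨e', _, rfl⟩ := he
    exact hmem _ _
  have hcent' : ∀ e ∈ l', tau e.2 = 0 := by
    intro e he
    simp only [l', List.mem_map] at he
    obtain ⟨e', he', rfl⟩ := he
    exact hcent e' he'
  obtain ⟨e, he⟩ : ∃ e, e ∈ l'.head? := by
    cases h : l' with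
    | nil => exact absurd h hl'
    | cons a t => exact ⟨a, by simp⟩
  have := (alternating C hC l' hl' hchain' hmem' hcent' e he).1
  have e1 : (l'.map Prod.snd).prod =
      (l.map fun e => polyEval (withNoise X (fun i => s (Sum.inr i)) e.1) e.2).prod := by
    simp only [l', List.map_map]
    rfl
  rw [e1] at this
  rw [tau_eq_vec_nil]
  exact this

end Crest.Agent.R089.Fock

namespace Crest.Agent.R089

/-- (A) + (A2): a model with freeness. -/
theorem exists_model_free (K : Type) [DecidableEq K] (n : ℕ) :
    ∃ (A : Type) (_ : CStarAlgebra A) (τ : A →ₗ[ℂ] ℂ) (s : K ⊕ Fin n → A)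
      (φ : List (K ⊕ Fin n) → ℝ), IsModel τ s φ ∧
      ∀ X : Fin n → A, (∀ i, X i ∈ Algebra.adjoin ℂ (Set.range fun j : K => s (Sum.inl j))) →
        IsFreeFamily τ (withNoise X (fun i => s (Sum.inr i))) :=
  ⟨Fock.Alg (K ⊕ Fin n), inferInstance, Fock.tau, Fock.s, Fock.mom,
    ⟨Fock.isFaithfulTracialState_tau, Fock.isSelfAdjoint_s, Fock.isSD_mom, Fock.tau_sWord⟩,
    fun X hX => Fock.isFreeFamily_withNoise X hX⟩

end Crest.Agent.R089
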