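import Mathlib

/-! Combinatorics of splittings of words and the abstract loop recursion (row 89). -/

set_option autoImplicit false

namespace Crest.Agent.R089.GUE

variable {α : Type*} [DecidableEq α]

/-- All ways of writing `w = u ++ l :: v`, as pairs `(u, v)`. -/
def splits (l : α) : List α → List (List α × List α)
  | [] => []
  | (a :: w) => (if a = l then [([], w)] else []) ++ (splits l w).map (fun p => (a :: p.1, p.2))

@[simp] lemma splits_nil (l : α) : splits l [] = [] := rfl

lemma splits_cons (l a : α) (w : List α) :
    splits l (a :: w) = (if a = l then [([], w)] else []) ++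
      (splits l w).map (fun p => (a :: p.1, p.2)) := rfl

lemma mem_splits {l : α} {w : List α} {p : List α × List α} :
    p ∈ splits l w ↔ w = p.1 ++ l :: p.2 := by
  induction w generalizing p with
  | nil => simp
  | cons a w ih =>
    obtain ⟨u, v⟩ := p
    rw [splits_cons, List.mem_append, List.mem_map]
    constructor
    · rintro (h | ⟨q, hq, hqe⟩)
      · split_ifs at h with hal
        · simp at h
          obtain ⟨rfl, rfl⟩ := h
          simp [hal]
        · simp at h
      · rw [ih] at hq
        simp only [Prod.mk.injEq] at hqe
        obtain ⟨rfl, rfl⟩ := hqe
        simp [hq]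
    · intro h
      cases u with
      | nil =>
        simp at h
        obtain ⟨rfl, rfl⟩ := h
        left; simp
      | cons b u =>
        simp only [List.cons_append, List.cons.injEq] at h
        obtain ⟨rfl, h⟩ := h
        right
        exact ⟨(u, v), ih.2 h, rfl⟩

lemma length_of_mem_splits {l : α} {w : List α} {p : List α × List α} (h : p ∈ splits l w) :
    w.length = p.1.length + p.2.length + 1 := by
  rw [mem_splits] at h
  rw [h]; simp; ring

/-- All ways of cutting one of the words of `ws` at a letter `l` and merging it with `v`. -/
def merges (l : α) (v : List α) : List (List α) → List (List (List α))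
  | [] => []
  | (w :: ws) => (splits l w).map (fun p => (v ++ p.2 ++ p.1) :: ws) ++
      (merges l v ws).map (fun us => w :: us)

/-- Total length of a list of words. -/
def tot (ws : List (List α)) : ℕ := (ws.map List.length).sum

omit [DecidableEq α] in
@[simp] lemma tot_nil : tot ([] : List (List α)) = 0 := rfl
omit [DecidableEq α] in
@[simp] lemma tot_cons (w : List α) (ws : List (List α)) : tot (w :: ws) = w.length + tot ws := by
  simp [tot]

lemma tot_of_mem_merges {l : α} {v : List α} {ws us : List (List α)} (h : us ∈ merges l v ws) :
    tot us + 1 = v.length + tot ws := by
  induction ws generalizing us with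
  | nil => simp [merges] at h
  | cons w ws ih =>
    rw [merges, List.mem_append, List.mem_map, List.mem_map] at h
    rcases h with ⟨p, hp, rfl⟩ | ⟨us', h', rfl⟩
    · have := length_of_mem_splits hp
      simp; omega
    · have := ih h'
      simp; omega

lemma length_of_mem_merges {l : α} {v : List α} {ws us : List (List α)} (h : us ∈ merges l v ws) :
    us.length = ws.length := by
  induction ws generalizing us with
  | nil => simp [merges] at h
  | cons w ws ih =>
    rw [merges, List.mem_append, List.mem_map, List.mem_map] at h
    rcases h with ⟨p, hp, rfl⟩ | ⟨us', h', rfl⟩
    · simp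
    · simp [ih h']

end Crest.Agent.R089.GUE
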