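import Crest.Agent.R089.GUE1

/-! Algebraic loop equations (row 89). -/

set_option autoImplicit false

namespace Crest.Agent.R089.GUE

open Matrix

variable {R : Type*} [CommRing R]
variable {α : Type*} [DecidableEq α] {d : ℕ}

lemma finset_sum_list_sum {ι β M : Type*} [AddCommMonoid M] (s : Finset ι) (L : List β)
    (f : ι → β → M) :
    ∑ c ∈ s, (L.map (f c)).sum = (L.map (fun x => ∑ c ∈ s, f c x)).sum := by
  induction L with
  | nil => simp
  | cons a L ih => simp [Finset.sum_add_distrib, ih]

/-- Word in a tuple of matrices. -/
def wm (X : α → Matrix (Fin d) (Fin d) R) : List α → Matrix (Fin d) (Fin d) R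
  | [] => 1
  | (i :: w) => X i * wm X w

omit [DecidableEq α] in
@[simp] lemma wm_nil (X : α → Matrix (Fin d) (Fin d) R) : wm X [] = 1 := rfl
omit [DecidableEq α] in
@[simp] lemma wm_cons (X : α → Matrix (Fin d) (Fin d) R) (i : α) (w : List α) :
    wm X (i :: w) = X i * wm X w := rfl

omit [DecidableEq α] in
lemma wm_append (X : α → Matrix (Fin d) (Fin d) R) (u v : List α) :
    wm X (u ++ v) = wm X u * wm X v := by
  induction u with
  | nil => simp
  | cons a u ih => simp [ih, Matrix.mul_assoc]

/-- An additive map satisfying the Leibniz rule and killing `1`, with prescribed values on the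
matrix entries. -/
structure IsEntryDer (X : α → Matrix (Fin d) (Fin d) R) (D : R → R) (l : α) (p q : Fin d) : Prop where
  map_add : ∀ x y, D (x + y) = D x + D y
  map_mul : ∀ x y, D (x * y) = D x * y + x * D y
  map_one : D 1 = 0
  entry : ∀ l' a b, D (X l' a b) = if l = l' ∧ p = b ∧ q = a then 1 else 0

/-- Product of traces of words. -/
def tp (X : α → Matrix (Fin d) (Fin d) R) (ws : List (List α)) : R :=
  (ws.map (fun w => trace (wm X w))).prod

omit [DecidableEq α] in
@[simp] lemma tp_nil (X : α → Matrix (Fin d) (Fin d) R) : tp X [] = 1 := rfl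
omit [DecidableEq α] in
@[simp] lemma tp_cons (X : α → Matrix (Fin d) (Fin d) R) (w : List α) (ws : List (List α)) :
    tp X (w :: ws) = trace (wm X w) * tp X ws := by simp [tp]

namespace IsEntryDer

variable {X : α → Matrix (Fin d) (Fin d) R} {D : R → R} {l : α} {p q : Fin d}

omit [DecidableEq α] in
lemma map_zero [DecidableEq α] (h : IsEntryDer X D l p q) : D 0 = 0 := by
  have := h.map_add 0 0
  simpa using this

lemma map_sum (h : IsEntryDer X D l p q) {ι : Type*} (s : Finset ι) (f : ι → R) :
    D (∑ i ∈ s, f i) = ∑ i ∈ s, D (f i) := by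
  classical
  induction s using Finset.induction_on with
  | empty => simp [h.map_zero]
  | insert a s ha ih => rw [Finset.sum_insert ha, h.map_add, ih, Finset.sum_insert ha]

lemma word (h : IsEntryDer X D l p q) (w : List α) (a b : Fin d) :
    D (wm X w a b) = ((splits l w).map (fun s => wm X s.1 a q * wm X s.2 p b)).sum := by
  induction w generalizing a b with
  | nil =>
    simp only [wm_nil, splits_nil, List.map_nil, List.sum_nil, Matrix.one_apply]
    split_ifs
    · exact h.map_one
    · exact h.map_zero
  | cons i w ih =>
    rw [wm_cons, Matrix.mul_apply, h.map_sum]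
    simp_rw [h.map_mul, h.entry, ih]
    rw [Finset.sum_add_distrib, splits_cons, List.map_append, List.sum_append]
    congr 1
    · by_cases hil : i = l
      · subst hil
        simp only [true_and, ite_mul, one_mul, zero_mul, if_true, List.map_cons, List.map_nil,
          List.sum_cons, List.sum_nil, add_zero, wm_nil, Matrix.one_apply]
        by_cases hqa : q = a
        · subst hqa
          simp
        · simp [hqa, Ne.symm hqa]
      · simp [hil, Ne.symm hil]
    · rw [List.map_map]
      simp only [Function.comp_def, wm_cons, Matrix.mul_apply]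
      simp_rw [Finset.sum_mul, mul_assoc]
      rw [← finset_sum_list_sum]
      refine Finset.sum_congr rfl fun c _ => ?_
      rw [List.sum_map_mul_left]

lemma trace_word (h : IsEntryDer X D l p q) (w : List α) :
    D (trace (wm X w)) = ((splits l w).map (fun s => wm X (s.2 ++ s.1) p q)).sum := by
  rw [Matrix.trace, h.map_sum]
  simp only [Matrix.diag_apply]
  simp_rw [h.word, wm_append, Matrix.mul_apply]
  rw [finset_sum_list_sum]
  congr 1
  refine List.map_congr_left fun s _ => ?_
  exact Finset.sum_congr rfl fun a _ => mul_comm _ _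

end IsEntryDer

/-- Family of entry derivations. -/
def IsEntryDerFamily (X : α → Matrix (Fin d) (Fin d) R) (D : α → Fin d → Fin d → R → R) : Prop :=
  ∀ l p q, IsEntryDer X (D l p q) l p q

lemma merge_formula {X : α → Matrix (Fin d) (Fin d) R} {D : α → Fin d → Fin d → R → R}
    (h : IsEntryDerFamily X D) (l : α) (v : List α) (ws : List (List α)) :
    ∑ p, ∑ q, wm X v q p * D l p q (tp X ws) = ((merges l v ws).map (tp X)).sum := by
  induction ws with
  | nil =>
    simp [merges, (h l _ _).map_one]
  | cons w ws ih =>
    simp_rw [tp_cons, (h l _ _).map_mul, mul_add, Finset.sum_add_distrib]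
    rw [merges, List.map_append, List.sum_append]
    congr 1
    · simp_rw [(h l _ _).trace_word]
      rw [List.map_map]
      have : ∀ p q, wm X v q p * ((List.map (fun s => wm X (s.2 ++ s.1) p q) (splits l w)).sum * tp X ws)
          = ((splits l w).map (fun s => wm X v q p * wm X (s.2 ++ s.1) p q * tp X ws)).sum := by
        intro p q
        rw [← mul_assoc, ← List.sum_map_mul_left, List.sum_map_mul_right]
      simp_rw [this]
      simp_rw [finset_sum_list_sum]
      congr 1
      refine List.map_congr_left fun s _ => ?_
      simp only [Function.comp_def, tp_cons]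
      rw [List.append_assoc, wm_append X v, Matrix.trace, Finset.sum_comm, Finset.sum_mul]
      refine Finset.sum_congr rfl fun q _ => ?_
      rw [Matrix.diag_apply, Matrix.mul_apply, Finset.sum_mul]
    · rw [List.map_map]
      simp only [Function.comp_def, tp_cons]
      rw [List.sum_map_mul_left, ← ih, Finset.mul_sum]
      refine Finset.sum_congr rfl fun p _ => ?_
      rw [Finset.mul_sum]
      refine Finset.sum_congr rfl fun q _ => ?_
      ring

lemma split_formula {X : α → Matrix (Fin d) (Fin d) R} {D : α → Fin d → Fin d → R → R}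
    (h : IsEntryDerFamily X D) (l : α) (v : List α) (ws : List (List α)) :
    ∑ p, ∑ q, D l p q (wm X v q p) * tp X ws
      = ((splits l v).map (fun s => tp X (s.1 :: s.2 :: ws))).sum := by
  simp_rw [(h l _ _).word]
  have : ∀ p q : Fin d, (List.map (fun s => wm X s.1 q q * wm X s.2 p p) (splits l v)).sum * tp X ws
      = ((splits l v).map (fun s => wm X s.1 q q * wm X s.2 p p * tp X ws)).sum := by
    intro p q
    rw [List.sum_map_mul_right]
  simp_rw [this]
  simp_rw [finset_sum_list_sum]
  congr 1
  refine List.map_congr_left fun s _ => ?_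
  simp only [tp_cons, Matrix.trace, Matrix.diag_apply]
  rw [Finset.sum_comm, Finset.sum_mul]
  refine Finset.sum_congr rfl fun q _ => ?_
  rw [← mul_assoc, Finset.mul_sum, Finset.sum_mul]

variable [Algebra ℂ R]

/-- **Algebraic loop equation.** -/
lemma loop_formula {X : α → Matrix (Fin d) (Fin d) R} {D : α → Fin d → Fin d → R → R}
    (h : IsEntryDerFamily X D) (E : R →ₗ[ℂ] ℂ) (c : ℂ)
    (ibp : ∀ l p q Q, E (X l p q * Q) = c * E (D l p q Q)) (l : α) (v : List α)
    (ws : List (List α)) :
    E (tp X ((l :: v) :: ws)) = c * (((splits l v).map (fun s => E (tp X (s.1 :: s.2 :: ws)))).sum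
      + ((merges l v ws).map (fun us => E (tp X us))).sum) := by
  have h1 : tp X ((l :: v) :: ws) = ∑ p, ∑ q, X l p q * (wm X v q p * tp X ws) := by
    rw [tp_cons, wm_cons, Matrix.trace, Finset.sum_mul]
    refine Finset.sum_congr rfl fun p _ => ?_
    rw [Matrix.diag_apply, Matrix.mul_apply, Finset.sum_mul]
    refine Finset.sum_congr rfl fun q _ => ?_
    ring
  rw [h1]
  simp_rw [map_sum, ibp, (h l _ _).map_mul, map_add]
  simp_rw [← Finset.mul_sum, Finset.sum_add_distrib, ← map_sum]
  rw [split_formula h, merge_formula h]
  rw [map_list_sum, map_list_sum, List.map_map, List.map_map]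
  rfl

end Crest.Agent.R089.GUE
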