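import Crest.Agent.R089.GUE1

/-! The abstract loop recursion: limits and bounds (row 89). -/

set_option autoImplicit false

open Filter Topology

namespace Crest.Agent.R089.GUE

variable {α : Type*} [DecidableEq α]

/-- The loop recursion satisfied by the normalised trace moments of GUE matrices. -/
structure LoopRec (T : ℕ → List (List α) → ℂ) : Prop where
  nil : ∀ d, 1 ≤ d → T d [] = 1
  empty : ∀ d, 1 ≤ d → ∀ ws, T d ([] :: ws) = T d ws
  loop : ∀ d, 1 ≤ d → ∀ l v ws, T d ((l :: v) :: ws) =
    ((splits l v).map (fun s => T d (s.1 :: s.2 :: ws))).sum +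
      ((d : ℂ) ^ 2)⁻¹ * ((merges l v ws).map (fun us => T d us)).sum

/-- The moment recursion in the limit. -/
structure SplitRec (τ : List α → ℂ) : Prop where
  nil : τ [] = 1
  cons : ∀ l v, τ (l :: v) = ((splits l v).map (fun s => τ s.1 * τ s.2)).sum

lemma tendsto_list_sum_map {β : Type*} (L : List β) (f : ℕ → β → ℂ) (g : β → ℂ)
    (h : ∀ x ∈ L, Tendsto (fun d => f d x) atTop (𝓝 (g x))) :
    Tendsto (fun d => (L.map (f d)).sum) atTop (𝓝 (L.map g).sum) := by
  induction L with
  | nil => simp
  | cons a L ih =>
    simp only [List.map_cons, List.sum_cons]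
    exact (h a (by simp)).add (ih fun x hx => h x (by simp [hx]))

lemma LoopRec.tendsto {T : ℕ → List (List α) → ℂ} (hT : LoopRec T) {τ : List α → ℂ}
    (hτ : SplitRec τ) (ws : List (List α)) :
    Tendsto (fun d => T d ws) atTop (𝓝 (ws.map τ).prod) := by
  induction' hm : tot ws + ws.length using Nat.strong_induction_on with m ih generalizing ws
  match ws with
  | [] =>
    simp only [List.map_nil, List.prod_nil]
    refine tendsto_const_nhds.congr' ?_
    filter_upwards [eventually_ge_atTop 1] with d hd
    rw [hT.nil d hd]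
  | [] :: ws =>
    have h1 := ih (tot ws + ws.length) (by simp at hm; omega) ws rfl
    simp only [List.map_cons, List.prod_cons, hτ.nil, one_mul]
    refine h1.congr' ?_
    filter_upwards [eventually_ge_atTop 1] with d hd
    rw [hT.empty d hd]
  | (l :: v) :: ws =>
    simp only [tot_cons, List.length_cons] at hm
    have hs : Tendsto (fun d => ((splits l v).map (fun s => T d (s.1 :: s.2 :: ws))).sum) atTop
        (𝓝 ((splits l v).map (fun s => τ s.1 * τ s.2 * (ws.map τ).prod)).sum) := by
      refine tendsto_list_sum_map _ _ _ fun s hs => ?_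
      have hlen := length_of_mem_splits hs
      have := ih (tot (s.1 :: s.2 :: ws) + (s.1 :: s.2 :: ws).length) (by simp; omega)
        (s.1 :: s.2 :: ws) rfl
      simpa [mul_assoc] using this
    have hmg : Tendsto (fun d : ℕ => ((d : ℂ) ^ 2)⁻¹ * ((merges l v ws).map (fun us => T d us)).sum)
        atTop (𝓝 (0 * ((merges l v ws).map (fun us => (us.map τ).prod)).sum)) := by
      refine Tendsto.mul ?_ ?_
      · have h2 : Tendsto (fun d : ℕ => (((d : ℝ) ^ 2)⁻¹ : ℝ)) atTop (𝓝 0) := by
          refine tendsto_inv_atTop_zero.comp ?_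
          exact (tendsto_pow_atTop (by norm_num)).comp tendsto_natCast_atTop_atTop
        have h3 := (Complex.continuous_ofReal.tendsto 0).comp h2
        refine (h3.congr fun d => ?_)
        simp
      · refine tendsto_list_sum_map _ _ _ fun us hus => ?_
        have h1 := tot_of_mem_merges hus
        have h2 := length_of_mem_merges hus
        exact ih (tot us + us.length) (by omega) us rfl
    have := hs.add hmg
    rw [zero_mul, add_zero, List.sum_map_mul_right, ← hτ.cons] at this
    simp only [List.map_cons, List.prod_cons]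
    refine this.congr' ?_
    filter_upwards [eventually_ge_atTop 1] with d hd
    rw [hT.loop d hd]

/-! ### A uniform bound -/

/-- Product of Catalan numbers of the lengths. -/
def cp (ws : List (List α)) : ℝ := (ws.map (fun w => (catalan w.length : ℝ))).prod

omit [DecidableEq α] in
@[simp] lemma cp_nil : cp ([] : List (List α)) = 1 := rfl
omit [DecidableEq α] in
@[simp] lemma cp_cons (w : List α) (ws : List (List α)) :
    cp (w :: ws) = catalan w.length * cp ws := by simp [cp]

lemma catalan_pos (n : ℕ) : 0 < catalan n := by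
  have h := succ_mul_catalan_eq_centralBinom n
  have h2 := Nat.centralBinom_pos n
  rcases Nat.eq_zero_or_pos (catalan n) with h0 | h0
  · rw [h0] at h; omega
  · exact h0

omit [DecidableEq α] in
lemma cp_pos (ws : List (List α)) : 0 < cp ws := by
  induction ws with
  | nil => simp
  | cons w ws ih =>
    rw [cp_cons]
    have := catalan_pos w.length
    positivity

lemma catalan_le_four_pow (n : ℕ) : catalan n ≤ 4 ^ n := by
  have h := succ_mul_catalan_eq_centralBinom n
  have h2 : n.centralBinom ≤ 4 ^ n := by
    rw [Nat.centralBinom_eq_two_mul_choose]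
    calc (2 * n).choose n ≤ 2 ^ (2 * n) := Nat.choose_le_two_pow _ _
      _ = 4 ^ n := by rw [pow_mul]; norm_num
  nlinarith [Nat.zero_le (catalan n)]

lemma four_pow_le_catalan (n : ℕ) : 4 ^ n ≤ 2 * (n + 1) ^ 2 * catalan n := by
  rcases Nat.eq_zero_or_pos n with rfl | hn
  · simp
  · have h := succ_mul_catalan_eq_centralBinom n
    have h2 := Nat.four_pow_le_two_mul_self_mul_centralBinom n hn
    rw [← h] at h2
    calc 4 ^ n ≤ 2 * n * ((n + 1) * catalan n) := h2
      _ ≤ 2 * (n + 1) * ((n + 1) * catalan n) := by gcongr; omega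
      _ = 2 * (n + 1) ^ 2 * catalan n := by ring

lemma catalan_mono_succ (n : ℕ) : catalan n ≤ catalan (n + 1) := by
  rw [catalan_succ]
  have : catalan (0 : Fin n.succ) * catalan (n - (0 : Fin n.succ)) ≤
      ∑ i : Fin n.succ, catalan i * catalan (n - i) :=
    Finset.single_le_sum (f := fun i : Fin n.succ => catalan i * catalan (n - i))
      (fun i _ => Nat.zero_le _) (Finset.mem_univ 0)
  simpa using this

/-- The merging bound for Catalan numbers. -/
lemma catalan_merge (a b : ℕ) (hb : 1 ≤ b) :
    catalan (a + b - 1) ≤ (a + b + 1) ^ 4 * (catalan (a + 1) * catalan b) := by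
  have h1 := catalan_le_four_pow (a + b - 1)
  have h2 := four_pow_le_catalan (a + 1)
  have h3 := four_pow_le_catalan b
  have h4 : 4 ^ (a + 1) * 4 ^ b = 16 * 4 ^ (a + b - 1) := by
    rw [← pow_add, show a + 1 + b = (a + b - 1) + 2 by omega, pow_add]
    norm_num; ring
  have h5 : 16 * 4 ^ (a + b - 1) ≤
      (2 * (a + 1 + 1) ^ 2 * catalan (a + 1)) * (2 * (b + 1) ^ 2 * catalan b) := by
    rw [← h4]; exact Nat.mul_le_mul h2 h3
  have h6 : ((a + 1 + 1) ^ 2) * ((b + 1) ^ 2) ≤ 4 * (a + b + 1) ^ 4 := by
    have : (a + 1 + 1) * (b + 1) ≤ 2 * (a + b + 1) ^ 2 := by nlinarith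
    calc ((a + 1 + 1) ^ 2) * ((b + 1) ^ 2) = ((a + 1 + 1) * (b + 1)) ^ 2 := by ring
      _ ≤ (2 * (a + b + 1) ^ 2) ^ 2 := Nat.pow_le_pow_left this 2
      _ = _ := by ring
  have h7 : (2 * (a + 1 + 1) ^ 2 * catalan (a + 1)) * (2 * (b + 1) ^ 2 * catalan b)
      ≤ 16 * ((a + b + 1) ^ 4 * (catalan (a + 1) * catalan b)) := by
    calc (2 * (a + 1 + 1) ^ 2 * catalan (a + 1)) * (2 * (b + 1) ^ 2 * catalan b)
        = 4 * (((a + 1 + 1) ^ 2) * ((b + 1) ^ 2)) * (catalan (a + 1) * catalan b) := by ring
      _ ≤ 4 * (4 * (a + b + 1) ^ 4) * (catalan (a + 1) * catalan b) := by gcongr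
      _ = _ := by ring
  omega

lemma sum_splits_le (f : ℕ → ℕ → ℝ) (hf : ∀ a b, 0 ≤ f a b) (l : α) (v : List α) :
    ((splits l v).map (fun s => f s.1.length s.2.length)).sum ≤
      ∑ k ∈ Finset.range v.length, f k (v.length - 1 - k) := by
  induction v generalizing f with
  | nil => simp
  | cons a w ih =>
    rw [splits_cons, List.map_append, List.sum_append, List.map_map, List.length_cons,
      Finset.sum_range_succ']
    have h1 : ((if a = l then [(([] : List α), w)] else []).map
        (fun s => f s.1.length s.2.length)).sum ≤ f 0 w.length := by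
      split_ifs
      · simp
      · simpa using hf 0 w.length
    have h2 := ih (fun a b => f (a + 1) b) (fun a b => hf _ _)
    have h3 : ∑ k ∈ Finset.range w.length, f (k + 1) (w.length - 1 - k) =
        ∑ k ∈ Finset.range w.length, f (k + 1) (w.length + 1 - 1 - (k + 1)) := by
      refine Finset.sum_congr rfl fun k hk => ?_
      congr 1
      omega
    simp only [Function.comp_def, List.length_cons] at *
    rw [h3] at h2
    have h4 : w.length + 1 - 1 - 0 = w.length := by omega
    rw [h4]
    linarith

lemma sum_splits_catalan (l : α) (v : List α) :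
    ((splits l v).map (fun s => ((catalan s.1.length : ℝ) * catalan s.2.length))).sum ≤
      catalan (v.length + 1) := by
  refine (sum_splits_le (fun a b => (catalan a : ℝ) * catalan b) (fun a b => by positivity) l v).trans ?_
  rcases Nat.eq_zero_or_pos v.length with h0 | h0
  · rw [h0]; simp
  · obtain ⟨n, hn⟩ : ∃ n, v.length = n + 1 := ⟨v.length - 1, by omega⟩
    rw [hn]
    have h1 : ∑ k ∈ Finset.range (n + 1), (catalan k : ℝ) * catalan (n + 1 - 1 - k) = catalan (n + 1) := by
      rw [catalan_succ, Finset.sum_range]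
      push_cast
      rfl
    rw [h1]
    exact_mod_cast catalan_mono_succ (n + 1)

lemma length_splits_le (l : α) (v : List α) : (splits l v).length ≤ v.length := by
  induction v with
  | nil => simp
  | cons a w ih =>
    rw [splits_cons, List.length_append, List.length_map, List.length_cons]
    have : (if a = l then [(([] : List α), w)] else []).length ≤ 1 := by
      split_ifs <;> simp
    omega

lemma sum_merges_cp (l : α) (v : List α) (K : ℕ) (ws : List (List α))
    (hK : v.length + tot ws + 1 ≤ K) :
    ((merges l v ws).map cp).sum ≤ (tot ws : ℝ) * (K : ℝ) ^ 4 * (catalan (v.length + 1) * cp ws) := by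
  induction ws with
  | nil => simp [merges]
  | cons w ws ih =>
    rw [merges, List.map_append, List.sum_append, List.map_map, List.map_map]
    simp only [tot_cons] at hK
    have h1 : ((splits l w).map (cp ∘ fun p => (v ++ p.2 ++ p.1) :: ws)).sum ≤
        (w.length : ℝ) * ((K : ℝ) ^ 4 * (catalan (v.length + 1) * cp (w :: ws))) := by
      have hb : ∀ x ∈ (splits l w).map (cp ∘ fun p => (v ++ p.2 ++ p.1) :: ws),
          x ≤ (K : ℝ) ^ 4 * (catalan (v.length + 1) * cp (w :: ws)) := by
        intro x hx
        rw [List.mem_map] at hx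
        obtain ⟨p, hp, rfl⟩ := hx
        have hl := length_of_mem_splits hp
        have hlen : (v ++ p.2 ++ p.1).length = v.length + w.length - 1 := by
          simp; omega
        simp only [Function.comp_def, cp_cons, hlen]
        have hm := catalan_merge v.length w.length (by omega)
        have hm2 : (catalan (v.length + w.length - 1) : ℝ) ≤
            ((v.length + w.length + 1 : ℕ) : ℝ) ^ 4 * (catalan (v.length + 1) * catalan w.length) := by
          exact_mod_cast hm
        have hK4 : ((v.length + w.length + 1 : ℕ) : ℝ) ^ 4 ≤ (K : ℝ) ^ 4 := by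
          have : ((v.length + w.length + 1 : ℕ) : ℝ) ≤ K := by exact_mod_cast (by omega)
          gcongr
        have hcp := cp_pos ws
        calc (catalan (v.length + w.length - 1) : ℝ) * cp ws
            ≤ (((v.length + w.length + 1 : ℕ) : ℝ) ^ 4 * (catalan (v.length + 1) * catalan w.length)) * cp ws := by
              gcongr
          _ ≤ ((K : ℝ) ^ 4 * (catalan (v.length + 1) * catalan w.length)) * cp ws := by gcongr
          _ = _ := by ring
      have h2 := List.sum_le_card_nsmul _ _ hb
      rw [List.length_map, nsmul_eq_mul] at h2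
      refine h2.trans ?_
      have h3 : ((splits l w).length : ℝ) ≤ w.length := by exact_mod_cast length_splits_le l w
      have h4 := cp_pos (w :: ws)
      gcongr
    have h2 : ((merges l v ws).map (cp ∘ fun us => w :: us)).sum ≤
        (tot ws : ℝ) * ((K : ℝ) ^ 4 * (catalan (v.length + 1) * cp (w :: ws))) := by
      have h3 : (cp ∘ fun us => w :: us) = fun us => (catalan w.length : ℝ) * cp us := by
        funext us; simp
      rw [h3, List.sum_map_mul_left]
      have h4 := ih (by omega)
      calc (catalan w.length : ℝ) * ((merges l v ws).map cp).sum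
          ≤ catalan w.length * ((tot ws : ℝ) * (K : ℝ) ^ 4 * (catalan (v.length + 1) * cp ws)) := by
            gcongr
        _ = _ := by rw [cp_cons]; ring
    rw [tot_cons]
    push_cast
    calc _ ≤ (w.length : ℝ) * ((K : ℝ) ^ 4 * (catalan (v.length + 1) * cp (w :: ws))) +
        (tot ws : ℝ) * ((K : ℝ) ^ 4 * (catalan (v.length + 1) * cp (w :: ws))) := add_le_add h1 h2
      _ = _ := by ring

lemma norm_list_sum_le {β : Type*} (L : List β) (f : β → ℂ) (g : β → ℝ)
    (h : ∀ x ∈ L, ‖f x‖ ≤ g x) : ‖(L.map f).sum‖ ≤ (L.map g).sum := by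
  induction L with
  | nil => simp
  | cons a L ih =>
    simp only [List.map_cons, List.sum_cons]
    exact (norm_add_le _ _).trans (add_le_add (h a (by simp)) (ih fun x hx => h x (by simp [hx])))

lemma list_sum_map_le {β : Type*} (L : List β) (f g : β → ℝ)
    (h : ∀ x ∈ L, f x ≤ g x) : (L.map f).sum ≤ (L.map g).sum := by
  induction L with
  | nil => simp
  | cons a L ih =>
    simp only [List.map_cons, List.sum_cons]
    exact (add_le_add (h a (by simp)) (ih fun x hx => h x (by simp [hx])))

/-- **Uniform bound** for the solutions of the loop recursion. -/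
lemma LoopRec.bound {T : ℕ → List (List α) → ℂ} (hT : LoopRec T) (t0 d : ℕ) (hd : 1 ≤ d)
    (ws : List (List α)) (hws : tot ws ≤ t0) :
    ‖T d ws‖ ≤ (1 + (t0 : ℝ) * ((t0 : ℝ) + 1) ^ 4 / (d : ℝ) ^ 2) ^ (tot ws) * cp ws := by
  set κ : ℝ := (t0 : ℝ) * ((t0 : ℝ) + 1) ^ 4 / (d : ℝ) ^ 2 with hκ
  have hκ0 : 0 ≤ κ := by positivity
  induction' hm : tot ws + ws.length using Nat.strong_induction_on with m ih generalizing ws
  match ws with
  | [] => rw [hT.nil d hd]; simp
  | [] :: ws =>
    rw [hT.empty d hd]
    have h1 := ih (tot ws + ws.length) (by simp at hm; omega) ws (by simpa using hws) rfl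
    simpa using h1
  | (l :: v) :: ws =>
    simp only [tot_cons, List.length_cons] at hm hws
    rw [hT.loop d hd, tot_cons, List.length_cons, cp_cons, List.length_cons]
    have hcp := cp_pos ws
    have hcat : (0 : ℝ) < catalan (v.length + 1) := by exact_mod_cast catalan_pos _
    set B : ℝ := (1 + κ) ^ (v.length - 1 + tot ws) with hB
    have hBpos : 0 < B := by positivity
    have hs : ‖((splits l v).map (fun s => T d (s.1 :: s.2 :: ws))).sum‖ ≤
        B * (catalan (v.length + 1) * cp ws) := by
      have h1 : ‖((splits l v).map (fun s => T d (s.1 :: s.2 :: ws))).sum‖ ≤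
          ((splits l v).map (fun s => ((catalan s.1.length : ℝ) * catalan s.2.length) *
            (B * cp ws))).sum := by
        refine norm_list_sum_le _ _ _ fun s hs => ?_
        have hlen := length_of_mem_splits hs
        have h2 := ih (tot (s.1 :: s.2 :: ws) + (s.1 :: s.2 :: ws).length) (by simp; omega)
          (s.1 :: s.2 :: ws) (by simp; omega) rfl
        refine h2.trans (le_of_eq ?_)
        have h3 : tot (s.1 :: s.2 :: ws) = v.length - 1 + tot ws := by
          simp; omega
        rw [h3, cp_cons, cp_cons, hB]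
        ring
      rw [List.sum_map_mul_right] at h1
      refine h1.trans ?_
      calc _ ≤ (catalan (v.length + 1) : ℝ) * (B * cp ws) := by
            have := sum_splits_catalan l v
            gcongr
        _ = _ := by ring
    have hmg : ‖((d : ℂ) ^ 2)⁻¹ * ((merges l v ws).map (fun us => T d us)).sum‖ ≤
        B * (κ * (catalan (v.length + 1) * cp ws)) := by
      have h1 : ‖((merges l v ws).map (fun us => T d us)).sum‖ ≤
          ((merges l v ws).map (fun us => B * cp us)).sum := by
        refine norm_list_sum_le _ _ _ fun us hus => ?_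
        have h1 := tot_of_mem_merges hus
        have h2 := length_of_mem_merges hus
        have h3 := ih (tot us + us.length) (by omega) us (by omega) rfl
        refine h3.trans ?_
        have h4 : tot us ≤ v.length - 1 + tot ws := by omega
        have h5 : (1 + κ) ^ tot us ≤ B := pow_le_pow_right₀ (by linarith) h4
        have := cp_pos us
        gcongr
      rw [List.sum_map_mul_left] at h1
      have h2 := sum_merges_cp l v (t0 + 1) ws (by omega)
      have h3 : ‖((d : ℂ) ^ 2)⁻¹‖ = ((d : ℝ) ^ 2)⁻¹ := by simp
      rw [norm_mul, h3]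
      have hd' : (0 : ℝ) < (d : ℝ) ^ 2 := by positivity
      have h4 : (tot ws : ℝ) ≤ t0 := by exact_mod_cast (by omega)
      calc ((d : ℝ) ^ 2)⁻¹ * ‖((merges l v ws).map (fun us => T d us)).sum‖
          ≤ ((d : ℝ) ^ 2)⁻¹ * (B * ((tot ws : ℝ) * ((t0 + 1 : ℕ) : ℝ) ^ 4 *
            (catalan (v.length + 1) * cp ws))) := by
            have := h1.trans (mul_le_mul_of_nonneg_left h2 hBpos.le)
            gcongr
        _ ≤ ((d : ℝ) ^ 2)⁻¹ * (B * ((t0 : ℝ) * ((t0 + 1 : ℕ) : ℝ) ^ 4 *
            (catalan (v.length + 1) * cp ws))) := by gcongr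
        _ = _ := by rw [hκ]; push_cast; field_simp
    have hfin : B * (catalan (v.length + 1) * cp ws) + B * (κ * (catalan (v.length + 1) * cp ws)) ≤
        (1 + κ) ^ (v.length + 1 + tot ws) * (catalan (v.length + 1) * cp ws) := by
      have h1 : B * (1 + κ) ≤ (1 + κ) ^ (v.length + 1 + tot ws) := by
        rw [hB, ← pow_succ]
        exact pow_le_pow_right₀ (by linarith) (by omega)
      calc _ = (B * (1 + κ)) * (catalan (v.length + 1) * cp ws) := by ring
        _ ≤ _ := by gcongr
    exact (norm_add_le _ _).trans ((add_le_add hs hmg).trans hfin)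

end Crest.Agent.R089.GUE
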