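import Crest.Agent.R089.GUE2
import Crest.Agent.R089.GUE3
import Crest.Agent.R089.GUEDefs

/-! Gaussian integration by parts for polynomials (row 89). -/

set_option autoImplicit false

open MeasureTheory ProbabilityTheory Filter Topology
open scoped ENNReal NNReal

namespace Crest.Agent.R089.GUE

lemma integrable_pow_gaussianReal (v : ℝ≥0) (k : ℕ) :
    Integrable (fun x : ℝ => x ^ k) (gaussianReal 0 v) := by
  rcases Nat.eq_zero_or_pos k with rfl | hk
  · simp
  · have h := (memLp_id_gaussianReal' (μ := 0) (v := v) (k : ℝ≥0∞) (by simp)).integrable_norm_pow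
      hk.ne'
    refine h.mono (by fun_prop) (Filter.Eventually.of_forall fun x => ?_)
    simp

lemma integrable_pow_pdf {v : ℝ≥0} (hv : v ≠ 0) (k : ℕ) :
    Integrable (fun x : ℝ => gaussianPDFReal 0 v x * x ^ k) := by
  have h := integrable_pow_gaussianReal v k
  rw [gaussianReal_of_var_ne_zero _ hv,
    integrable_withDensity_iff_integrable_smul' (measurable_gaussianPDF _ _)
      (ae_of_all _ fun _ => gaussianPDF_lt_top)] at h
  simpa using h

lemma hasDerivAt_gaussianPDFReal {v : ℝ≥0} (hv : v ≠ 0) (x : ℝ) :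
    HasDerivAt (gaussianPDFReal 0 v) (-(x / v) * gaussianPDFReal 0 v x) x := by
  have hv' : (v : ℝ) ≠ 0 := by exact_mod_cast hv
  have h1 : HasDerivAt (fun y : ℝ => -y ^ 2 / (2 * (v : ℝ))) (-(x / v)) x := by
    have h2 : HasDerivAt (fun y : ℝ => y ^ 2) (2 * x) x := by
      simpa using hasDerivAt_pow 2 x
    have h3 := (h2.neg).div_const (2 * (v : ℝ))
    have h4 : -(2 * x) / (2 * (v : ℝ)) = -(x / v) := by
      field_simp
    rw [h4] at h3
    exact h3
  have h2 := (h1.exp).const_mul ((√(2 * Real.pi * v))⁻¹)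
  have h3 : gaussianPDFReal 0 v = fun y => (√(2 * Real.pi * v))⁻¹ * Real.exp (-y ^ 2 / (2 * (v : ℝ))) := by
    rw [gaussianPDFReal_def]
    funext y
    simp
  rw [h3]
  refine h2.congr_deriv ?_
  simp only
  ring

lemma integral_pow_succ_gaussianReal {v : ℝ≥0} (hv : v ≠ 0) (k : ℕ) :
    ∫ x, x ^ (k + 1) ∂(gaussianReal 0 v) = (v : ℝ) * (k * ∫ x, x ^ (k - 1) ∂(gaussianReal 0 v)) := by
  have hv' : (v : ℝ) ≠ 0 := by exact_mod_cast hv
  rw [integral_gaussianReal_eq_integral_smul hv, integral_gaussianReal_eq_integral_smul hv]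
  simp only [smul_eq_mul]
  have h := integral_mul_deriv_eq_deriv_mul_of_integrable (A := ℝ)
    (u := fun x : ℝ => x ^ k) (v := gaussianPDFReal 0 v)
    (u' := fun x : ℝ => k * x ^ (k - 1)) (v' := fun x => -(x / v) * gaussianPDFReal 0 v x)
    (fun x _ => hasDerivAt_pow k x) (fun x _ => hasDerivAt_gaussianPDFReal hv x)
    ?_ ?_ ?_
  · have h1 : ∫ x, gaussianPDFReal 0 v x * x ^ (k + 1) =
        -(v : ℝ) * ∫ x : ℝ, x ^ k * (-(x / v) * gaussianPDFReal 0 v x) := by
      rw [← integral_const_mul]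
      congr 1
      funext x
      field_simp
      ring
    rw [h1, h]
    have h2 : ∫ x : ℝ, (k : ℝ) * x ^ (k - 1) * gaussianPDFReal 0 v x =
        k * ∫ x : ℝ, gaussianPDFReal 0 v x * x ^ (k - 1) := by
      rw [← integral_const_mul]
      congr 1
      funext x
      ring
    rw [h2]
    ring
  · have h1 := (integrable_pow_pdf hv (k + 1)).const_mul (-(v : ℝ)⁻¹)
    refine h1.congr (Filter.Eventually.of_forall fun x => ?_)
    simp only [Pi.mul_apply]
    field_simp
    ring
  · have h1 := (integrable_pow_pdf hv (k - 1)).const_mul (k : ℝ)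
    refine h1.congr (Filter.Eventually.of_forall fun x => ?_)
    simp only [Pi.mul_apply]
    ring
  · have h1 := (integrable_pow_pdf hv k)
    refine h1.congr (Filter.Eventually.of_forall fun x => ?_)
    simp only [Pi.mul_apply]
    ring

/-- One-dimensional Gaussian moments, as complex numbers. -/
noncomputable def mom (v : ℝ≥0) (k : ℕ) : ℂ := ∫ x : ℝ, (x : ℂ) ^ k ∂(gaussianReal 0 v)

lemma mom_zero (v : ℝ≥0) : mom v 0 = 1 := by simp [mom]

lemma mom_eq (v : ℝ≥0) (k : ℕ) : mom v k = ((∫ x : ℝ, x ^ k ∂(gaussianReal 0 v) : ℝ) : ℂ) := by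
  rw [mom, ← integral_complex_ofReal]
  simp

lemma mom_succ {v : ℝ≥0} (hv : v ≠ 0) (k : ℕ) : mom v (k + 1) = (v : ℂ) * (k * mom v (k - 1)) := by
  rw [mom_eq, integral_pow_succ_gaussianReal hv, mom_eq]
  push_cast
  rfl

section functional

variable {ι : Type*} [Fintype ι]

open MvPolynomial

lemma integrable_eval (v : ℝ≥0) (p : MvPolynomial ι ℂ) :
    Integrable (fun ω : ι → ℝ => eval (fun i => (ω i : ℂ)) p)
      (Measure.pi fun _ => gaussianReal 0 v) := by
  induction p using MvPolynomial.induction_on' with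
  | monomial m c =>
    simp only [eval_monomial]
    refine Integrable.const_mul ?_ c
    simp_rw [Finsupp.prod_pow]
    refine Integrable.fintype_prod (f := fun i (x : ℝ) => (x : ℂ) ^ m i) fun i => ?_
    have := (integrable_pow_gaussianReal v (m i)).ofReal (𝕜 := ℂ)
    simpa using this
  | add p q hp hq =>
    simp only [map_add]
    exact hp.add hq

/-- The Gaussian expectation of polynomials. -/
noncomputable def gexp (v : ℝ≥0) : MvPolynomial ι ℂ →ₗ[ℂ] ℂ where
  toFun p := ∫ ω : ι → ℝ, eval (fun i => (ω i : ℂ)) p ∂(Measure.pi fun _ => gaussianReal 0 v)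
  map_add' p q := by
    simp only [map_add]
    exact integral_add (integrable_eval v p) (integrable_eval v q)
  map_smul' c p := by
    simp only [smul_eval, RingHom.id_apply, smul_eq_mul]
    exact integral_const_mul _ _

lemma gexp_apply (v : ℝ≥0) (p : MvPolynomial ι ℂ) :
    gexp v p = ∫ ω : ι → ℝ, eval (fun i => (ω i : ℂ)) p ∂(Measure.pi fun _ => gaussianReal 0 v) :=
  rfl

lemma gexp_one (v : ℝ≥0) : gexp v (1 : MvPolynomial ι ℂ) = 1 := by
  simp [gexp_apply]

lemma gexp_monomial (v : ℝ≥0) (m : ι →₀ ℕ) (c : ℂ) :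
    gexp v (monomial m c) = c * ∏ i, mom v (m i) := by
  rw [gexp_apply]
  simp only [eval_monomial]
  rw [integral_const_mul]
  congr 1
  simp_rw [Finsupp.prod_pow]
  exact integral_fintype_prod_eq_prod (f := fun i (x : ℝ) => (x : ℂ) ^ m i)

lemma gexp_ibp {v : ℝ≥0} (hv : v ≠ 0) (i : ι) (p : MvPolynomial ι ℂ) :
    gexp v (X i * p) = (v : ℂ) * gexp v (pderiv i p) := by
  classical
  induction p using MvPolynomial.induction_on' with
  | monomial m c =>
    rw [pderiv_monomial, gexp_monomial, X, monomial_mul, gexp_monomial, one_mul]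
    rw [← Finset.mul_prod_erase _ _ (Finset.mem_univ i), ← Finset.mul_prod_erase _ _ (Finset.mem_univ i)]
    have h1 : ∏ x ∈ Finset.univ.erase i, mom v ((Finsupp.single i 1 + m : ι →₀ ℕ) x) =
        ∏ x ∈ Finset.univ.erase i, mom v ((m - Finsupp.single i 1 : ι →₀ ℕ) x) := by
      refine Finset.prod_congr rfl fun x hx => ?_
      have hxi : x ≠ i := (Finset.mem_erase.1 hx).1
      simp [hxi.symm]
    rw [h1]
    have h2 : (Finsupp.single i 1 + m : ι →₀ ℕ) i = m i + 1 := by simp [add_comm]
    have h3 : (m - Finsupp.single i 1 : ι →₀ ℕ) i = m i - 1 := by simp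
    rw [h2, h3, mom_succ hv]
    ring
  | add p q hp hq =>
    rw [mul_add, map_add, map_add, map_add, hp, hq, mul_add]

end functional

end Crest.Agent.R089.GUE
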