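import Crest.Agent.R089.GUE4

/-! The polynomial GUE matrices and their loop equations (row 89). -/

set_option autoImplicit false

open MeasureTheory ProbabilityTheory Filter Topology
open scoped ENNReal NNReal

namespace Crest.Agent.R089.GUE

open MvPolynomial

/-- The hermitian matrix entries built from coordinates in a complex vector space. -/
noncomputable def herm {J M : Type*} [AddCommGroup M] [Module ℂ M] {d : ℕ}
    (x : J × (Fin d × Fin d) → M) (j : J) (a b : Fin d) : M :=
  if a = b then x (j, (a, a))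
  else if a < b then ((Real.sqrt 2 : ℂ)⁻¹) • (x (j, (a, b)) + Complex.I • x (j, (b, a)))
  else ((Real.sqrt 2 : ℂ)⁻¹) • (x (j, (b, a)) - Complex.I • x (j, (a, b)))

lemma herm_map {J M N : Type*} [AddCommGroup M] [Module ℂ M] [AddCommGroup N] [Module ℂ N] {d : ℕ}
    (f : M →ₗ[ℂ] N) (x : J × (Fin d × Fin d) → M) (j : J) (a b : Fin d) :
    f (herm x j a b) = herm (fun α => f (x α)) j a b := by
  unfold herm
  split_ifs <;> simp

variable {J : Type*} {d : ℕ}

lemma gueMat_eq_herm (ω : J × (Fin d × Fin d) → ℝ) (j : J) (a b : Fin d) :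
    gueMat ω j a b = herm (fun α => (ω α : ℂ)) j a b := by
  unfold gueMat Crest.OpAlg.hermitianOfCoords herm
  simp only [smul_eq_mul]
  split_ifs
  · rfl
  · rw [div_eq_inv_mul]; ring
  · rw [div_eq_inv_mul]; ring

/-- The polynomial GUE matrices. -/
noncomputable def GM (j : J) : Matrix (Fin d) (Fin d) (MvPolynomial (J × (Fin d × Fin d)) ℂ) :=
  fun a b => herm X j a b

/-- The entry derivations. -/
noncomputable def GD (l : J) (p q : Fin d) (Q : MvPolynomial (J × (Fin d × Fin d)) ℂ) :
    MvPolynomial (J × (Fin d × Fin d)) ℂ :=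
  herm (fun α => pderiv α Q) l p q

lemma inv_sqrt_two_sq : ((Real.sqrt 2 : ℂ)⁻¹) * ((Real.sqrt 2 : ℂ)⁻¹) = 1 / 2 := by
  rw [← mul_inv]
  have : (Real.sqrt 2 : ℂ) * (Real.sqrt 2 : ℂ) = 2 := by
    rw [← Complex.ofReal_mul, Real.mul_self_sqrt (by norm_num)]
    norm_num
  rw [this]; norm_num

lemma herm_hermC [DecidableEq J] (l l' : J) (p q a b : Fin d) :
    herm (fun α => herm (fun β => if α = β then (1 : ℂ) else 0) l' a b) l p q =
      if l = l' ∧ p = b ∧ q = a then 1 else 0 := by
  have h2 : ((Real.sqrt 2 : ℂ)⁻¹) ^ 2 = 1 / 2 := by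
    rw [sq, inv_sqrt_two_sq]
  have hI : Complex.I ^ 2 = -1 := Complex.I_sq
  by_cases hl : l = l'
  swap
  · unfold herm; simp [hl]
  subst hl
  set u : ℂ := if p = a ∧ q = b then 1 else 0 with hu
  set w : ℂ := if p = b ∧ q = a then 1 else 0 with hw
  have e1 : (if ((l, (p, q)) : J × (Fin d × Fin d)) = (l, (a, b)) then (1 : ℂ) else 0) = u := by
    simp [hu]
  have e2 : (if ((l, (p, q)) : J × (Fin d × Fin d)) = (l, (b, a)) then (1 : ℂ) else 0) = w := by
    simp [hw]
  have e3 : (if ((l, (q, p)) : J × (Fin d × Fin d)) = (l, (a, b)) then (1 : ℂ) else 0) = w := by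
    simp [hw, and_comm]
  have e4 : (if ((l, (q, p)) : J × (Fin d × Fin d)) = (l, (b, a)) then (1 : ℂ) else 0) = u := by
    simp [hu, and_comm]
  have eR : (if l = l ∧ p = b ∧ q = a then (1 : ℂ) else 0) = w := by simp [hw]
  rw [eR]
  rcases lt_trichotomy p q with hpq | hpq | hpq
  · have n1 : ¬ p = q := hpq.ne
    rcases lt_trichotomy a b with hab | hab | hab
    · have n2 : ¬ a = b := hab.ne
      have w0 : w = 0 := by
        rw [hw, if_neg]; rintro ⟨rfl, rfl⟩; exact absurd hpq (not_lt.2 hab.le)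
      simp only [herm, if_neg n1, if_neg n2, if_pos hpq, if_pos hab, e1, e2, e3, e4, w0, smul_eq_mul]
      linear_combination (((Real.sqrt 2 : ℂ)⁻¹) ^ 2 * u) * hI
    · subst hab
      have w0 : w = 0 := by
        rw [hw, if_neg]; rintro ⟨rfl, rfl⟩; exact n1 rfl
      have u0 : u = 0 := by
        rw [hu, if_neg]; rintro ⟨rfl, rfl⟩; exact n1 rfl
      simp only [herm, if_neg n1, if_pos hpq, if_true, e1, e3, w0, u0, smul_eq_mul]
      simp
    · have n2 : ¬ a = b := hab.ne'
      have n3 : ¬ a < b := not_lt.2 hab.le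
      simp only [herm, if_neg n1, if_neg n2, if_pos hpq, if_neg n3, e1, e2, e3, e4, smul_eq_mul]
      linear_combination (2 * w) * h2 - (((Real.sqrt 2 : ℂ)⁻¹) ^ 2 * w) * hI
  · subst hpq
    rcases lt_trichotomy a b with hab | hab | hab
    · have n2 : ¬ a = b := hab.ne
      have w0 : w = 0 := by
        rw [hw, if_neg]; rintro ⟨rfl, rfl⟩; exact n2 rfl
      have u0 : u = 0 := by
        rw [hu, if_neg]; rintro ⟨rfl, rfl⟩; exact n2 rfl
      simp only [herm, if_true, if_neg n2, if_pos hab, e1, e2, w0, u0, smul_eq_mul]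
      simp
    · subst hab
      simp only [herm, if_true, e2]
    · have n2 : ¬ a = b := hab.ne'
      have n3 : ¬ a < b := not_lt.2 hab.le
      have w0 : w = 0 := by
        rw [hw, if_neg]; rintro ⟨rfl, rfl⟩; exact n2 rfl
      have u0 : u = 0 := by
        rw [hu, if_neg]; rintro ⟨rfl, rfl⟩; exact n2 rfl
      simp only [herm, if_true, if_neg n2, if_neg n3, e1, e2, w0, u0, smul_eq_mul]
      simp
  · have n1 : ¬ p = q := hpq.ne'
    have n0 : ¬ p < q := not_lt.2 hpq.le
    rcases lt_trichotomy a b with hab | hab | hab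
    · have n2 : ¬ a = b := hab.ne
      simp only [herm, if_neg n1, if_neg n2, if_neg n0, if_pos hab, e1, e2, e3, e4, smul_eq_mul]
      linear_combination (2 * w) * h2 - (((Real.sqrt 2 : ℂ)⁻¹) ^ 2 * w) * hI
    · subst hab
      have w0 : w = 0 := by
        rw [hw, if_neg]; rintro ⟨rfl, rfl⟩; exact n1 rfl
      have u0 : u = 0 := by
        rw [hu, if_neg]; rintro ⟨rfl, rfl⟩; exact n1 rfl
      simp only [herm, if_neg n1, if_neg n0, if_true, e1, e3, w0, u0, smul_eq_mul]
      simp
    · have n2 : ¬ a = b := hab.ne'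
      have n3 : ¬ a < b := not_lt.2 hab.le
      have w0 : w = 0 := by
        rw [hw, if_neg]; rintro ⟨rfl, rfl⟩; exact absurd hpq (not_lt.2 hab.le)
      simp only [herm, if_neg n1, if_neg n2, if_neg n0, if_neg n3, e1, e2, e3, e4, w0, smul_eq_mul]
      linear_combination (((Real.sqrt 2 : ℂ)⁻¹) ^ 2 * u) * hI

lemma herm_herm [DecidableEq J] {R : Type*} [CommRing R] [Algebra ℂ R] (l l' : J) (p q a b : Fin d) :
    herm (fun α => herm (fun β => if α = β then (1 : R) else 0) l' a b) l p q =
      if l = l' ∧ p = b ∧ q = a then 1 else 0 := by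
  have h := congrArg (Algebra.linearMap ℂ R) (herm_hermC l l' p q a b)
  rw [herm_map] at h
  simp_rw [herm_map] at h
  simpa [apply_ite (algebraMap ℂ R)] using h

lemma isEntryDerFamily [DecidableEq J] : IsEntryDerFamily (GM (J := J) (d := d)) GD := by
  intro l p q
  refine ⟨?_, ?_, ?_, ?_⟩
  · intro x y
    unfold GD herm
    split_ifs <;> simp only [map_add, smul_add, smul_sub] <;> ring
  · intro x y
    unfold GD herm
    have h : ∀ (c : ℂ) (u v : MvPolynomial (J × (Fin d × Fin d)) ℂ), (c • u) * v = c • (u * v) :=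
      fun c u v => smul_mul_assoc c u v
    have h' : ∀ (c : ℂ) (u v : MvPolynomial (J × (Fin d × Fin d)) ℂ), u * (c • v) = c • (u * v) :=
      fun c u v => mul_smul_comm c u v
    split_ifs
    · simp only [pderiv_mul]
    · simp only [pderiv_mul, smul_add, add_mul, mul_add, h, h']
      abel
    · simp only [pderiv_mul, smul_add, smul_sub, sub_mul, mul_sub, h, h']
      abel
  · unfold GD herm
    split_ifs <;> simp
  · intro l' a b
    have hpd : ∀ α β : J × (Fin d × Fin d), pderiv α (X β : MvPolynomial (J × (Fin d × Fin d)) ℂ) =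
        if α = β then 1 else 0 := by
      intro α β
      rw [pderiv_X]
      by_cases h : α = β
      · subst h; simp
      · simp [h, Ne.symm h]
    unfold GD GM
    have hs : ∀ α : J × (Fin d × Fin d), pderiv α (herm (X : _ → MvPolynomial (J × (Fin d × Fin d)) ℂ) l' a b) =
        herm (fun β => if α = β then (1 : MvPolynomial (J × (Fin d × Fin d)) ℂ) else 0) l' a b := by
      intro α
      have := herm_map (pderiv α : Derivation ℂ (MvPolynomial (J × (Fin d × Fin d)) ℂ)
        (MvPolynomial (J × (Fin d × Fin d)) ℂ)).toLinearMap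
        (X : _ → MvPolynomial (J × (Fin d × Fin d)) ℂ) l' a b
      simp only [Derivation.coeFn_coe, hpd] at this
      exact this
    simp_rw [hs]
    exact herm_herm l l' p q a b

variable [Fintype J]

lemma gexp_GM_ibp {v : ℝ≥0} (hv : v ≠ 0) (l : J) (p q : Fin d)
    (Q : MvPolynomial (J × (Fin d × Fin d)) ℂ) :
    gexp v (GM l p q * Q) = (v : ℂ) * gexp v (GD l p q Q) := by
  have h1 : gexp v (GM l p q * Q) =
      herm (fun α => gexp v (X α * Q)) l p q := by
    have := herm_map ((gexp v : MvPolynomial (J × (Fin d × Fin d)) ℂ →ₗ[ℂ] ℂ) ∘ₗ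
      LinearMap.mulRight ℂ Q) (X : _ → MvPolynomial (J × (Fin d × Fin d)) ℂ) l p q
    simpa [GM] using this
  have h2 : (v : ℂ) * gexp v (GD l p q Q) =
      herm (fun α => (v : ℂ) * gexp v (pderiv α Q)) l p q := by
    have := herm_map ((v : ℂ) • (gexp v : MvPolynomial (J × (Fin d × Fin d)) ℂ →ₗ[ℂ] ℂ))
      (fun α => pderiv α Q) l p q
    simpa [GD] using this
  rw [h1, h2]
  simp_rw [gexp_ibp hv]

/-- Normalised moments of traces of words in the GUE matrices. -/
noncomputable def TT (J : Type*) [Fintype J] (d : ℕ) (ws : List (List J)) : ℂ :=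
  ((d : ℂ)⁻¹) ^ ws.length * gexp ((d : ℝ≥0)⁻¹) (tp (GM (J := J) (d := d)) ws)

lemma loopRec_TT [DecidableEq J] : LoopRec (TT J) := by
  refine ⟨?_, ?_, ?_⟩
  · intro d _
    simp [TT, gexp_one]
  · intro d hd ws
    have hd' : (d : ℂ) ≠ 0 := by exact_mod_cast (by omega : d ≠ 0)
    unfold TT
    rw [tp_cons, wm_nil, Matrix.trace_one, Fintype.card_fin, List.length_cons]
    have : ((d : MvPolynomial (J × (Fin d × Fin d)) ℂ)) * tp GM ws = (d : ℂ) • tp GM ws := by
      rw [Algebra.smul_def]; simp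
    rw [this, map_smul, smul_eq_mul, pow_succ]
    field_simp
  · intro d hd l v ws
    have hd' : (d : ℂ) ≠ 0 := by exact_mod_cast (by omega : d ≠ 0)
    have hv : ((d : ℝ≥0)⁻¹) ≠ 0 := by
      apply inv_ne_zero
      exact_mod_cast (by omega : d ≠ 0)
    have h := loop_formula (isEntryDerFamily (J := J) (d := d)) (gexp ((d : ℝ≥0)⁻¹))
      (((d : ℝ≥0)⁻¹ : ℝ≥0) : ℂ) (fun l p q Q => gexp_GM_ibp hv l p q Q) l v ws
    unfold TT
    rw [h]
    have hc : ((((d : ℝ≥0)⁻¹ : ℝ≥0)) : ℂ) = (d : ℂ)⁻¹ := by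
      push_cast
      rfl
    rw [hc]
    simp only [List.length_cons]
    rw [List.sum_map_mul_left]
    have h3 : ((merges l v ws).map (fun us => ((d : ℂ)⁻¹) ^ us.length *
        gexp ((d : ℝ≥0)⁻¹) (tp (GM (J := J) (d := d)) us))).sum =
        ((d : ℂ)⁻¹) ^ ws.length * ((merges l v ws).map (fun us =>
        gexp ((d : ℝ≥0)⁻¹) (tp (GM (J := J) (d := d)) us))).sum := by
      rw [← List.sum_map_mul_left]
      congr 1
      refine List.map_congr_left fun us hus => ?_
      rw [length_of_mem_merges hus]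
    rw [h3]
    ring

omit [Fintype J] in
lemma eval_wm (ω : J × (Fin d × Fin d) → ℝ) (w : List J) :
    (wm (GM (J := J) (d := d)) w).map (eval fun i => (ω i : ℂ)) = (w.map (gueMat ω)).prod := by
  induction w with
  | nil =>
    simp only [wm_nil, List.map_nil, List.prod_nil]
    exact Matrix.map_one _ (map_zero _) (map_one _)
  | cons j w ih =>
    rw [wm_cons, Matrix.map_mul, ih, List.map_cons, List.prod_cons]
    congr 1
    ext a b
    rw [Matrix.map_apply, gueMat_eq_herm, GM]
    have := herm_map (M := MvPolynomial (J × (Fin d × Fin d)) ℂ) (N := ℂ)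
      (aeval (fun i => (ω i : ℂ)) : MvPolynomial (J × (Fin d × Fin d)) ℂ →ₐ[ℂ] ℂ).toLinearMap
      (X : _ → MvPolynomial (J × (Fin d × Fin d)) ℂ) j a b
    simpa [MvPolynomial.aeval_eq_eval] using this

lemma integral_prod_wordTr (ws : List (List J)) :
    ∫ ω, (ws.map (fun w => wordTr ω w)).prod ∂(gueMeasure J d) = TT J d ws := by
  unfold TT gueMeasure
  rw [gexp_apply, ← integral_const_mul]
  congr 1
  funext ω
  induction ws with
  | nil => simp
  | cons w ws ih =>
    rw [List.map_cons, List.prod_cons, ih, tp_cons, map_mul, List.length_cons, pow_succ, wordTr,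
      ← eval_wm]
    have : eval (fun i => (ω i : ℂ)) (Matrix.trace (wm (GM (J := J) (d := d)) w)) =
        Matrix.trace ((wm (GM (J := J) (d := d)) w).map (eval fun i => (ω i : ℂ))) := by
      simp [Matrix.trace, map_sum]
    rw [this]
    ring

end Crest.Agent.R089.GUE
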