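import Crest.Agent.R089.GUEDefs

/-! G3a: density bound (helper952). -/

set_option autoImplicit false

open MeasureTheory ProbabilityTheory Filter Topology
open Crest.OpAlg
open scoped ENNReal NNReal

namespace Crest.Agent.R089

theorem pi_le_smul_pi {ι : Type*} [Fintype ι] {α : ι → Type*} [∀ i, MeasurableSpace (α i)]
    (μ ν : ∀ i, Measure (α i)) [∀ i, SigmaFinite (μ i)] [∀ i, SigmaFinite (ν i)]
    (c : ι → ℝ≥0∞) (hc : ∀ i, c i ≠ ∞)
    (h : ∀ i, μ i ≤ c i • ν i) : Measure.pi μ ≤ (∏ i, c i) • Measure.pi ν := by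
  have hsf : ∀ i, SigmaFinite (c i • ν i) := fun i => by
    have hci := (ENNReal.coe_toNNReal (hc i)).symm
    rw [hci]
    exact inferInstanceAs (SigmaFinite ((c i).toNNReal • ν i))
  have h1 : Measure.pi (fun i => c i • ν i) = (∏ i, c i) • Measure.pi ν := by
    symm
    have := hsf
    refine (Measure.pi_eq fun s hs => ?_).symm
    simp [Measure.pi_pi, Finset.prod_mul_distrib]
  rw [← h1]
  have h2 : (Measure.pi μ).toOuterMeasure ≤
      OuterMeasure.pi (fun i => (c i • ν i).toOuterMeasure) := by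
    rw [OuterMeasure.le_pi]
    intro s _
    have := Measure.pi_pi μ s
    calc (Measure.pi μ).toOuterMeasure (Set.pi Set.univ s) = ∏ i, μ i (s i) := this
      _ ≤ ∏ i, (c i • ν i) (s i) := Finset.prod_le_prod' fun i _ => h i (s i)
  refine Measure.le_iff.mpr fun s hs => ?_
  calc Measure.pi μ s ≤ OuterMeasure.pi (fun i => (c i • ν i).toOuterMeasure) s := h2 s
    _ = Measure.pi (fun i => c i • ν i) s := by
        rw [Measure.pi, toMeasure_apply _ _ hs]

theorem gaussianReal_le_smul (m : ℝ) (v : ℝ≥0) (hv : v ≠ 0) :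
    gaussianReal m v ≤ ENNReal.ofReal ((Real.sqrt (2 * Real.pi * v))⁻¹) • (volume : Measure ℝ) := by
  rw [gaussianReal_of_var_ne_zero m hv]
  rw [← withDensity_const]
  apply withDensity_mono
  refine Eventually.of_forall fun x => ?_
  rw [gaussianPDF, gaussianPDFReal]
  apply ENNReal.ofReal_le_ofReal
  have h1 : Real.exp (-(x - m) ^ 2 / (2 * v)) ≤ 1 := by
    rw [Real.exp_le_one_iff]
    have : (0:ℝ) ≤ v := v.2
    have h3 : 0 ≤ (x - m) ^ 2 / (2 * v) := by positivity
    rw [neg_div]; linarith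
  have h2 : 0 ≤ (Real.sqrt (2 * Real.pi * v))⁻¹ := by positivity
  calc _ ≤ (Real.sqrt (2 * Real.pi * v))⁻¹ * 1 := by gcongr
    _ = _ := mul_one _

/-- merging letter and noise coordinates -/
def mergeCoords {K N P : Type*} (z : (K × P → ℝ) × (N × P → ℝ)) : (K ⊕ N) × P → ℝ :=
  fun q => Sum.elim (fun k => z.1 (k, q.2)) (fun i => z.2 (i, q.2)) q.1

theorem measurePreserving_mergeCoords {K N P : Type*} [Fintype K] [Fintype N] [Fintype P]
    (μ : Measure ℝ) [SigmaFinite μ] :
    MeasurePreserving (mergeCoords (K := K) (N := N) (P := P))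
      ((Measure.pi fun _ => μ).prod (Measure.pi fun _ => μ)) (Measure.pi fun _ => μ) := by
  have hm : Measurable (mergeCoords (K := K) (N := N) (P := P)) := by
    refine measurable_pi_lambda _ fun q => ?_
    rcases q with ⟨q | q, p⟩
    · exact (measurable_pi_apply (q, p)).comp measurable_fst
    · exact (measurable_pi_apply (q, p)).comp measurable_snd
  refine ⟨hm, (Measure.pi_eq fun s hs => ?_).symm⟩
  rw [Measure.map_apply hm (MeasurableSet.univ_pi hs)]
  have : mergeCoords ⁻¹' (Set.pi Set.univ s) =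
      (Set.pi Set.univ fun q : K × P => s (Sum.inl q.1, q.2)) ×ˢ
      (Set.pi Set.univ fun q : N × P => s (Sum.inr q.1, q.2)) := by
    ext z
    simp only [Set.mem_preimage, Set.mem_pi, Set.mem_univ, true_implies, Set.mem_prod,
      mergeCoords, Prod.forall, Sum.forall, Sum.elim_inl, Sum.elim_inr]
  rw [this, Measure.prod_prod, Measure.pi_pi, Measure.pi_pi]
  simp [Fintype.prod_prod_type, Fintype.prod_sum_type]

theorem affine_map_le {N P : Type*} [Fintype N] [Fintype P] (v : ℝ≥0) (hv : v ≠ 0) (δ : N → ℝ)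
    (hδ : ∀ i, 0 < δ i) (b : N × P → ℝ) (S : Set (N × P → ℝ)) (hS : MeasurableSet S) :
    (Measure.pi fun _ : N × P => gaussianReal 0 v)
      {y | (fun p : N × P => b p + Real.sqrt (δ p.1) * y p) ∈ S} ≤
      ENNReal.ofReal (∏ i, ((Real.sqrt (2 * Real.pi * (δ i * v)))⁻¹) ^ (Fintype.card P)) *
        volume S := by
  have hf : ∀ p : N × P, Measurable (fun t : ℝ => b p + Real.sqrt (δ p.1) * t) := fun p => by
    fun_prop
  have hmap : ∀ p : N × P, (gaussianReal 0 v).map (fun t : ℝ => b p + Real.sqrt (δ p.1) * t) =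
      gaussianReal (b p) (⟨δ p.1, (hδ p.1).le⟩ * v) := fun p => by
    have : (fun t : ℝ => b p + Real.sqrt (δ p.1) * t) =
        (fun t => b p + t) ∘ (fun t => Real.sqrt (δ p.1) * t) := rfl
    rw [this, ← Measure.map_map (by fun_prop) (by fun_prop), gaussianReal_map_const_mul,
      gaussianReal_map_const_add]
    congr 1
    · simp
    · congr 1
      ext
      simp only [NNReal.coe_mk]
      exact Real.sq_sqrt (hδ p.1).le
  have h1 : (Measure.pi fun _ : N × P => gaussianReal 0 v)
      {y | (fun p : N × P => b p + Real.sqrt (δ p.1) * y p) ∈ S} =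
      (Measure.pi fun p : N × P => gaussianReal (b p) (⟨δ p.1, (hδ p.1).le⟩ * v)) S := by
    have h2 := Measure.pi_map_pi (μ := fun _ : N × P => gaussianReal 0 v)
      (f := fun (p : N × P) (t : ℝ) => b p + Real.sqrt (δ p.1) * t)
      (hμ := fun p => by rw [hmap p]; infer_instance)
      (fun p => (hf p).aemeasurable)
    simp_rw [hmap] at h2
    rw [← h2, Measure.map_apply _ hS]
    · rfl
    · exact measurable_pi_lambda _ fun p => (hf p).comp (measurable_pi_apply p)
  rw [h1]
  have hv' : ∀ p : N × P, (⟨δ p.1, (hδ p.1).le⟩ * v : ℝ≥0) ≠ 0 := fun p => by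
    apply mul_ne_zero _ hv
    intro h
    exact (hδ p.1).ne' (congrArg NNReal.toReal h)
  have h3 := pi_le_smul_pi (fun p : N × P => gaussianReal (b p) (⟨δ p.1, (hδ p.1).le⟩ * v))
    (fun _ => (volume : Measure ℝ))
    (fun p => ENNReal.ofReal ((Real.sqrt (2 * Real.pi * (⟨δ p.1, (hδ p.1).le⟩ * v : ℝ≥0)))⁻¹))
    (fun p => ENNReal.ofReal_ne_top)
    (fun p => gaussianReal_le_smul (b p) _ (hv' p))
  refine (h3 S).trans ?_
  rw [Measure.smul_apply, smul_eq_mul, ← volume_pi]
  gcongr
  rw [← ENNReal.ofReal_prod_of_nonneg (fun _ _ => by positivity)]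
  apply ENNReal.ofReal_le_ofReal
  rw [Fintype.prod_prod_type]
  apply le_of_eq
  refine Finset.prod_congr rfl fun i _ => ?_
  have hcoe : ((HMul.hMul (α := ℝ≥0) (β := ℝ≥0) (γ := ℝ≥0) ⟨δ i, (hδ i).le⟩ v : ℝ≥0) : ℝ) =
      δ i * v := rfl
  simp only [hcoe, Finset.prod_const, Finset.card_univ]

/-- (G3a) density bound: the law of `b(letters) + √δ · noise` has density at most
`∏ (2 π δ_i / d)^(-d²/2)`. -/
theorem gue_density_bound {K : Type*} [Fintype K] {n d : ℕ} (hd : 0 < d) (δ : Fin n → ℝ)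
    (hδ : ∀ i, 0 < δ i)
    (b : (K × (Fin d × Fin d) → ℝ) → (Fin n × (Fin d × Fin d) → ℝ)) (hb : Measurable b)
    (Γ : Set (EuclideanSpace ℝ (Fin n × (Fin d × Fin d)))) :
    gueMeasure (K ⊕ Fin n) d {ω | WithLp.toLp 2 (fun p : Fin n × (Fin d × Fin d) =>
        b (fun q => ω (Sum.inl q.1, q.2)) p + Real.sqrt (δ p.1) * ω (Sum.inr p.1, p.2)) ∈ Γ} ≤
      ENNReal.ofReal (∏ i, ((Real.sqrt (2 * Real.pi * δ i / d))⁻¹) ^ (d ^ 2)) * volume Γ := by
  classical
  set v : ℝ≥0 := (d : ℝ≥0)⁻¹ with hv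
  have hv0 : v ≠ 0 := by
    rw [hv]; apply inv_ne_zero; exact_mod_cast hd.ne'
  set Γ' := toMeasurable (volume : Measure (EuclideanSpace ℝ (Fin n × (Fin d × Fin d)))) Γ with hΓ'
  have hΓm : MeasurableSet Γ' := measurableSet_toMeasurable _ _
  set S : Set (Fin n × (Fin d × Fin d) → ℝ) := (WithLp.toLp 2) ⁻¹' Γ' with hS
  have htm : MeasurePreserving (WithLp.toLp 2 : (Fin n × (Fin d × Fin d) → ℝ) →
      EuclideanSpace ℝ (Fin n × (Fin d × Fin d))) volume volume :=
    PiLp.volume_preserving_toLp _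
  have hSm : MeasurableSet S := htm.measurable hΓm
  have hvolS : volume S = volume Γ := by
    rw [hS, htm.measure_preimage hΓm.nullMeasurableSet, hΓ', measure_toMeasurable]
  set T : Set ((K ⊕ Fin n) × (Fin d × Fin d) → ℝ) :=
    {ω | (fun p : Fin n × (Fin d × Fin d) =>
        b (fun q => ω (Sum.inl q.1, q.2)) p + Real.sqrt (δ p.1) * ω (Sum.inr p.1, p.2)) ∈ S}
    with hT
  have hmeasf : Measurable (fun (ω : (K ⊕ Fin n) × (Fin d × Fin d) → ℝ)
      (p : Fin n × (Fin d × Fin d)) => b (fun q => ω (Sum.inl q.1, q.2)) p +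
        Real.sqrt (δ p.1) * ω (Sum.inr p.1, p.2)) := by
    refine measurable_pi_lambda _ fun p => ?_
    refine Measurable.add ?_ ?_
    · refine (measurable_pi_apply p).comp (hb.comp ?_)
      exact measurable_pi_lambda _ fun q => measurable_pi_apply _
    · exact (measurable_pi_apply _).const_mul _
  have hTm : MeasurableSet T := hmeasf hSm
  calc gueMeasure (K ⊕ Fin n) d {ω | WithLp.toLp 2 (fun p : Fin n × (Fin d × Fin d) =>
        b (fun q => ω (Sum.inl q.1, q.2)) p + Real.sqrt (δ p.1) * ω (Sum.inr p.1, p.2)) ∈ Γ}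
      ≤ gueMeasure (K ⊕ Fin n) d T := by
        apply measure_mono
        intro ω hω
        exact subset_toMeasurable _ _ hω
    _ = ((Measure.pi fun _ : K × (Fin d × Fin d) => gaussianReal 0 v).prod
          (Measure.pi fun _ : Fin n × (Fin d × Fin d) => gaussianReal 0 v))
          (mergeCoords ⁻¹' T) := by
        rw [(measurePreserving_mergeCoords (gaussianReal 0 v)).measure_preimage
          hTm.nullMeasurableSet]
        rfl
    _ = ∫⁻ x, (Measure.pi fun _ : Fin n × (Fin d × Fin d) => gaussianReal 0 v)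
          (Prod.mk x ⁻¹' (mergeCoords ⁻¹' T))
          ∂(Measure.pi fun _ : K × (Fin d × Fin d) => gaussianReal 0 v) := by
        rw [Measure.prod_apply]
        exact (measurePreserving_mergeCoords (gaussianReal 0 v)).measurable hTm
    _ ≤ ∫⁻ _x, ENNReal.ofReal (∏ i, ((Real.sqrt (2 * Real.pi * (δ i * v)))⁻¹) ^
            (Fintype.card (Fin d × Fin d))) * volume S
          ∂(Measure.pi fun _ : K × (Fin d × Fin d) => gaussianReal 0 v) := by
        apply lintegral_mono
        intro x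
        exact affine_map_le v hv0 δ hδ (b x) S hSm
    _ = _ := by
        rw [lintegral_const, measure_univ, mul_one, hvolS]
        congr 2
        simp only [Fintype.card_prod, Fintype.card_fin, hv]
        refine Finset.prod_congr rfl fun i _ => ?_
        rw [pow_two]
        congr 3
        push_cast
        ring

end Crest.Agent.R089
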