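import Crest.Agent.R089.GUEDefs

/-! G3: density bound and `EReal` bookkeeping (helper952). -/

set_option autoImplicit false

open MeasureTheory ProbabilityTheory Filter Topology
open Crest.OpAlg
open scoped ENNReal NNReal

namespace Crest.Agent.R089

/-- (G3b) `EReal` bookkeeping: a uniform volume lower bound for the microstate sets gives
`χ > -∞`. -/
theorem bot_lt_chi_of_volume {A : Type*} [Ring A] [Algebra ℂ A] (τ : A →ₗ[ℂ] ℂ) {n : ℕ}
    (X : Fin n → A) (δ : Fin n → ℝ) (hδ : ∀ i, 0 < δ i) (R : ℝ) (hR : 0 < R)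
    (h : ∀ (m : ℕ) (ε : ℝ), 0 < ε → ∀ᶠ d : ℕ in atTop,
      (1 / 2 : ℝ≥0∞) ≤ ENNReal.ofReal (∏ i, ((Real.sqrt (2 * Real.pi * δ i / d))⁻¹) ^ (d ^ 2)) *
        volume (microstates τ X R m d ε)) :
    ⊥ < chi τ X := by
  set κ : ℝ := -Real.log 2 + ∑ i, (1 / 2) * Real.log (2 * Real.pi * δ i) with hκ
  have key : (κ : EReal) ≤ chiCutoff τ X R := by
    unfold chiCutoff
    refine le_iInf fun m => le_iInf fun ε => le_iInf fun hε => ?_
    apply Filter.le_limsup_of_frequently_le'
    apply Eventually.frequently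
    filter_upwards [h m ε hε, eventually_ge_atTop 1] with d hd hd1
    have hd0 : (0 : ℝ) < d := by exact_mod_cast hd1
    set c : ℝ := ∏ i, ((Real.sqrt (2 * Real.pi * δ i / d))⁻¹) ^ (d ^ 2) with hc
    have hpos : ∀ i, 0 < 2 * Real.pi * δ i / d := fun i => by
      have := hδ i; have := Real.pi_pos; positivity
    have hc0 : 0 < c := by
      rw [hc]; apply Finset.prod_pos; intro i _
      have := Real.sqrt_pos.mpr (hpos i); positivity
    have hvol : ENNReal.ofReal (c⁻¹ / 2) ≤ volume (microstates τ X R m d ε) := by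
      have h1 : ENNReal.ofReal (c⁻¹ / 2) = ENNReal.ofReal c⁻¹ * (1 / 2) := by
        rw [div_eq_mul_inv, ENNReal.ofReal_mul (by positivity)]
        congr 1
        rw [ENNReal.ofReal_inv_of_pos (by norm_num)]
        simp
      rw [h1]
      calc ENNReal.ofReal c⁻¹ * (1 / 2)
          ≤ ENNReal.ofReal c⁻¹ * (ENNReal.ofReal c * volume (microstates τ X R m d ε)) := by
            gcongr
        _ = volume (microstates τ X R m d ε) := by
            rw [← mul_assoc, ← ENNReal.ofReal_mul (by positivity), inv_mul_cancel₀ hc0.ne']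
            simp
    have hlog : ((Real.log (c⁻¹ / 2) : ℝ) : EReal) ≤
        (volume (microstates τ X R m d ε)).log := by
      rw [← ENNReal.log_ofReal_of_pos (by positivity)]
      exact ENNReal.log_le_log hvol
    have hval : Real.log (c⁻¹ / 2) = (d : ℝ) ^ 2 * (∑ i, (1 / 2) * Real.log (2 * Real.pi * δ i)
        - (n : ℝ) / 2 * Real.log d) - Real.log 2 := by
      rw [Real.log_div (by positivity) (by norm_num), Real.log_inv, hc, Real.log_prod]
      · have : ∀ i : Fin n, Real.log (((Real.sqrt (2 * Real.pi * δ i / d))⁻¹) ^ (d ^ 2)) =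
            - ((d : ℝ) ^ 2 * ((1 / 2) * Real.log (2 * Real.pi * δ i) - 1 / 2 * Real.log d)) := by
          intro i
          rw [Real.log_pow, Real.log_inv, Real.log_sqrt (hpos i).le,
            Real.log_div (by have := hδ i; have := Real.pi_pos; positivity) hd0.ne']
          push_cast
          ring
        simp_rw [this]
        rw [Finset.sum_neg_distrib, ← Finset.mul_sum, Finset.sum_sub_distrib]
        simp only [Finset.sum_const, Finset.card_univ, Fintype.card_fin, nsmul_eq_mul]
        ring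
      · intro i _
        have := Real.sqrt_pos.mpr (hpos i); positivity
    have hcoef : (0 : EReal) ≤ ((((d : ℝ) ^ 2)⁻¹ : ℝ) : EReal) := by
      exact_mod_cast (by positivity : (0:ℝ) ≤ ((d : ℝ) ^ 2)⁻¹)
    calc (κ : EReal) ≤ (((((d : ℝ) ^ 2)⁻¹) * Real.log (c⁻¹ / 2) + (n : ℝ) / 2 * Real.log d : ℝ) : EReal) := by
          rw [EReal.coe_le_coe_iff, hval, mul_sub, ← mul_assoc, inv_mul_cancel₀ (by positivity), hκ]
          have h2 : ((d : ℝ) ^ 2)⁻¹ * Real.log 2 ≤ Real.log 2 := by
            have : ((d : ℝ) ^ 2)⁻¹ ≤ 1 := by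
              apply inv_le_one_of_one_le₀
              have : (1 : ℝ) ≤ d := by exact_mod_cast hd1
              nlinarith
            have hl : 0 < Real.log 2 := Real.log_pos (by norm_num)
            nlinarith
          linarith
      _ = ((((d : ℝ) ^ 2)⁻¹ : ℝ) : EReal) * ((Real.log (c⁻¹ / 2) : ℝ) : EReal) +
            (((n : ℝ) / 2 * Real.log d : ℝ) : EReal) := by
          rw [EReal.coe_add, EReal.coe_mul]
      _ ≤ _ := by
          gcongr
  calc (⊥ : EReal) < (κ : EReal) := EReal.bot_lt_coe κ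
    _ ≤ chiCutoff τ X R := key
    _ ≤ chi τ X := by
        unfold chi
        exact le_iSup₂_of_le R hR le_rfl

end Crest.Agent.R089
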