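import Crest.Agent.R089.GUEDensity
import Crest.Agent.R089.GUEVolume
import Crest.Agent.R089.ChiStar

/-! G4: assembly of the microstates lower bound from G1 and G2 (helper952). -/

set_option autoImplicit false

open MeasureTheory ProbabilityTheory Filter Topology
open Crest.OpAlg
open scoped ENNReal NNReal

namespace Crest.Agent.R089.GUEMain

section coords
variable {d : ℕ}

theorem hermitianOfCoords_add (a b : EuclideanSpace ℝ (Fin d × Fin d)) :
    hermitianOfCoords (a + b) = hermitianOfCoords a + hermitianOfCoords b := by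
  ext i j
  simp only [hermitianOfCoords, Matrix.add_apply, PiLp.add_apply]
  split_ifs <;> push_cast <;> ring

theorem hermitianOfCoords_smul (c : ℝ) (a : EuclideanSpace ℝ (Fin d × Fin d)) :
    hermitianOfCoords (c • a) = (c : ℂ) • hermitianOfCoords a := by
  ext i j
  simp only [hermitianOfCoords, Matrix.smul_apply, PiLp.smul_apply, smul_eq_mul]
  split_ifs <;> push_cast <;> ring

theorem isHermitian_hermitianOfCoords (a : EuclideanSpace ℝ (Fin d × Fin d)) :
    (hermitianOfCoords a).IsHermitian := by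
  ext i j
  rw [Matrix.conjTranspose_apply]
  simp only [hermitianOfCoords]
  rcases lt_trichotomy i j with h | h | h
  · rw [if_neg h.ne', if_neg (not_lt.mpr h.le), if_neg h.ne, if_pos h]
    simp only [RCLike.star_def, map_div₀, map_sub, map_mul, Complex.conj_ofReal, Complex.conj_I]
    ring
  · subst h
    simp
  · rw [if_neg h.ne, if_pos h, if_neg h.ne', if_neg (not_lt.mpr h.le)]
    simp only [RCLike.star_def, map_div₀, map_add, map_mul, Complex.conj_ofReal, Complex.conj_I]
    ring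

/-- Coordinates of a Hermitian matrix. -/
noncomputable def coordsOf (H : Matrix (Fin d) (Fin d) ℂ) (p : Fin d × Fin d) : ℝ :=
  if p.1 = p.2 then (H p.1 p.1).re
  else if p.1 < p.2 then Real.sqrt 2 * (H p.1 p.2).re
  else Real.sqrt 2 * (H p.2 p.1).im

theorem hermitianOfCoords_coordsOf (H : Matrix (Fin d) (Fin d) ℂ) (hH : H.IsHermitian) :
    hermitianOfCoords (WithLp.toLp 2 (coordsOf H)) = H := by
  have hs : ((Real.sqrt 2 : ℝ) : ℂ) ≠ 0 := by
    rw [Complex.ofReal_ne_zero]; positivity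
  ext i j
  have hij : star (H j i) = H i j := hH.apply i j
  simp only [hermitianOfCoords, coordsOf]
  rcases lt_trichotomy i j with h | h | h
  · rw [if_neg h.ne, if_pos h, if_neg h.ne, if_pos h, if_neg h.ne', if_neg (not_lt.mpr h.le)]
    push_cast
    rw [mul_assoc, ← mul_add, mul_div_cancel_left₀ _ hs]
    exact Complex.re_add_im _
  · subst h
    simp only [if_true]
    have : (H i i).im = 0 := by
      have h1 := congrArg Complex.im hij
      simp at h1
      linarith
    apply Complex.ext <;> simp [this]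
  · rw [if_neg h.ne', if_neg (not_lt.mpr h.le), if_neg h.ne, if_pos h, if_neg h.ne',
      if_neg (not_lt.mpr h.le)]
    push_cast
    rw [mul_assoc, ← mul_sub, mul_div_cancel_left₀ _ hs, ← hij]
    apply Complex.ext <;> simp

theorem continuous_coordsOf : Continuous (fun H : Matrix (Fin d) (Fin d) ℂ => coordsOf H) := by
  refine continuous_pi fun p => ?_
  unfold coordsOf
  split_ifs
  · exact Complex.continuous_re.comp (continuous_id.matrix_elem _ _)
  · exact continuous_const.mul (Complex.continuous_re.comp (continuous_id.matrix_elem _ _))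
  · exact continuous_const.mul (Complex.continuous_im.comp (continuous_id.matrix_elem _ _))

theorem continuous_gueMat {J : Type*} (j : J) :
    Continuous (fun ω : J × (Fin d × Fin d) → ℝ => gueMat ω j) := by
  refine continuous_matrix fun p q => ?_
  simp only [gueMat, hermitianOfCoords]
  split_ifs
  · exact Complex.continuous_ofReal.comp (continuous_apply _)
  · exact ((Complex.continuous_ofReal.comp (continuous_apply _)).add
      ((Complex.continuous_ofReal.comp (continuous_apply _)).mul continuous_const)).div_const _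
  · exact ((Complex.continuous_ofReal.comp (continuous_apply _)).sub
      ((Complex.continuous_ofReal.comp (continuous_apply _)).mul continuous_const)).div_const _

end coords

section poly

/-- Evaluation of polynomials in letters `J`. -/
noncomputable def evalJ {J B : Type*} [Ring B] [Algebra ℂ B] (g : J → B) :
    MonoidAlgebra ℂ (FreeMonoid J) →ₐ[ℂ] B :=
  MonoidAlgebra.lift ℂ B (FreeMonoid J) (FreeMonoid.lift g)

theorem evalJ_single {J B : Type*} [Ring B] [Algebra ℂ B] (g : J → B) (w : FreeMonoid J) (c : ℂ) :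
    evalJ g (MonoidAlgebra.single w c) = c • FreeMonoid.lift g w := by
  rw [evalJ, MonoidAlgebra.lift_single]

theorem evalJ_comp {J J' B : Type*} [Ring B] [Algebra ℂ B] (g : J → B)
    (h : J' → MonoidAlgebra ℂ (FreeMonoid J)) (P : MonoidAlgebra ℂ (FreeMonoid J')) :
    evalJ g (evalJ h P) = evalJ (fun j => evalJ g (h j)) P := by
  have : (evalJ g).comp (evalJ h) = evalJ (fun j => evalJ g (h j)) := by
    refine MonoidAlgebra.algHom_ext (fun m => ?_) (Subsingleton.elim _ _)
    rw [AlgHom.comp_apply, evalJ_single, evalJ_single, one_smul, one_smul]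
    exact FreeMonoid.hom_map_lift (evalJ g : MonoidAlgebra ℂ (FreeMonoid J) →* B) h m
  exact DFunLike.congr_fun this P

theorem linear_evalJ {J B : Type*} [Ring B] [Algebra ℂ B] (L : B →ₗ[ℂ] ℂ) (g : J → B)
    (P : MonoidAlgebra ℂ (FreeMonoid J)) :
    L (evalJ g P) = ∑ u ∈ P.coeff.support, P.coeff u * L ((FreeMonoid.toList u).map g).prod := by
  rw [evalJ, MonoidAlgebra.lift_apply, Finsupp.sum, map_sum]
  refine Finset.sum_congr rfl fun u _ => ?_
  rw [map_smul, smul_eq_mul, FreeMonoid.lift_apply]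

variable {k n : ℕ}

/-- The substitution polynomials. -/
noncomputable def thetaLetter (Q : Fin n → NCPoly k) (δ : Fin n → ℝ) (i : Fin n) :
    MonoidAlgebra ℂ (FreeMonoid (Fin k ⊕ Fin n)) :=
  evalJ (fun a => MonoidAlgebra.single (FreeMonoid.of (Sum.inl a)) 1) (Q i) +
    MonoidAlgebra.single (FreeMonoid.of (Sum.inr i)) (Real.sqrt (δ i) : ℂ)

theorem evalJ_theta {B : Type*} [Ring B] [Algebra ℂ B] (g : Fin k ⊕ Fin n → B)
    (Q : Fin n → NCPoly k) (δ : Fin n → ℝ) (w : FreeMonoid (Fin n)) :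
    evalJ g (FreeMonoid.lift (thetaLetter Q δ) w) =
      wordEval (fun i => polyEval (fun a => g (Sum.inl a)) (Q i) +
        (Real.sqrt (δ i) : ℂ) • g (Sum.inr i)) w := by
  have h : ((evalJ g : MonoidAlgebra ℂ (FreeMonoid (Fin k ⊕ Fin n)) →* B).comp
      (FreeMonoid.lift (thetaLetter Q δ))) =
      FreeMonoid.lift (fun i => polyEval (fun a => g (Sum.inl a)) (Q i) +
        (Real.sqrt (δ i) : ℂ) • g (Sum.inr i)) := by
    refine FreeMonoid.hom_eq fun i => ?_
    simp only [MonoidHom.comp_apply, FreeMonoid.lift_eval_of, MonoidHom.coe_coe, thetaLetter,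
      map_add, evalJ_comp, evalJ_single, one_smul]
    rfl
  exact DFunLike.congr_fun h w

/-- moments of the substituted tuple -/
theorem tau_wordEval_eq {A : Type*} [Ring A] [Algebra ℂ A] (τ : A →ₗ[ℂ] ℂ)
    (a : Fin k → A) (b : Fin n → A) (φ : List (Fin k ⊕ Fin n) → ℝ)
    (hτ : ∀ w : List (Fin k ⊕ Fin n), τ ((w.map (Sum.elim a b)).prod) = (φ w : ℂ))
    (Q : Fin n → NCPoly k) (δ : Fin n → ℝ) (w : FreeMonoid (Fin n)) :
    τ (wordEval (fun i => polyEval a (Q i) + (Real.sqrt (δ i) : ℂ) • b i) w) =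
      ∑ u ∈ (FreeMonoid.lift (thetaLetter Q δ) w).coeff.support,
        (FreeMonoid.lift (thetaLetter Q δ) w).coeff u * (φ (FreeMonoid.toList u) : ℂ) := by
  have h := evalJ_theta (Sum.elim a b) Q δ w
  simp only [Sum.elim_inl, Sum.elim_inr] at h
  rw [← h, linear_evalJ]
  refine Finset.sum_congr rfl fun u _ => ?_
  rw [hτ]

/-- The matrix model tuple. -/
noncomputable def modelTuple {d : ℕ} (Q : Fin n → NCPoly k) (δ : Fin n → ℝ)
    (ω : (Fin k ⊕ Fin n) × (Fin d × Fin d) → ℝ) (i : Fin n) : Matrix (Fin d) (Fin d) ℂ :=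
  polyEval (fun a => gueMat ω (Sum.inl a)) (Q i) +
        (Real.sqrt (δ i) : ℂ) • gueMat ω (Sum.inr i)

theorem matrixMoment_modelTuple {d : ℕ} (Q : Fin n → NCPoly k) (δ : Fin n → ℝ)
    (ω : (Fin k ⊕ Fin n) × (Fin d × Fin d) → ℝ) (w : FreeMonoid (Fin n)) :
    matrixMoment (modelTuple Q δ ω) w =
      ∑ u ∈ (FreeMonoid.lift (thetaLetter Q δ) w).coeff.support,
        (FreeMonoid.lift (thetaLetter Q δ) w).coeff u * wordTr ω (FreeMonoid.toList u) := by
  have h := evalJ_theta (gueMat ω) Q δ w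
  have h2 := linear_evalJ ((d : ℂ)⁻¹ • Matrix.traceLinearMap (Fin d) ℂ ℂ) (gueMat ω)
    (FreeMonoid.lift (thetaLetter Q δ) w)
  rw [h] at h2
  simp only [LinearMap.smul_apply, Matrix.traceLinearMap_apply, smul_eq_mul] at h2
  exact h2

/-- coordinates of the letter part -/
noncomputable def letterCoords {d : ℕ} (Q : Fin n → NCPoly k)
    (x : Fin k × (Fin d × Fin d) → ℝ) (p : Fin n × (Fin d × Fin d)) : ℝ :=
  coordsOf (polyEval (fun a => gueMat x a) (Q p.1)) p.2

theorem continuous_wordEval {d : ℕ} (w : FreeMonoid (Fin k)) :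
    Continuous (fun x : Fin k × (Fin d × Fin d) → ℝ => wordEval (fun a => gueMat x a) w) := by
  induction w using FreeMonoid.inductionOn' with
  | one => simp only [ChiStar.wordEval_one]; exact continuous_const
  | of_mul i w ih =>
    simp only [ChiStar.wordEval_cons]
    exact (continuous_gueMat i).matrix_mul ih

theorem continuous_polyEval {d : ℕ} (P : NCPoly k) :
    Continuous (fun x : Fin k × (Fin d × Fin d) → ℝ => polyEval (fun a => gueMat x a) P) := by
  simp only [ChiStar.polyEval_eq_sum, Finsupp.sum]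
  refine continuous_finsetSum _ fun w _ => ?_
  exact Continuous.const_smul (M := ℂ) (α := Matrix (Fin d) (Fin d) ℂ)
    (continuous_wordEval w) (P.coeff w)

theorem measurable_letterCoords {d : ℕ} (Q : Fin n → NCPoly k) :
    Measurable (letterCoords (d := d) Q) := by
  refine Continuous.measurable ?_
  refine continuous_pi fun p => ?_
  exact (continuous_apply p.2).comp (continuous_coordsOf.comp (continuous_polyEval (Q p.1)))

theorem matrixTuple_eq {d : ℕ} (Q : Fin n → NCPoly k) (hQ : ∀ i, polyStar (Q i) = Q i)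
    (δ : Fin n → ℝ) (ω : (Fin k ⊕ Fin n) × (Fin d × Fin d) → ℝ) :
    matrixTuple (WithLp.toLp 2 (fun p : Fin n × (Fin d × Fin d) =>
        letterCoords Q (fun q => ω (Sum.inl q.1, q.2)) p +
          Real.sqrt (δ p.1) * ω (Sum.inr p.1, p.2))) = modelTuple Q δ ω := by
  funext i
  unfold matrixTuple modelTuple
  have h1 : (WithLp.toLp 2 fun p => (WithLp.toLp 2 (fun p : Fin n × (Fin d × Fin d) =>
        letterCoords Q (fun q => ω (Sum.inl q.1, q.2)) p +
          Real.sqrt (δ p.1) * ω (Sum.inr p.1, p.2))) (i, p) : EuclideanSpace ℝ (Fin d × Fin d)) =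
      WithLp.toLp 2 (coordsOf (polyEval (fun a => gueMat ω (Sum.inl a)) (Q i))) +
        Real.sqrt (δ i) • (WithLp.toLp 2 fun p => ω (Sum.inr i, p)) := by
    ext p
    rfl
  rw [h1, hermitianOfCoords_add, hermitianOfCoords_smul, hermitianOfCoords_coordsOf]
  · rfl
  · exact ChiStar.isSelfAdjoint_polyEval _ (fun a => isHermitian_hermitianOfCoords _) _ (hQ i)

theorem norm_wordEval_le {B : Type*} [NormedRing B] [NormedAlgebra ℂ B] (h1 : ‖(1 : B)‖ ≤ 1)
    (X : Fin k → B) (C : ℝ) (hC : ∀ i, ‖X i‖ ≤ C) (w : FreeMonoid (Fin k)) :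
    ‖wordEval X w‖ ≤ C ^ (FreeMonoid.toList w).length := by
  induction w using FreeMonoid.inductionOn' with
  | one => simpa [ChiStar.wordEval_one] using h1
  | of_mul i w ih =>
    rw [ChiStar.wordEval_cons]
    refine (norm_mul_le _ _).trans ?_
    have : (FreeMonoid.toList (FreeMonoid.of i * w)).length = (FreeMonoid.toList w).length + 1 := by
      simp
    rw [this, pow_succ']
    exact mul_le_mul (hC i) ih (norm_nonneg _) ((norm_nonneg _).trans (hC i))

theorem norm_polyEval_le {B : Type*} [NormedRing B] [NormedAlgebra ℂ B] (h1 : ‖(1 : B)‖ ≤ 1)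
    (X : Fin k → B) (C : ℝ) (hC : ∀ i, ‖X i‖ ≤ C) (P : NCPoly k) :
    ‖polyEval X P‖ ≤ ∑ w ∈ P.coeff.support, ‖P.coeff w‖ * C ^ (FreeMonoid.toList w).length := by
  rw [ChiStar.polyEval_eq_sum, Finsupp.sum]
  refine (norm_sum_le _ _).trans (Finset.sum_le_sum fun w _ => ?_)
  rw [norm_smul]
  exact mul_le_mul_of_nonneg_left (norm_wordEval_le h1 X C hC w) (norm_nonneg _)

theorem map_polyEval {B B' : Type*} [Ring B] [Algebra ℂ B] [Ring B'] [Algebra ℂ B']
    (f : B →ₐ[ℂ] B') (X : Fin k → B) (P : NCPoly k) :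
    f (polyEval X P) = polyEval (fun i => f (X i)) P := by
  rw [ChiStar.polyEval_eq_sum, ChiStar.polyEval_eq_sum, Finsupp.sum, Finsupp.sum, map_sum]
  refine Finset.sum_congr rfl fun w _ => ?_
  rw [map_smul]
  congr 1
  exact FreeMonoid.hom_map_lift (f : B →* B') X w

theorem norm_modelTuple_le {d : ℕ} (Q : Fin n → NCPoly k) (δ : Fin n → ℝ)
    (ω : (Fin k ⊕ Fin n) × (Fin d × Fin d) → ℝ) (C : ℝ)
    (hC : ∀ j, ‖Matrix.toEuclideanCLM (n := Fin d) (𝕜 := ℂ) (gueMat ω j)‖ ≤ C) (i : Fin n) :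
    ‖Matrix.toEuclideanCLM (n := Fin d) (𝕜 := ℂ) (modelTuple Q δ ω i)‖ ≤
      (∑ w ∈ (Q i).coeff.support, ‖(Q i).coeff w‖ * C ^ (FreeMonoid.toList w).length) +
        Real.sqrt (δ i) * C := by
  unfold modelTuple
  rw [map_add, map_smul]
  refine (norm_add_le _ _).trans (add_le_add ?_ ?_)
  · have := map_polyEval (Matrix.toEuclideanCLM (n := Fin d) (𝕜 := ℂ)).toAlgEquiv.toAlgHom
      (fun a => gueMat ω (Sum.inl a)) (Q i)
    have h2 := norm_polyEval_le (B := EuclideanSpace ℂ (Fin d) →L[ℂ] EuclideanSpace ℂ (Fin d))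
      ContinuousLinearMap.norm_id_le
      (fun a => Matrix.toEuclideanCLM (n := Fin d) (𝕜 := ℂ) (gueMat ω (Sum.inl a))) C
      (fun a => hC _) (Q i)
    refine le_trans (le_of_eq ?_) h2
    exact congrArg norm this
  · rw [norm_smul]
    refine mul_le_mul ?_ (hC _) (norm_nonneg _) (Real.sqrt_nonneg _)
    rw [Complex.norm_real, Real.norm_of_nonneg (Real.sqrt_nonneg _)]

end poly

theorem isProbabilityMeasure_gueMeasure (J : Type*) [Fintype J] (d : ℕ) :
    IsProbabilityMeasure (gueMeasure J d) := by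
  unfold gueMeasure; infer_instance

end Crest.Agent.R089.GUEMain

namespace Crest.Agent.R089

open GUEMain

/-- G4, with G1 and G2 as hypotheses. -/
theorem bot_lt_chi_of {A : Type*} [Ring A] [Algebra ℂ A] (τ : A →ₗ[ℂ] ℂ) {k n : ℕ}
    (a : Fin k → A) (b : Fin n → A) (φ : List (Fin k ⊕ Fin n) → ℝ)
    (hG1 : ∀ (w : List (Fin k ⊕ Fin n)) (ε : ℝ), 0 < ε →
      Tendsto (fun d : ℕ => gueMeasure (Fin k ⊕ Fin n) d {ω | ε ≤ ‖wordTr ω w - φ w‖})
        atTop (𝓝 0))
    (hG2 : ∃ C : ℝ, 0 < C ∧ ∀ j : Fin k ⊕ Fin n, Tendsto (fun d : ℕ =>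
      gueMeasure (Fin k ⊕ Fin n) d
        {ω | C < ‖Matrix.toEuclideanCLM (n := Fin d) (𝕜 := ℂ) (gueMat ω j)‖}) atTop (𝓝 0))
    (hτ : ∀ w : List (Fin k ⊕ Fin n), τ ((w.map (Sum.elim a b)).prod) = (φ w : ℂ))
    (Q : Fin n → NCPoly k) (hQ : ∀ i, polyStar (Q i) = Q i) (δ : Fin n → ℝ)
    (hδ : ∀ i, 0 < δ i) :
    ⊥ < chi τ (fun i => polyEval a (Q i) + (Real.sqrt (δ i) : ℂ) • b i) := by
  obtain ⟨C, hC0, hC⟩ := hG2
  set B : Fin n → ℝ := fun i => (∑ w ∈ (Q i).coeff.support,
    ‖(Q i).coeff w‖ * C ^ (FreeMonoid.toList w).length) + Real.sqrt (δ i) * C with hB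
  have hB0 : ∀ i, 0 ≤ B i := fun i => by
    have : 0 ≤ ∑ w ∈ (Q i).coeff.support,
      ‖(Q i).coeff w‖ * C ^ (FreeMonoid.toList w).length :=
      Finset.sum_nonneg fun w _ => by positivity
    have h2 : 0 ≤ Real.sqrt (δ i) * C := by positivity
    exact add_nonneg this h2
  set R : ℝ := 1 + ∑ i, B i with hR
  have hR0 : 0 < R := by
    have : 0 ≤ ∑ i, B i := Finset.sum_nonneg fun i _ => hB0 i
    rw [hR]; linarith
  have hBR : ∀ i, B i ≤ R := fun i => by
    have := Finset.single_le_sum (fun i _ => hB0 i) (Finset.mem_univ i)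
    rw [hR]; linarith
  refine bot_lt_chi_of_volume τ _ δ hδ R hR0 fun m ε hε => ?_
  have hfin : {w : FreeMonoid (Fin n) | (FreeMonoid.toList w).length ≤ m}.Finite :=
    List.finite_length_le (Fin n) m
  set Wd : Finset (FreeMonoid (Fin n)) := hfin.toFinset with hWd
  set Θ : FreeMonoid (Fin n) → MonoidAlgebra ℂ (FreeMonoid (Fin k ⊕ Fin n)) :=
    fun w => FreeMonoid.lift (thetaLetter Q δ) w with hΘ
  classical
  set U : Finset (List (Fin k ⊕ Fin n)) :=
    Wd.biUnion fun w => (Θ w).coeff.support.image FreeMonoid.toList with hU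
  set S : ℝ := ∑ w ∈ Wd, ∑ u ∈ (Θ w).coeff.support, ‖(Θ w).coeff u‖ with hS
  have hS0 : 0 ≤ S := Finset.sum_nonneg fun w _ => Finset.sum_nonneg fun u _ => norm_nonneg _
  set η : ℝ := ε / (S + 1) with hη
  have hη0 : 0 < η := by positivity
  have hbad : Tendsto (fun d : ℕ => (∑ j, gueMeasure (Fin k ⊕ Fin n) d
        {ω | C < ‖Matrix.toEuclideanCLM (n := Fin d) (𝕜 := ℂ) (gueMat ω j)‖}) +
      ∑ u ∈ U, gueMeasure (Fin k ⊕ Fin n) d {ω | η ≤ ‖wordTr ω u - φ u‖}) atTop (𝓝 0) := by
    have := (tendsto_finsetSum Finset.univ fun j _ => hC j).add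
      (tendsto_finsetSum U fun u _ => hG1 u η hη0)
    simpa using this
  have h12 := hbad.eventually_lt_const (u := (1 / 2 : ℝ≥0∞)) (by norm_num)
  filter_upwards [h12, eventually_ge_atTop 1] with d hd hd1
  refine le_trans ?_ (gue_density_bound (K := Fin k) hd1 δ hδ (letterCoords Q)
    (measurable_letterCoords Q) _)
  set Good : Set ((Fin k ⊕ Fin n) × (Fin d × Fin d) → ℝ) :=
    {ω | WithLp.toLp 2 (fun p : Fin n × (Fin d × Fin d) =>
        letterCoords Q (fun q => ω (Sum.inl q.1, q.2)) p +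
          Real.sqrt (δ p.1) * ω (Sum.inr p.1, p.2)) ∈
      microstates τ (fun i => polyEval a (Q i) + (Real.sqrt (δ i) : ℂ) • b i) R m d ε} with hGood
  have hcover : (Set.univ : Set ((Fin k ⊕ Fin n) × (Fin d × Fin d) → ℝ)) ⊆
      Good ∪ ((⋃ j ∈ (Finset.univ : Finset (Fin k ⊕ Fin n)),
        {ω | C < ‖Matrix.toEuclideanCLM (n := Fin d) (𝕜 := ℂ) (gueMat ω j)‖}) ∪
        ⋃ u ∈ U, {ω | η ≤ ‖wordTr ω u - φ u‖}) := by
    intro ω _
    by_cases h1 : ∀ j, ‖Matrix.toEuclideanCLM (n := Fin d) (𝕜 := ℂ) (gueMat ω j)‖ ≤ C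
    swap
    · push Not at h1
      obtain ⟨j, hj⟩ := h1
      right; left
      exact Set.mem_biUnion (Finset.mem_coe.mpr (Finset.mem_univ j)) hj
    by_cases h2 : ∀ u ∈ U, ‖wordTr ω u - φ u‖ < η
    swap
    · push Not at h2
      obtain ⟨u, hu, hj⟩ := h2
      right; right
      exact Set.mem_biUnion (Finset.mem_coe.mpr hu) hj
    left
    rw [hGood, Set.mem_ofPred_eq]
    unfold microstates
    rw [Set.mem_ofPred_eq, matrixTuple_eq Q hQ δ ω]
    refine ⟨fun l => (norm_modelTuple_le Q δ ω C h1 l).trans (hBR l), fun w hw => ?_⟩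
    rw [matrixMoment_modelTuple, tau_wordEval_eq τ a b φ hτ Q δ w, ← Finset.sum_sub_distrib]
    have hwW : w ∈ Wd := by rw [hWd]; simpa using hw
    calc ‖∑ u ∈ (Θ w).coeff.support, ((Θ w).coeff u * wordTr ω (FreeMonoid.toList u) -
            (Θ w).coeff u * (φ (FreeMonoid.toList u) : ℂ))‖
        ≤ ∑ u ∈ (Θ w).coeff.support, ‖(Θ w).coeff u‖ * η := by
          refine (norm_sum_le _ _).trans (Finset.sum_le_sum fun u hu => ?_)
          rw [← mul_sub, norm_mul]
          refine mul_le_mul_of_nonneg_left ?_ (norm_nonneg _)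
          refine (h2 _ ?_).le
          rw [hU, Finset.mem_biUnion]
          exact ⟨w, hwW, Finset.mem_image_of_mem _ hu⟩
      _ = (∑ u ∈ (Θ w).coeff.support, ‖(Θ w).coeff u‖) * η := by rw [Finset.sum_mul]
      _ ≤ S * η := by
          refine mul_le_mul_of_nonneg_right ?_ hη0.le
          rw [hS]
          exact Finset.single_le_sum (f := fun w => ∑ u ∈ (Θ w).coeff.support, ‖(Θ w).coeff u‖)
            (fun w _ => Finset.sum_nonneg fun u _ => norm_nonneg _) hwW
      _ < ε := by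
          rw [hη, mul_div_assoc', div_lt_iff₀ (by positivity)]
          nlinarith
  have hprob := isProbabilityMeasure_gueMeasure (Fin k ⊕ Fin n) d
  have hone : (1 : ℝ≥0∞) ≤ gueMeasure (Fin k ⊕ Fin n) d Good + 1 / 2 := by
    calc (1 : ℝ≥0∞) = gueMeasure (Fin k ⊕ Fin n) d Set.univ := measure_univ.symm
      _ ≤ gueMeasure (Fin k ⊕ Fin n) d Good + gueMeasure (Fin k ⊕ Fin n) d
          ((⋃ j ∈ (Finset.univ : Finset (Fin k ⊕ Fin n)),
            {ω | C < ‖Matrix.toEuclideanCLM (n := Fin d) (𝕜 := ℂ) (gueMat ω j)‖}) ∪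
            ⋃ u ∈ U, {ω | η ≤ ‖wordTr ω u - φ u‖}) :=
          (measure_mono hcover).trans (measure_union_le _ _)
      _ ≤ gueMeasure (Fin k ⊕ Fin n) d Good + 1 / 2 := by
          gcongr
          refine (measure_union_le _ _).trans (le_trans ?_ hd.le)
          gcongr
          · exact measure_biUnion_finset_le _ _
          · exact measure_biUnion_finset_le _ _
  have h3 : (1 / 2 + 1 / 2 : ℝ≥0∞) ≤ gueMeasure (Fin k ⊕ Fin n) d Good + 1 / 2 := by
    rwa [ENNReal.add_halves]
  exact (ENNReal.add_le_add_iff_right (a := (1 / 2 : ℝ≥0∞)) (by norm_num)).mp h3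

end Crest.Agent.R089
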