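import Crest.Agent.R089.GUEDefs

/-! SKELETON (statements only) of the microstates lower bound of row 89 (helper952).
The real proofs live in GUEMoments (G1), GUENorm (G2), GUEVolume (G3a, G3b), GUEMain (G4). -/

set_option autoImplicit false

open MeasureTheory ProbabilityTheory Filter Topology
open Crest.OpAlg
open scoped ENNReal NNReal

namespace Crest.Agent.R089.Skel

/-- (G1) mixed moments converge in probability. -/
theorem gue_moments_tendsto {J : Type*} [Fintype J] [DecidableEq J] (φ : List J → ℝ)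
    (hφ : IsSD φ) (w : List J) (ε : ℝ) (hε : 0 < ε) :
    Tendsto (fun d : ℕ => gueMeasure J d {ω | ε ≤ ‖wordTr ω w - φ w‖}) atTop (𝓝 0) := by
  sorry

/-- (G2) operator norms are bounded with probability tending to one. -/
theorem gue_norm_tendsto (J : Type*) [Fintype J] :
    ∃ C : ℝ, 0 < C ∧ ∀ j : J, Tendsto (fun d : ℕ => gueMeasure J d
      {ω | C < ‖Matrix.toEuclideanCLM (n := Fin d) (𝕜 := ℂ) (gueMat ω j)‖}) atTop (𝓝 0) := by
  sorry

/-- (G3a) density bound: the law of `b(letters) + √δ · noise` has density at most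
`∏ (2 π δ_i / d)^(-d²/2)`. -/
theorem gue_density_bound {K : Type*} [Fintype K] {n d : ℕ} (hd : 0 < d) (δ : Fin n → ℝ)
    (hδ : ∀ i, 0 < δ i)
    (b : (K × (Fin d × Fin d) → ℝ) → (Fin n × (Fin d × Fin d) → ℝ)) (hb : Measurable b)
    (Γ : Set (EuclideanSpace ℝ (Fin n × (Fin d × Fin d)))) :
    gueMeasure (K ⊕ Fin n) d {ω | WithLp.toLp 2 (fun p : Fin n × (Fin d × Fin d) =>
        b (fun q => ω (Sum.inl q.1, q.2)) p + Real.sqrt (δ p.1) * ω (Sum.inr p.1, p.2)) ∈ Γ} ≤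
      ENNReal.ofReal (∏ i, ((Real.sqrt (2 * Real.pi * δ i / d))⁻¹) ^ (d ^ 2)) * volume Γ := by
  sorry

/-- (G3b) `EReal` bookkeeping: a uniform volume lower bound for the microstate sets gives
`χ > -∞`. -/
theorem bot_lt_chi_of_volume {A : Type*} [Ring A] [Algebra ℂ A] (τ : A →ₗ[ℂ] ℂ) {n : ℕ}
    (X : Fin n → A) (δ : Fin n → ℝ) (hδ : ∀ i, 0 < δ i) (R : ℝ) (hR : 0 < R)
    (h : ∀ (m : ℕ) (ε : ℝ), 0 < ε → ∀ᶠ d : ℕ in atTop,
      (1 / 2 : ℝ≥0∞) ≤ ENNReal.ofReal (∏ i, ((Real.sqrt (2 * Real.pi * δ i / d))⁻¹) ^ (d ^ 2)) *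
        volume (microstates τ X R m d ε)) :
    ⊥ < chi τ X := by
  sorry

/-- (G4) main theorem of this module. -/
theorem bot_lt_chi {A : Type*} [Ring A] [Algebra ℂ A] (τ : A →ₗ[ℂ] ℂ) {k n : ℕ}
    (a : Fin k → A) (b : Fin n → A) (φ : List (Fin k ⊕ Fin n) → ℝ) (hφ : IsSD φ)
    (hτ : ∀ w : List (Fin k ⊕ Fin n), τ ((w.map (Sum.elim a b)).prod) = (φ w : ℂ))
    (Q : Fin n → NCPoly k) (hQ : ∀ i, polyStar (Q i) = Q i) (δ : Fin n → ℝ)
    (hδ : ∀ i, 0 < δ i) :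
    ⊥ < chi τ (fun i => polyEval a (Q i) + (Real.sqrt (δ i) : ℂ) • b i) := by
  sorry

end Crest.Agent.R089.Skel
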