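import Mathlib

/-!
Row 89: the final numerical choice of `r` (number of letters per colour).  With
`δ' = r⁻³`, `s0 = K0 r^{3/2}` the gap between the `χ*` lower bound and the `χ` upper bound tends
to `∞`.  We take `r = m ^ 4`, so that `r ^ {3/2} = m ^ 6`.
-/

set_option autoImplicit false

namespace Crest.Agent.R089.Numeric

open Real

/-- The explicit upper bound of `χ` (closed form). -/
noncomputable def upper (r : ℕ) : ℝ :=
  3 * r * (1 / 2 * log (2 * π * exp 1 * (1 + 1 / (r : ℝ) ^ 3))) +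
    (r : ℝ) ^ 3 * (1 / 2 * log (2 * π * exp 1 * (1 / 2 + ((1 + 1 / (r : ℝ) ^ 3) ^ 3 - 1))))

/-- The explicit lower bound of `χ*` (closed form), with threshold `s0`. -/
noncomputable def lower (r : ℕ) (s0 : ℝ) : ℝ :=
  3 * r * (1 / 2 * log (2 * π * exp 1 * (1 / (r : ℝ) ^ 3)) +
      1 / 4 * (1 / (1 / (r : ℝ) ^ 3 + s0))) +
    (r : ℝ) ^ 3 * (1 / 2 * log (2 * π * exp 1 * (1 / 2)) + 1 / 4 * (1 / (1 / 2 + s0)))

lemma gap_aux (x c : ℝ) (hx : 1 ≤ x) (hcx : 28 ≤ c * x) :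
    1 / 2 ≤ c * x ^ 6 - 3 / 2 * x ^ 4 * (1 + 12 * x) - 7 := by
  have h5 : 1 ≤ x ^ 5 := one_le_pow₀ hx
  have h4 : x ^ 4 ≤ x ^ 5 := pow_le_pow_right₀ hx (by norm_num)
  have h1 : 28 * x ^ 5 ≤ c * x ^ 6 := by
    have := mul_le_mul_of_nonneg_right hcx (by positivity : (0 : ℝ) ≤ x ^ 5)
    calc 28 * x ^ 5 ≤ c * x * x ^ 5 := this
      _ = c * x ^ 6 := by ring
  have h2 : 3 / 2 * x ^ 4 * (1 + 12 * x) = 3 / 2 * x ^ 4 + 18 * x ^ 5 := by ring
  rw [h2]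
  nlinarith

theorem gap (K0 : ℝ) (hK0 : 0 ≤ K0) (m : ℕ) (hm : 112 * (1 + K0) ≤ m) :
    upper (m ^ 4) + 1 / 2 ≤ lower (m ^ 4) (K0 * (m : ℝ) ^ 6) := by
  set x : ℝ := (m : ℝ) with hxdef
  have hx : 1 ≤ x := by nlinarith
  have hx0 : 0 < x := by linarith
  have hr : ((m ^ 4 : ℕ) : ℝ) = x ^ 4 := by push_cast; rfl
  have hd : 1 / ((m ^ 4 : ℕ) : ℝ) ^ 3 = 1 / x ^ 12 := by rw [hr, ← pow_mul]
  unfold upper lower
  rw [hd, hr]
  set δ : ℝ := 1 / x ^ 12 with hδ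
  have hx12 : 1 ≤ x ^ 12 := one_le_pow₀ hx
  have hδ0 : 0 < δ := by positivity
  have hδ1 : δ ≤ 1 := by
    rw [hδ, div_le_one (by positivity)]; exact hx12
  set L : ℝ := log (2 * π * exp 1) with hL
  have hpe : (2 * π * exp 1) ≠ 0 := by positivity
  have e1 : log (2 * π * exp 1 * (1 + δ)) = L + log (1 + δ) := by
    rw [log_mul hpe (by positivity)]
  have hb : 0 < 1 / 2 + ((1 + δ) ^ 3 - 1) := by nlinarith [pow_pos hδ0 3, pow_pos hδ0 2]
  have e2 : log (2 * π * exp 1 * (1 / 2 + ((1 + δ) ^ 3 - 1))) =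
      L + log (1 / 2 + ((1 + δ) ^ 3 - 1)) := by
    rw [log_mul hpe hb.ne']
  have e3 : log (2 * π * exp 1 * δ) = L + log δ := by rw [log_mul hpe hδ0.ne']
  have e4 : log (2 * π * exp 1 * (1 / 2)) = L + log (1 / 2) := by
    rw [log_mul hpe (by norm_num)]
  rw [e1, e2, e3, e4]
  -- letters
  have hlet : log (1 + δ) - log δ ≤ 1 + 12 * x := by
    rw [← log_div (by positivity) hδ0.ne']
    have h1 : (1 + δ) / δ = x ^ 12 + 1 := by
      rw [hδ]; field_simp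
    rw [h1]
    have h2 : log (x ^ 12 + 1) ≤ log (2 * x ^ 12) := log_le_log (by positivity) (by linarith)
    have h3 : log (2 * x ^ 12) = log 2 + 12 * log x := by
      rw [log_mul (by norm_num) (by positivity), log_pow]; norm_num
    have h4 : log 2 ≤ 1 := by
      have := log_le_sub_one_of_pos (show (0 : ℝ) < 2 by norm_num); linarith
    have h5 : log x ≤ x := by
      have := log_le_sub_one_of_pos hx0; linarith
    linarith
  -- words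
  have hword : (x ^ 4) ^ 3 * (log (1 / 2 + ((1 + δ) ^ 3 - 1)) - log (1 / 2)) ≤ 14 := by
    rw [← log_div hb.ne' (by norm_num)]
    have h1 : (1 / 2 + ((1 + δ) ^ 3 - 1)) / (1 / 2) = 1 + 2 * ((1 + δ) ^ 3 - 1) := by ring
    rw [h1]
    have h2 : 0 < 1 + 2 * ((1 + δ) ^ 3 - 1) := by linarith
    have h3 : log (1 + 2 * ((1 + δ) ^ 3 - 1)) ≤ 2 * ((1 + δ) ^ 3 - 1) := by
      have := log_le_sub_one_of_pos h2; linarith
    have h4 : (1 + δ) ^ 3 - 1 ≤ 7 * δ := by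
      have : δ ^ 2 ≤ δ := by nlinarith
      have : δ ^ 3 ≤ δ := by nlinarith [pow_pos hδ0 2]
      nlinarith
    have h5 : (x ^ 4) ^ 3 * δ = 1 := by
      rw [hδ, ← pow_mul]; field_simp
    have h6 : (0 : ℝ) ≤ (x ^ 4) ^ 3 := by positivity
    calc (x ^ 4) ^ 3 * log (1 + 2 * ((1 + δ) ^ 3 - 1)) ≤ (x ^ 4) ^ 3 * (14 * δ) :=
          mul_le_mul_of_nonneg_left (by linarith) h6
      _ = 14 * ((x ^ 4) ^ 3 * δ) := by ring
      _ = 14 := by rw [h5]; ring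
  -- gain
  have hgain : x ^ 6 / (1 + K0) ≤ (x ^ 4) ^ 3 * (1 / (1 / 2 + K0 * x ^ 6)) := by
    have h6 : 1 ≤ x ^ 6 := one_le_pow₀ hx
    rw [div_le_iff₀ (by positivity), mul_one_div, div_mul_eq_mul_div,
      le_div_iff₀ (by positivity)]
    have : (x ^ 4) ^ 3 = x ^ 6 * x ^ 6 := by ring
    rw [this]
    have h7 : 1 / 2 + K0 * x ^ 6 ≤ x ^ 6 * (1 + K0) := by nlinarith
    calc x ^ 6 * (1 / 2 + K0 * x ^ 6) ≤ x ^ 6 * (x ^ 6 * (1 + K0)) :=
          mul_le_mul_of_nonneg_left h7 (by positivity)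
      _ = x ^ 6 * x ^ 6 * (1 + K0) := by ring
  have hgain0 : 0 ≤ 1 / (δ + K0 * x ^ 6) := by positivity
  have hc : 28 ≤ 1 / (4 * (1 + K0)) * x := by
    rw [div_mul_eq_mul_div, le_div_iff₀ (by positivity)]
    nlinarith
  have haux := gap_aux x (1 / (4 * (1 + K0))) hx hc
  have hg2 : 1 / (4 * (1 + K0)) * x ^ 6 = 1 / 4 * (x ^ 6 / (1 + K0)) := by
    field_simp
  rw [hg2] at haux
  have hlet2 : 3 / 2 * x ^ 4 * (log (1 + δ) - log δ) ≤ 3 / 2 * x ^ 4 * (1 + 12 * x) :=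
    mul_le_mul_of_nonneg_left hlet (by positivity)
  have hx4 : 0 ≤ 3 * x ^ 4 * (1 / 4 * (1 / (δ + K0 * x ^ 6))) := by positivity
  nlinarith

/-- The choice of `r`: there is an arbitrarily large `r = m ^ 4` with gap at least `1/2`, where
the threshold is `s0 = K0 * r ^ (3/2)`. -/
theorem exists_r (K0 : ℝ) (hK0 : 0 ≤ K0) (R0 : ℕ) :
    ∃ r : ℕ, R0 ≤ r ∧ 2 ≤ r ∧ upper r + 1 / 2 ≤ lower r (K0 * (r : ℝ) ^ (3 / 2 : ℝ)) := by
  obtain ⟨m, hm⟩ := exists_nat_ge (max (112 * (1 + K0)) R0)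
  have h1 : 112 * (1 + K0) ≤ (m : ℝ) := (le_max_left _ _).trans hm
  have h2 : (R0 : ℝ) ≤ m := (le_max_right _ _).trans hm
  have h2' : R0 ≤ m := by exact_mod_cast h2
  have hm112 : (112 : ℝ) ≤ m := by nlinarith
  have hm112' : 112 ≤ m := by exact_mod_cast hm112
  have hle : m ≤ m ^ 4 := Nat.le_self_pow (by norm_num) m
  refine ⟨m ^ 4, h2'.trans hle, by omega, ?_⟩
  have h3 : (((m ^ 4 : ℕ) : ℝ)) ^ (3 / 2 : ℝ) = (m : ℝ) ^ 6 := by
    push_cast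
    rw [← Real.rpow_natCast (m : ℝ) 4, ← Real.rpow_mul (Nat.cast_nonneg m),
      ← Real.rpow_natCast (m : ℝ) 6]
    norm_num
  rw [h3]
  exact gap K0 hK0 m h1

end Crest.Agent.R089.Numeric
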