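import Crest.Agent.R089.FreeBasics
import Crest.Agent.R089.Freeness
import Crest.Agent.R089.ChiXX
import Crest.Agent.R089.FisherSmall
import Crest.Agent.R089.ChiLower
import Crest.Agent.R089.FisherLarge
import Crest.Agent.R089.ModelLemmas
import Crest.Agent.R089.Numeric

/-! Final assembly of S0118 (helper89). -/

set_option autoImplicit false

open Crest.OpAlg Crest.Agent.R089.Model

namespace Crest.Agent.R089.Main

theorem main :
    ∃ (A : Type) (_ : CStarAlgebra A) (τ : A →ₗ[ℂ] ℂ) (n : ℕ) (X S : Fin n → A),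
      Crest.OpAlg.IsFaithfulTracialState τ ∧ 2 ≤ n ∧ (∀ i, IsSelfAdjoint (X i)) ∧
      Crest.OpAlg.IsStandardSemicircular τ S ∧ Crest.OpAlg.IsFreeFamily τ (Crest.OpAlg.withNoise X S) ∧
      (∀ s : ℝ, 0 < s → Crest.OpAlg.freeFisher τ (Crest.OpAlg.heatTuple X S s) < ⊤) ∧
      MeasureTheory.IntegrableOn
        (fun s : ℝ => (n : ℝ) / (1 + s) - (Crest.OpAlg.freeFisher τ (Crest.OpAlg.heatTuple X S s)).toReal)
        (Set.Ioi 0) ∧
      ⊥ < Crest.OpAlg.chi τ X ∧ Crest.OpAlg.chi τ X ≤ ((Crest.OpAlg.chiStar τ X S - 1 / 2 : ℝ) : EReal) := by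
  obtain ⟨K0, hK0, hlarge⟩ := FL.fisher_le_large
  obtain ⟨r, -, hr2, hnum⟩ := Numeric.exists_r K0 hK0 2
  obtain ⟨A, iA, τ, s, φ, hM, hF⟩ := exists_model_free (Fin (kk r) ⊕ Fin (nn r)) (nn r)
  have hr0 : (0 : ℝ) < r := by positivity
  set d : ℝ := 1 / (r : ℝ) ^ 3 with hd
  have hd0 : 0 < d := by positivity
  have hδ : ∀ i, 0 < delt r d i := ModelLemmas.delt_pos r d hd0
  have hsa : ∀ i, IsSelfAdjoint (XX r d s i) := ModelLemmas.isSelfAdjoint_XX r d s hM.sa
  have hsc := Crest.Agent.R089.model_semicircular τ s φ hM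
  have hfree : IsFreeFamily τ (withNoise (XX r d s) (SS r s)) := by
    refine hF (XX r d s) fun i => ?_
    unfold XX
    refine Subalgebra.add_mem _ ?_ (Subalgebra.smul_mem _ ?_ _)
    · exact ModelLemmas.polyEval_mem _ _ _ fun j => Algebra.subset_adjoin ⟨Sum.inl j, rfl⟩
    · exact Algebra.subset_adjoin ⟨Sum.inr i, rfl⟩
  obtain ⟨hfin, hint, hlow⟩ := FreeBasics.chiStar_lower_of_free (τ := τ) hM.trace.1
    (X := XX r d s) (S := SS r s) hsc hfree (fun i => 1 + delt r d i) (delt r d)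
    (fun i => by have := hδ i; positivity) hδ
    (ChiXX.second_moment r d hd0.le τ s φ hM)
    (fun t ht => Crest.Agent.R089.fisher_le r d hd0 τ s φ hM t ht)
    (K0 * (r : ℝ) ^ (3 / 2 : ℝ)) (by positivity)
    (fun t ht => hlarge r (by omega) d hd0 A iA τ s φ hM t ht)
  refine ⟨A, iA, τ, nn r, XX r d s, SS r s, hM.trace, ?_, hsa, hsc, hfree, hfin, hint,
    ChiLower.bot_lt_chi r d hd0 τ s φ hM, ?_⟩
  · rw [ModelLemmas.card_idx]
    nlinarith
  · refine (ChiXX.chi_XX_le r d hd0 τ s φ hM).trans ?_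
    rw [EReal.coe_le_coe_iff]
    have hsum := ModelLemmas.sum_delt r d fun x =>
      1 / 2 * Real.log (2 * Real.pi * Real.exp 1 * x) +
        1 / 4 * (1 / (x + K0 * (r : ℝ) ^ (3 / 2 : ℝ)))
    rw [hsum] at hlow
    unfold Numeric.upper Numeric.lower at hnum
    linarith

end Crest.Agent.R089.Main
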