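import Crest.Agent.R089.Model

/-! SKELETON of the final assembly of S0118 (helper89).  Statements only; the real proofs live in
the modules named in each docstring.  Everything in this file that says `sorry` is an interface. -/

set_option autoImplicit false

open Crest.OpAlg Crest.Agent.R089.Model
open scoped ENNReal

namespace Crest.Agent.R089.MainSkel

/-- (A) helper905. -/
theorem exists_model (J : Type) [DecidableEq J] :
    ∃ (A : Type) (_ : CStarAlgebra A) (τ : A →ₗ[ℂ] ℂ) (s : J → A) (φ : List J → ℝ),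
      IsModel τ s φ := by
  sorry

/-- (A2) helper439 (pure consequence of the moments, or proved in the Fock model). -/
theorem model_free {K : Type} [DecidableEq K] {n : ℕ} {A : Type} [CStarAlgebra A]
    (τ : A →ₗ[ℂ] ℂ) (s : K ⊕ Fin n → A) (φ : List (K ⊕ Fin n) → ℝ) (h : IsModel τ s φ)
    (X : Fin n → A)
    (hX : ∀ i, X i ∈ Algebra.adjoin ℂ (Set.range fun j : K => s (Sum.inl j))) :
    IsFreeFamily τ (withNoise X (fun i => s (Sum.inr i))) := by
  sorry

/-- (A3) Catalan moments. -/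
theorem model_semicircular {K : Type} [DecidableEq K] {n : ℕ} {A : Type} [CStarAlgebra A]
    (τ : A →ₗ[ℂ] ℂ) (s : K ⊕ Fin n → A) (φ : List (K ⊕ Fin n) → ℝ) (h : IsModel τ s φ) :
    IsStandardSemicircular τ (fun i => s (Sum.inr i)) := by
  sorry

/-- (T2) second moments of `X` (helper69). -/
theorem second_moment (r : ℕ) (d : ℝ) (hd : 0 ≤ d) {A : Type} [CStarAlgebra A]
    (τ : A →ₗ[ℂ] ℂ) (s : Jx r → A) (φ : List (Jx r) → ℝ) (h : IsModel τ s φ)
    (i : Fin (nn r)) :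
    τ (XX r d s i * XX r d s i) = ((1 + delt r d i : ℝ) : ℂ) := by
  sorry

/-- (E) final form of the microstates upper bound (helper69): `VolUpper.chi_le` + `CubicVar`. -/
theorem chi_XX_le (r : ℕ) (d : ℝ) (hd : 0 < d) {A : Type} [CStarAlgebra A]
    (τ : A →ₗ[ℂ] ℂ) (s : Jx r → A) (φ : List (Jx r) → ℝ) (h : IsModel τ s φ) :
    chi τ (XX r d s) ≤
      ((3 * r * (1 / 2 * Real.log (2 * Real.pi * Real.exp 1 * (1 + d))) +
        (r : ℝ) ^ 3 * (1 / 2 * Real.log (2 * Real.pi * Real.exp 1 *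
          (1 / 2 + ((1 + d) ^ 3 - 1)))) : ℝ) : EReal) := by
  sorry

/-- (T4) small-noise Fisher bound, all `t > 0` (helper251). -/
theorem fisher_le (r : ℕ) (d : ℝ) (hd : 0 < d) {A : Type} [CStarAlgebra A]
    (τ : A →ₗ[ℂ] ℂ) (s : Jx r → A) (φ : List (Jx r) → ℝ) (h : IsModel τ s φ)
    (t : ℝ) (ht : 0 < t) :
    freeFisher τ (heatTuple (XX r d s) (SS r s) t) ≤
      ENNReal.ofReal (∑ i, 1 / (delt r d i + t)) := by
  sorry

/-- (T5) large-noise Fisher bound (helper251 with helper459's bounds). -/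
theorem fisher_le_large : ∃ K0 : ℝ, 0 ≤ K0 ∧ ∀ (r : ℕ) (_ : 0 < r) (d : ℝ) (_ : 0 < d)
    (A : Type) (_ : CStarAlgebra A)
    (τ : A →ₗ[ℂ] ℂ) (s : Jx r → A) (φ : List (Jx r) → ℝ) (_ : IsModel τ s φ)
    (t : ℝ) (_ : K0 * (r : ℝ) ^ (3 / 2 : ℝ) < t),
    freeFisher τ (heatTuple (XX r d s) (SS r s) t) ≤
      ENNReal.ofReal (∑ i, (1 / (delt r d i + t) - 1 / (2 * (delt r d i + t) ^ 2))) := by
  sorry

/-- (F) helper952 / helper789. -/
theorem bot_lt_chi (r : ℕ) (d : ℝ) (hd : 0 < d) {A : Type} [CStarAlgebra A]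
    (τ : A →ₗ[ℂ] ℂ) (s : Jx r → A) (φ : List (Jx r) → ℝ) (h : IsModel τ s φ) :
    ⊥ < chi τ (XX r d s) := by
  sorry

end Crest.Agent.R089.MainSkel
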