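import Mathlib

/-!
# R089: sums over the splittings `u = p ++ b :: q` of a list

`ss F u = ∑_{u = p ++ b :: q} F p b q`.
-/

set_option autoImplicit false

namespace Crest.Agent.R089

section ss

variable {α β R : Type*}

/-- Sum of `F p b q` over all splittings `u = p ++ b :: q`. -/
def ss [AddCommMonoid R] (F : List α → α → List α → R) : List α → R
  | [] => 0
  | a :: u => F [] a u + ss (fun p b q => F (a :: p) b q) u

@[simp] theorem ss_nil [AddCommMonoid R] (F : List α → α → List α → R) : ss F [] = 0 := rfl

theorem ss_cons [AddCommMonoid R] (F : List α → α → List α → R) (a : α) (u : List α) :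
    ss F (a :: u) = F [] a u + ss (fun p b q => F (a :: p) b q) u := rfl

theorem ss_congr [AddCommMonoid R] {F F' : List α → α → List α → R} (u : List α)
    (h : ∀ p b q, p ++ b :: q = u → F p b q = F' p b q) : ss F u = ss F' u := by
  induction u generalizing F F' with
  | nil => rfl
  | cons a u ih =>
    rw [ss_cons, ss_cons, h [] a u rfl]
    congr 1
    exact ih fun p b q hpq => h (a :: p) b q (by simp [hpq])

@[simp] theorem ss_zero [AddCommMonoid R] (u : List α) :
    ss (fun _ _ _ => (0 : R)) u = 0 := by
  induction u with
  | nil => rfl
  | cons a u ih => rw [ss_cons, ih, add_zero]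

theorem ss_add [AddCommMonoid R] (F F' : List α → α → List α → R) (u : List α) :
    ss (fun p b q => F p b q + F' p b q) u = ss F u + ss F' u := by
  induction u generalizing F F' with
  | nil => simp
  | cons a u ih =>
    rw [ss_cons, ss_cons, ss_cons, ih]
    exact add_add_add_comm _ _ _ _

theorem ss_mul_left [NonUnitalNonAssocSemiring R] (r : R) (F : List α → α → List α → R)
    (u : List α) : ss (fun p b q => r * F p b q) u = r * ss F u := by
  induction u generalizing F with
  | nil => simp
  | cons a u ih => rw [ss_cons, ss_cons, ih, mul_add]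

theorem ss_mul_right [NonUnitalNonAssocSemiring R] (r : R) (F : List α → α → List α → R)
    (u : List α) : ss (fun p b q => F p b q * r) u = ss F u * r := by
  induction u generalizing F with
  | nil => simp
  | cons a u ih => rw [ss_cons, ss_cons, ih, add_mul]

theorem ss_finset_sum [AddCommMonoid R] (s : Finset β) (F : β → List α → α → List α → R)
    (u : List α) :
    ss (fun p b q => ∑ i ∈ s, F i p b q) u = ∑ i ∈ s, ss (F i) u := by
  induction u generalizing F with
  | nil => simp
  | cons a u ih =>
    rw [ss_cons, ih, ← Finset.sum_add_distrib]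
    rfl

theorem ss_append [AddCommMonoid R] (F : List α → α → List α → R) (u v : List α) :
    ss F (u ++ v) = ss (fun p b q => F p b (q ++ v)) u + ss (fun p b q => F (u ++ p) b q) v := by
  induction u generalizing F with
  | nil => simp
  | cons a u ih =>
    rw [List.cons_append, ss_cons, ss_cons, ih, add_assoc]
    rfl

/-- Double splittings: `u = u₁ i u₂`, `u₂ = A j B` versus `u = U' j U''`, `U' = A i B`. -/
theorem ss_ss [AddCommMonoid R] (F : List α → α → List α → α → List α → R) (u : List α) :
    ss (fun u₁ i u₂ => ss (fun A j B => F u₁ i A j B) u₂) u =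
      ss (fun U' j U'' => ss (fun A i B => F A i B j U'') U') u := by
  induction u generalizing F with
  | nil => simp
  | cons a u ih =>
    rw [ss_cons, ss_cons, ih (fun A i B j C => F (a :: A) i B j C), ss_nil, zero_add]
    simp only [ss_cons]
    rw [ss_add]

theorem ss_nonneg {F : List α → α → List α → ℝ} (h : ∀ p b q, 0 ≤ F p b q) (u : List α) :
    0 ≤ ss F u := by
  induction u generalizing F with
  | nil => simp
  | cons a u ih =>
    rw [ss_cons]
    exact add_nonneg (h _ _ _) (ih fun p b q => h (a :: p) b q)

theorem ss_eq_sum_fin [AddCommMonoid R] (F : List α → α → List α → R) (u : List α) :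
    ss F u = ∑ k : Fin u.length, F (u.take k) u[k] (u.drop (k + 1)) := by
  induction u generalizing F with
  | nil => simp
  | cons a u ih =>
    rw [ss_cons, ih]
    change _ = ∑ k : Fin (u.length + 1), F ((a :: u).take k) (a :: u)[k] ((a :: u).drop (k + 1))
    rw [Fin.sum_univ_succ]
    simp

/-- The form used in `Crest.OpAlg.splitPairing`. -/
theorem ss_eq_sum_range [DecidableEq α] [AddCommMonoid R] (a : α) (f : List α → List α → R)
    (u : List α) :
    ss (fun p b q => if b = a then f p q else 0) u =
      ∑ k ∈ Finset.range u.length,
        if u[k]? = some a then f (u.take k) (u.drop (k + 1)) else 0 := by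
  rw [ss_eq_sum_fin, Finset.sum_range]
  refine Finset.sum_congr rfl fun k _ => ?_
  simp

end ss

end Crest.Agent.R089
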