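import Crest.Agent.R089.CubicBridge
import Crest.Agent.R089.ModelLemmas

set_option autoImplicit false
set_option linter.unusedSectionVars false

/-!
R089 (S0118): algebra glue for the large-noise Fisher bound (helper459).
-/

namespace Crest.Agent.R089.T5Glue

open Crest.Agent.R089 Crest.OpAlg Crest.Agent.R089.Model Crest.Agent.R089.Fn

section gen
variable {A : Type*} [Ring A] [Algebra ℂ A] {L I E : Type*} [DecidableEq L] [Fintype E]

/-- trace of a letter word times a product of blocks. -/
theorem tau_block (τ : A →ₗ[ℂ] ℂ) (s : L → A) (m : List L → ℝ)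
    (hm : ∀ w : List L, τ ((w.map s).prod) = (m w : ℂ)) (c : I → E → ℝ) (w : I → E → List L)
    (Z : I → A) (hZ : ∀ i, Z i = ∑ e, (c i e : ℂ) • ((w i e).map s).prod)
    (x : List L) (U : List I) :
    τ ((x.map s).prod * (U.map Z).prod) = (tau2 m c w x U : ℂ) := by
  induction U generalizing x with
  | nil => rw [tau2_nil, List.map_nil, List.prod_nil, mul_one, hm]
  | cons j U ih =>
    rw [tau2_cons, List.map_cons, List.prod_cons, hZ j, Finset.sum_mul, Finset.mul_sum, map_sum]
    push_cast
    refine Finset.sum_congr rfl fun e _ => ?_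
    rw [smul_mul_assoc, mul_smul_comm, map_smul, smul_eq_mul, ← ih, List.map_append,
      List.prod_append, mul_assoc]

end gen

section model
variable {A : Type*} [Ring A] [Algebra ℂ A] (r : ℕ)

/-- the block coefficients for the concrete model. -/
noncomputable def cM : Fin (nn r) → Bool → ℝ := cI (ei r).symm

/-- the block words for the concrete model (letters `Fin (kk r)`). -/
noncomputable def wM : Fin (nn r) → Bool → List (Fin (kk r)) := wI (eh r) (ei r).symm

theorem polyEval_QQ_block (a : Fin (kk r) → A) (i : Fin (nn r)) :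
    polyEval a (QQ r i) = ∑ e, (cM r i e : ℂ) • ((wM r i e).map a).prod := by
  rw [Fintype.sum_bool]
  unfold QQ cM wM cI wI
  rcases (ei r).symm i with h | ⟨x, y, z⟩
  · simp only [cc, wc, Qi, ChiStar.polyEval_single, ChiStar.wordEval_of]
    simp
  · simp only [cc, wc, Qi, ModelLemmas.polyEval_cubic]
    simp [mul_assoc]
    rw [add_comm]

/-- `Z_i = Y_i + ν_i b_i` is a block of `cZ`, `wZ`. -/
theorem Z_block (a : Fin (kk r) → A) (b : Fin (nn r) → A) (ν : Fin (nn r) → ℝ) (i : Fin (nn r)) :
    polyEval a (QQ r i) + (ν i : ℂ) • b i =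
      ∑ e, (cZ (cM r) ν i e : ℂ) • ((wZ (wM r) i e).map (Sum.elim a b)).prod := by
  rw [Fintype.sum_option, add_comm, polyEval_QQ_block]
  congr 1
  · simp [cZ, wZ]
  · refine Finset.sum_congr rfl fun e _ => ?_
    simp only [cZ, wZ, List.map_map]
    rfl

end model

end Crest.Agent.R089.T5Glue
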